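import Vale.Agent.P141.H922.PairW

/-!
# P141, line W: calculus of the pair weight

Scaling, monotonicity, interpolation, change of the box, product boxes and tensor edges for
`n2`, `n4`, `nN`, `pw3`, `wP`.
-/

namespace Vale.Agent.P141.H419

open Finset
open Vale.Agent.P141.PL.H315 (avg avg_nonneg e12 e13 e23 Tri atm)
open Vale.Agent.P141.H922

noncomputable section

variable {X : Type*}

/-! ### averages -/

theorem avg_mono {Q : Finset X} {f g : X → ℝ} (h : ∀ x ∈ Q, f x ≤ g x) : avg Q f ≤ avg Q g :=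
  mul_le_mul_of_nonneg_left (sum_le_sum h) (inv_nonneg.mpr (Nat.cast_nonneg _))

theorem avg_congr {Q : Finset X} {f g : X → ℝ} (h : ∀ x ∈ Q, f x = g x) : avg Q f = avg Q g := by
  unfold avg; rw [sum_congr rfl h]

theorem avg_smul (Q : Finset X) (c : ℝ) (f : X → ℝ) : avg Q (fun x => c * f x) = c * avg Q f := by
  unfold avg; rw [← mul_sum]; ring

theorem avg_add (Q : Finset X) (f g : X → ℝ) :
    avg Q (fun x => f x + g x) = avg Q f + avg Q g := by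
  unfold avg; rw [sum_add_distrib]; ring

theorem avg_empty (f : X → ℝ) : avg ∅ f = 0 := by simp [avg]

theorem card_mul_avg (Q : Finset X) (f : X → ℝ) : (Q.card : ℝ) * avg Q f = ∑ x ∈ Q, f x := by
  rcases Q.eq_empty_or_nonempty with rfl | hQ
  · simp [avg]
  · have : (Q.card : ℝ) ≠ 0 := by exact_mod_cast hQ.card_pos.ne'
    unfold avg; field_simp

theorem avg_const {Q : Finset X} (hQ : Q.Nonempty) (c : ℝ) : avg Q (fun _ => c) = c := by
  have : (Q.card : ℝ) ≠ 0 := by exact_mod_cast hQ.card_pos.ne'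
  unfold avg; rw [sum_const, nsmul_eq_mul]; field_simp

theorem avg_const_le (Q : Finset X) {c : ℝ} (hc : 0 ≤ c) : avg Q (fun _ => c) ≤ c := by
  rcases Q.eq_empty_or_nonempty with rfl | hQ
  · simpa [avg] using hc
  · exact (avg_const hQ c).le

/-- Cauchy–Schwarz for averages -/
theorem avg_mul_sq_le (Q : Finset X) (f g : X → ℝ) :
    (avg Q fun x => f x * g x) ^ 2 ≤ (avg Q fun x => f x ^ 2) * (avg Q fun x => g x ^ 2) := by
  have h := sum_mul_sq_le_sq_mul_sq Q f g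
  unfold avg
  calc ((Q.card : ℝ)⁻¹ * ∑ x ∈ Q, f x * g x) ^ 2
      = (Q.card : ℝ)⁻¹ ^ 2 * (∑ x ∈ Q, f x * g x) ^ 2 := by ring
    _ ≤ (Q.card : ℝ)⁻¹ ^ 2 * ((∑ x ∈ Q, f x ^ 2) * ∑ x ∈ Q, g x ^ 2) :=
        mul_le_mul_of_nonneg_left h (by positivity)
    _ = _ := by ring

/-- change of the set: a nonnegative function -/
theorem avg_le_of_subset {Q Q' : Finset X} (h : Q ⊆ Q') {K : ℝ} (hK : 0 ≤ K)
    (hc : (Q'.card : ℝ) ≤ K * Q.card) {f : X → ℝ} (hf : ∀ x ∈ Q', 0 ≤ f x) :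
    avg Q f ≤ K * avg Q' f := by
  rcases Q.eq_empty_or_nonempty with rfl | hQ
  · rw [avg_empty]
    exact mul_nonneg hK (avg_nonneg hf)
  have h1 : (0 : ℝ) < Q.card := by exact_mod_cast hQ.card_pos
  have h2 : (0 : ℝ) < Q'.card := by exact_mod_cast (hQ.mono h).card_pos
  have hs : ∑ x ∈ Q, f x ≤ ∑ x ∈ Q', f x :=
    sum_le_sum_of_subset_of_nonneg h fun x hx _ => hf x hx
  have hs0 : 0 ≤ ∑ x ∈ Q', f x := sum_nonneg hf
  unfold avg
  calc (Q.card : ℝ)⁻¹ * ∑ x ∈ Q, f x ≤ (Q.card : ℝ)⁻¹ * ∑ x ∈ Q', f x :=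
        mul_le_mul_of_nonneg_left hs (by positivity)
    _ ≤ (K * (Q'.card : ℝ)⁻¹) * ∑ x ∈ Q', f x := by
        refine mul_le_mul_of_nonneg_right ?_ hs0
        rw [inv_le_iff_one_le_mul₀ h1]
        calc (1 : ℝ) = Q'.card * (Q'.card : ℝ)⁻¹ := by field_simp
          _ ≤ K * Q.card * (Q'.card : ℝ)⁻¹ := mul_le_mul_of_nonneg_right hc (by positivity)
          _ = _ := by ring
    _ = _ := by ring

/-! ### scaling -/

theorem n2_smul (Q : Finset X) (c : ℝ) (f : X → ℝ) : n2 Q (fun x => c * f x) = |c| * n2 Q f := by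
  unfold n2
  rw [show (fun x => (c * f x) ^ 2) = fun x => c ^ 2 * f x ^ 2 from by funext x; ring, avg_smul,
    Real.sqrt_mul (sq_nonneg c), Real.sqrt_sq_eq_abs]

theorem n4_smul (Q : Finset X) (c : ℝ) (f : X → ℝ) : n4 Q (fun x => c * f x) = |c| * n4 Q f := by
  unfold n4
  rw [show (fun x => (c * f x) ^ 4) = fun x => (c ^ 2) ^ 2 * f x ^ 4 from by funext x; ring,
    avg_smul, Real.sqrt_mul (sq_nonneg _), Real.sqrt_sq (sq_nonneg c),
    Real.sqrt_mul (sq_nonneg c), Real.sqrt_sq_eq_abs]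

theorem nN_smul (Q : Finset X) (c : ℝ) (f : X → ℝ) : nN Q (fun x => c * f x) = |c| * nN Q f := by
  unfold nN
  rw [n2_smul, n4_smul, show |c| * n2 Q f * (|c| * n4 Q f) = |c| ^ 2 * (n2 Q f * n4 Q f) by ring,
    Real.sqrt_mul (sq_nonneg _), Real.sqrt_sq (abs_nonneg c)]

theorem n2_zero (Q : Finset X) : n2 Q (fun _ => (0 : ℝ)) = 0 := by
  simpa using n2_smul Q 0 (fun _ => (0 : ℝ))

theorem n4_zero (Q : Finset X) : n4 Q (fun _ => (0 : ℝ)) = 0 := by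
  simpa using n4_smul Q 0 (fun _ => (0 : ℝ))

theorem nN_zero (Q : Finset X) : nN Q (fun _ => (0 : ℝ)) = 0 := by
  simpa using nN_smul Q 0 (fun _ => (0 : ℝ))

/-! ### monotonicity -/

theorem n2_mono {Q : Finset X} {f g : X → ℝ} (h : ∀ x ∈ Q, |f x| ≤ |g x|) : n2 Q f ≤ n2 Q g :=
  Real.sqrt_le_sqrt (avg_mono fun x hx => sq_le_sq.mpr (h x hx))

theorem pow_four_le {a b : ℝ} (h : |a| ≤ |b|) : a ^ 4 ≤ b ^ 4 := by
  have h1 : a ^ 2 ≤ b ^ 2 := sq_le_sq.mpr h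
  calc a ^ 4 = (a ^ 2) ^ 2 := by ring
    _ ≤ (b ^ 2) ^ 2 := pow_le_pow_left₀ (sq_nonneg a) h1 2
    _ = _ := by ring

theorem n4_mono {Q : Finset X} {f g : X → ℝ} (h : ∀ x ∈ Q, |f x| ≤ |g x|) : n4 Q f ≤ n4 Q g :=
  Real.sqrt_le_sqrt (Real.sqrt_le_sqrt (avg_mono fun x hx => pow_four_le (h x hx)))

theorem nN_mono {Q : Finset X} {f g : X → ℝ} (h : ∀ x ∈ Q, |f x| ≤ |g x|) : nN Q f ≤ nN Q g :=
  Real.sqrt_le_sqrt (mul_le_mul (n2_mono h) (n4_mono h) (n4_nonneg _ _) (n2_nonneg _ _))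

theorem n2_congr {Q : Finset X} {f g : X → ℝ} (h : ∀ x ∈ Q, |f x| = |g x|) : n2 Q f = n2 Q g :=
  le_antisymm (n2_mono fun x hx => (h x hx).le) (n2_mono fun x hx => (h x hx).ge)

theorem n4_congr {Q : Finset X} {f g : X → ℝ} (h : ∀ x ∈ Q, |f x| = |g x|) : n4 Q f = n4 Q g :=
  le_antisymm (n4_mono fun x hx => (h x hx).le) (n4_mono fun x hx => (h x hx).ge)

theorem nN_congr {Q : Finset X} {f g : X → ℝ} (h : ∀ x ∈ Q, |f x| = |g x|) : nN Q f = nN Q g :=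
  le_antisymm (nN_mono fun x hx => (h x hx).le) (nN_mono fun x hx => (h x hx).ge)

theorem n2_abs (Q : Finset X) (f : X → ℝ) : n2 Q (fun x => |f x|) = n2 Q f :=
  n2_congr fun x _ => abs_abs (f x)

theorem n4_abs (Q : Finset X) (f : X → ℝ) : n4 Q (fun x => |f x|) = n4 Q f :=
  n4_congr fun x _ => abs_abs (f x)

theorem nN_abs (Q : Finset X) (f : X → ℝ) : nN Q (fun x => |f x|) = nN Q f :=
  nN_congr fun x _ => abs_abs (f x)

/-- multiplication by a function bounded by one -/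
theorem n2_mul_le {Q : Finset X} {g : X → ℝ} (hg : ∀ x ∈ Q, |g x| ≤ 1) (f : X → ℝ) :
    n2 Q (fun x => g x * f x) ≤ n2 Q f :=
  n2_mono fun x hx => by
    rw [abs_mul]; exact mul_le_of_le_one_left (abs_nonneg _) (hg x hx)

theorem n4_mul_le {Q : Finset X} {g : X → ℝ} (hg : ∀ x ∈ Q, |g x| ≤ 1) (f : X → ℝ) :
    n4 Q (fun x => g x * f x) ≤ n4 Q f :=
  n4_mono fun x hx => by
    rw [abs_mul]; exact mul_le_of_le_one_left (abs_nonneg _) (hg x hx)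

theorem nN_mul_le {Q : Finset X} {g : X → ℝ} (hg : ∀ x ∈ Q, |g x| ≤ 1) (f : X → ℝ) :
    nN Q (fun x => g x * f x) ≤ nN Q f :=
  nN_mono fun x hx => by
    rw [abs_mul]; exact mul_le_of_le_one_left (abs_nonneg _) (hg x hx)

/-- multiplication by a function bounded by `c` -/
theorem n2_mul_sup_le {Q : Finset X} {g : X → ℝ} {c : ℝ} (hc : 0 ≤ c)
    (hg : ∀ x ∈ Q, |g x| ≤ c) (f : X → ℝ) :
    n2 Q (fun x => g x * f x) ≤ c * n2 Q f := by
  calc n2 Q (fun x => g x * f x) ≤ n2 Q (fun x => c * f x) := n2_mono fun x hx => by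
        rw [abs_mul, abs_mul, abs_of_nonneg hc]
        exact mul_le_mul_of_nonneg_right (hg x hx) (abs_nonneg _)
    _ = c * n2 Q f := by rw [n2_smul, abs_of_nonneg hc]

theorem n4_mul_sup_le {Q : Finset X} {g : X → ℝ} {c : ℝ} (hc : 0 ≤ c)
    (hg : ∀ x ∈ Q, |g x| ≤ c) (f : X → ℝ) :
    n4 Q (fun x => g x * f x) ≤ c * n4 Q f := by
  calc n4 Q (fun x => g x * f x) ≤ n4 Q (fun x => c * f x) := n4_mono fun x hx => by
        rw [abs_mul, abs_mul, abs_of_nonneg hc]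
        exact mul_le_mul_of_nonneg_right (hg x hx) (abs_nonneg _)
    _ = c * n4 Q f := by rw [n4_smul, abs_of_nonneg hc]

theorem nN_mul_sup_le {Q : Finset X} {g : X → ℝ} {c : ℝ} (hc : 0 ≤ c)
    (hg : ∀ x ∈ Q, |g x| ≤ c) (f : X → ℝ) :
    nN Q (fun x => g x * f x) ≤ c * nN Q f := by
  calc nN Q (fun x => g x * f x) ≤ nN Q (fun x => c * f x) := nN_mono fun x hx => by
        rw [abs_mul, abs_mul, abs_of_nonneg hc]
        exact mul_le_mul_of_nonneg_right (hg x hx) (abs_nonneg _)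
    _ = c * nN Q f := by rw [nN_smul, abs_of_nonneg hc]

/-! ### comparison of the norms -/

theorem nN_le_n4 (Q : Finset X) (f : X → ℝ) : nN Q f ≤ n4 Q f := by
  unfold nN
  refine Real.sqrt_le_iff.mpr ⟨n4_nonneg _ _, ?_⟩
  rw [sq]
  exact mul_le_mul_of_nonneg_right (n2_le_n4 Q f) (n4_nonneg Q f)

theorem nN_four (Q : Finset X) (f : X → ℝ) : nN Q f ^ 4 = n2 Q f ^ 2 * n4 Q f ^ 2 := by
  rw [show nN Q f ^ 4 = (nN Q f ^ 2) ^ 2 by ring, nN_sq]; ring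

theorem nN_eight (Q : Finset X) (f : X → ℝ) :
    nN Q f ^ 8 = n2 Q f ^ 4 * avg Q fun x => f x ^ 4 := by
  rw [show nN Q f ^ 8 = (nN Q f ^ 4) ^ 2 by ring, nN_four, ← n4_four]; ring

theorem n4_sq_le {Q : Finset X} {f : X → ℝ} {h : ℝ} (h0 : 0 ≤ h) (hf : ∀ x ∈ Q, |f x| ≤ h) :
    n4 Q f ^ 2 ≤ h * n2 Q f := by
  have h1 : n4 Q f ^ 4 ≤ (h * n2 Q f) ^ 2 := by
    rw [n4_four, mul_pow, n2_sq, ← avg_smul]
    refine avg_mono fun x hx => ?_
    have h2 : f x ^ 2 ≤ h ^ 2 := by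
      rw [← sq_abs]; exact pow_le_pow_left₀ (abs_nonneg _) (hf x hx) 2
    calc f x ^ 4 = f x ^ 2 * f x ^ 2 := by ring
      _ ≤ h ^ 2 * f x ^ 2 := mul_le_mul_of_nonneg_right h2 (sq_nonneg _)
  rw [show n4 Q f ^ 4 = (n4 Q f ^ 2) ^ 2 by ring] at h1
  exact le_of_sq_le_sq h1 (mul_nonneg h0 (n2_nonneg _ _))
where
  le_of_sq_le_sq {a b : ℝ} (h : a ^ 2 ≤ b ^ 2) (hb : 0 ≤ b) : a ≤ b := abs_le_of_sq_le_sq' h hb |>.2

/-- `N^4 ≤ sup · |f|₂³` -/
theorem nN_four_le {Q : Finset X} {f : X → ℝ} {h : ℝ} (h0 : 0 ≤ h) (hf : ∀ x ∈ Q, |f x| ≤ h) :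
    nN Q f ^ 4 ≤ h * n2 Q f ^ 3 := by
  rw [nN_four]
  calc n2 Q f ^ 2 * n4 Q f ^ 2 ≤ n2 Q f ^ 2 * (h * n2 Q f) :=
        mul_le_mul_of_nonneg_left (n4_sq_le h0 hf) (sq_nonneg _)
    _ = _ := by ring

theorem n2_le_sup {Q : Finset X} {f : X → ℝ} {h : ℝ} (h0 : 0 ≤ h) (hf : ∀ x ∈ Q, |f x| ≤ h) :
    n2 Q f ≤ h := by
  unfold n2
  refine Real.sqrt_le_iff.mpr ⟨h0, ?_⟩
  calc (avg Q fun x => f x ^ 2) ≤ avg Q fun _ => h ^ 2 := avg_mono fun x hx => by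
        rw [← sq_abs]; exact pow_le_pow_left₀ (abs_nonneg _) (hf x hx) 2
    _ ≤ h ^ 2 := avg_const_le Q (sq_nonneg h)

theorem n4_le_sup {Q : Finset X} {f : X → ℝ} {h : ℝ} (h0 : 0 ≤ h) (hf : ∀ x ∈ Q, |f x| ≤ h) :
    n4 Q f ≤ h := by
  have h1 : n4 Q f ^ 2 ≤ h ^ 2 := by
    calc n4 Q f ^ 2 ≤ h * n2 Q f := n4_sq_le h0 hf
      _ ≤ h * h := mul_le_mul_of_nonneg_left (n2_le_sup h0 hf) h0
      _ = h ^ 2 := by ring
  exact (abs_le_of_sq_le_sq' h1 h0).2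

theorem nN_le_sup {Q : Finset X} {f : X → ℝ} {h : ℝ} (h0 : 0 ≤ h) (hf : ∀ x ∈ Q, |f x| ≤ h) :
    nN Q f ≤ h :=
  (nN_le_n4 Q f).trans (n4_le_sup h0 hf)

/-- support: if `f = 0` on `Q` outside `A`, then `|Q| |f|₂⁴ ≤ |A| |f|₄⁴` -/
theorem card_mul_n2_four_le {Q A : Finset X} {f : X → ℝ}
    (hf : ∀ x ∈ Q, x ∉ A → f x = 0) :
    (Q.card : ℝ) * n2 Q f ^ 4 ≤ A.card * n4 Q f ^ 4 := by
  classical
  rcases Q.eq_empty_or_nonempty with rfl | hQ
  · simp only [card_empty, Nat.cast_zero, zero_mul]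
    exact mul_nonneg (Nat.cast_nonneg _) (pow_nonneg (n4_nonneg _ _) _)
  have hc : (0 : ℝ) < Q.card := by exact_mod_cast hQ.card_pos
  rw [show n2 Q f ^ 4 = (n2 Q f ^ 2) ^ 2 by ring, n2_sq, n4_four]
  have h1 : ∑ x ∈ Q, f x ^ 2 = ∑ x ∈ Q ∩ A, 1 * f x ^ 2 := by
    simp only [one_mul]
    symm
    refine sum_subset inter_subset_left fun x hx hx' => ?_
    rw [hf x hx fun hA => hx' (mem_inter.mpr ⟨hx, hA⟩)]; ring
  have h2 := sum_mul_sq_le_sq_mul_sq (Q ∩ A) (fun _ => (1 : ℝ)) (fun x => f x ^ 2)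
  have h3 : ∑ x ∈ Q ∩ A, (f x ^ 2) ^ 2 ≤ ∑ x ∈ Q, f x ^ 4 := by
    calc ∑ x ∈ Q ∩ A, (f x ^ 2) ^ 2 ≤ ∑ x ∈ Q, (f x ^ 2) ^ 2 :=
          sum_le_sum_of_subset_of_nonneg inter_subset_left fun _ _ _ => by positivity
      _ = _ := sum_congr rfl fun x _ => by ring
  have h4 : ((Q ∩ A).card : ℝ) ≤ A.card := by exact_mod_cast card_le_card inter_subset_right
  simp only [one_pow, sum_const, nsmul_eq_mul, mul_one] at h2
  have h5 : (∑ x ∈ Q, f x ^ 2) ^ 2 ≤ A.card * ∑ x ∈ Q, f x ^ 4 := by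
    rw [h1]
    refine h2.trans (mul_le_mul h4 h3 (sum_nonneg fun _ _ => by positivity) (Nat.cast_nonneg _))
  unfold avg
  calc (Q.card : ℝ) * ((Q.card : ℝ)⁻¹ * ∑ x ∈ Q, f x ^ 2) ^ 2
      = (Q.card : ℝ)⁻¹ * (∑ x ∈ Q, f x ^ 2) ^ 2 := by field_simp
    _ ≤ (Q.card : ℝ)⁻¹ * (A.card * ∑ x ∈ Q, f x ^ 4) :=
        mul_le_mul_of_nonneg_left h5 (by positivity)
    _ = _ := by ring

/-- the average of the absolute value -/
theorem avg_abs_le_n2 (Q : Finset X) (f : X → ℝ) : (avg Q fun x => |f x|) ≤ n2 Q f := by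
  have h := avg_mul_sq_le Q (fun _ => (1 : ℝ)) (fun x => |f x|)
  simp only [one_mul, one_pow, sq_abs] at h
  unfold n2
  refine Real.le_sqrt_of_sq_le (h.trans ?_)
  have h1 : avg Q (fun _ => (1 : ℝ)) ≤ 1 := avg_const_le Q zero_le_one
  calc _ ≤ 1 * (avg Q fun x => f x ^ 2) :=
        mul_le_mul_of_nonneg_right h1 (avg_sq_nonneg Q f)
    _ = _ := one_mul _

theorem abs_avg_mul_le (Q : Finset X) (f g : X → ℝ) :
    |avg Q fun x => f x * g x| ≤ n2 Q f * n2 Q g := by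
  refine abs_le_of_sq_le_sq ?_ (mul_nonneg (n2_nonneg _ _) (n2_nonneg _ _))
  rw [mul_pow, n2_sq, n2_sq]
  exact avg_mul_sq_le Q f g

theorem avg_abs_mul_le (Q : Finset X) (f g : X → ℝ) :
    (avg Q fun x => |f x * g x|) ≤ n2 Q f * n2 Q g := by
  have h := abs_avg_mul_le Q (fun x => |f x|) (fun x => |g x|)
  rw [n2_abs, n2_abs] at h
  refine le_trans (le_abs_self _) (le_trans (le_of_eq ?_) h)
  congr 1
  exact avg_congr fun x _ => abs_mul _ _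

/-- Cauchy–Schwarz for the `L²` norm of a product -/
theorem n2_mul_le_n4 (Q : Finset X) (f g : X → ℝ) :
    n2 Q (fun x => f x * g x) ≤ n4 Q f * n4 Q g := by
  have h := avg_mul_sq_le Q (fun x => f x ^ 2) (fun x => g x ^ 2)
  have h1 : n2 Q (fun x => f x * g x) ^ 4 ≤ (n4 Q f * n4 Q g) ^ 4 := by
    rw [mul_pow, n4_four, n4_four, show n2 Q (fun x => f x * g x) ^ 4 =
      (n2 Q (fun x => f x * g x) ^ 2) ^ 2 by ring, n2_sq]
    refine (le_of_eq ?_).trans (h.trans (le_of_eq ?_))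
    · congr 1; exact avg_congr fun x _ => by ring
    · congr 1 <;> exact avg_congr fun x _ => by ring
  exact le_of_pow_le_pow_left₀ (by norm_num) (mul_nonneg (n4_nonneg _ _) (n4_nonneg _ _)) h1

/-! ### triangle inequalities -/

theorem n2_add_le (Q : Finset X) (f g : X → ℝ) :
    n2 Q (fun x => f x + g x) ≤ n2 Q f + n2 Q g := by
  have h0 : 0 ≤ n2 Q f + n2 Q g := add_nonneg (n2_nonneg _ _) (n2_nonneg _ _)
  refine (abs_le_of_sq_le_sq' ?_ h0).2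
  rw [n2_sq, add_sq, n2_sq, n2_sq]
  have h1 : (avg Q fun x => (f x + g x) ^ 2) =
      (avg Q fun x => f x ^ 2) + 2 * (avg Q fun x => f x * g x) + avg Q fun x => g x ^ 2 := by
    rw [← avg_smul, ← avg_add, ← avg_add]
    exact avg_congr fun x _ => by ring
  have h2 := (le_abs_self _).trans (abs_avg_mul_le Q f g)
  rw [h1]
  linarith

theorem n2_sum_le {ι : Type*} (s : Finset ι) (Q : Finset X) (f : ι → X → ℝ) :
    n2 Q (fun x => ∑ i ∈ s, f i x) ≤ ∑ i ∈ s, n2 Q (f i) := by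
  classical
  induction s using Finset.induction_on with
  | empty => simp [n2_zero]
  | insert i s hi ih =>
    simp only [sum_insert hi]
    exact (n2_add_le Q _ _).trans (add_le_add le_rfl ih)

/-- Minkowski for the `L⁴` norm -/
theorem n4_add_le (Q : Finset X) (f g : X → ℝ) :
    n4 Q (fun x => f x + g x) ≤ n4 Q f + n4 Q g := by
  set S := n4 Q (fun x => f x + g x) with hS
  have hS0 : 0 ≤ S := n4_nonneg _ _
  have hf := n4_nonneg Q f
  have hg := n4_nonneg Q g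
  have hq : n2 Q (fun x => (f x + g x) ^ 2) = S ^ 2 := by
    rw [hS, n4_sq]; unfold n2; congr 1
    exact avg_congr fun x _ => by ring
  -- `S^4 = avg (f+g)^2 (f+g) f + avg (f+g)^2 (f+g) g`
  have key : ∀ h : X → ℝ, (avg Q fun x => (f x + g x) ^ 2 * ((f x + g x) * h x)) ≤
      S ^ 2 * (S * n4 Q h) := fun h =>
    ((le_abs_self _).trans (abs_avg_mul_le Q _ _)).trans (by
      rw [hq]
      exact mul_le_mul_of_nonneg_left (n2_mul_le_n4 Q _ _) (sq_nonneg S))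
  have h4 : S ^ 4 ≤ S ^ 3 * (n4 Q f + n4 Q g) := by
    have : S ^ 4 = (avg Q fun x => (f x + g x) ^ 2 * ((f x + g x) * f x)) +
        avg Q fun x => (f x + g x) ^ 2 * ((f x + g x) * g x) := by
      rw [hS, n4_four, ← avg_add]
      exact avg_congr fun x _ => by ring
    rw [this]
    calc _ ≤ S ^ 2 * (S * n4 Q f) + S ^ 2 * (S * n4 Q g) := add_le_add (key f) (key g)
      _ = _ := by ring
  rcases hS0.eq_or_lt with h | h
  · rw [← h]; positivity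
  · have h3 : 0 < S ^ 3 := by positivity
    refine le_of_mul_le_mul_left ?_ h3
    calc S ^ 3 * S = S ^ 4 := by ring
      _ ≤ _ := h4

theorem n4_sum_le {ι : Type*} (s : Finset ι) (Q : Finset X) (f : ι → X → ℝ) :
    n4 Q (fun x => ∑ i ∈ s, f i x) ≤ ∑ i ∈ s, n4 Q (f i) := by
  classical
  induction s using Finset.induction_on with
  | empty => simp [n4_zero]
  | insert i s hi ih =>
    simp only [sum_insert hi]
    exact (n4_add_le Q _ _).trans (add_le_add le_rfl ih)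

theorem nN_add_sq_le (Q : Finset X) (f g : X → ℝ) :
    nN Q (fun x => f x + g x) ^ 2 ≤ (n2 Q f + n2 Q g) * (n4 Q f + n4 Q g) := by
  rw [nN_sq]
  exact mul_le_mul (n2_add_le Q f g) (n4_add_le Q f g) (n4_nonneg _ _)
    (add_nonneg (n2_nonneg _ _) (n2_nonneg _ _))

/-! ### change of the set -/

theorem n2_sq_le_of_subset {Q Q' : Finset X} (h : Q ⊆ Q') {K : ℝ} (hK : 0 ≤ K)
    (hc : (Q'.card : ℝ) ≤ K * Q.card) (f : X → ℝ) : n2 Q f ^ 2 ≤ K * n2 Q' f ^ 2 := by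
  rw [n2_sq, n2_sq]
  exact avg_le_of_subset h hK hc fun x _ => sq_nonneg _

theorem n4_four_le_of_subset {Q Q' : Finset X} (h : Q ⊆ Q') {K : ℝ} (hK : 0 ≤ K)
    (hc : (Q'.card : ℝ) ≤ K * Q.card) (f : X → ℝ) : n4 Q f ^ 4 ≤ K * n4 Q' f ^ 4 := by
  rw [n4_four, n4_four]
  exact avg_le_of_subset h hK hc fun x _ => by positivity

theorem nN_eight_le_of_subset {Q Q' : Finset X} (h : Q ⊆ Q') {K : ℝ} (hK : 0 ≤ K)
    (hc : (Q'.card : ℝ) ≤ K * Q.card) (f : X → ℝ) : nN Q f ^ 8 ≤ K ^ 3 * nN Q' f ^ 8 := by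
  have h1 := n2_sq_le_of_subset h hK hc f
  have h2 := n4_four_le_of_subset h hK hc f
  have e : ∀ R : Finset X, nN R f ^ 8 = (n2 R f ^ 2) ^ 2 * n4 R f ^ 4 := fun R => by
    rw [show nN R f ^ 8 = (nN R f ^ 4) ^ 2 by ring, nN_four]; ring
  rw [e, e]
  calc (n2 Q f ^ 2) ^ 2 * n4 Q f ^ 4 ≤ (K * n2 Q' f ^ 2) ^ 2 * (K * n4 Q' f ^ 4) :=
        mul_le_mul (pow_le_pow_left₀ (sq_nonneg _) h1 2) h2 (by positivity) (by positivity)
    _ = _ := by ring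

/-- change of the set with `|Q'| ≤ L⁸ |Q|` : all exponents are integers -/
theorem n2_le_of_subset {Q Q' : Finset X} (h : Q ⊆ Q') {L : ℝ} (hL : 0 ≤ L)
    (hc : (Q'.card : ℝ) ≤ L ^ 8 * Q.card) (f : X → ℝ) : n2 Q f ≤ L ^ 4 * n2 Q' f := by
  have h1 := n2_sq_le_of_subset h (by positivity) hc f
  refine (abs_le_of_sq_le_sq' ?_ (mul_nonneg (by positivity) (n2_nonneg _ _))).2
  calc _ ≤ _ := h1
    _ = _ := by ring

theorem n4_le_of_subset {Q Q' : Finset X} (h : Q ⊆ Q') {L : ℝ} (hL : 0 ≤ L)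
    (hc : (Q'.card : ℝ) ≤ L ^ 8 * Q.card) (f : X → ℝ) : n4 Q f ≤ L ^ 2 * n4 Q' f := by
  have h1 := n4_four_le_of_subset h (by positivity) hc f
  refine le_of_pow_le_pow_left₀ (n := 4) (by norm_num)
    (mul_nonneg (by positivity) (n4_nonneg _ _)) ?_
  calc _ ≤ _ := h1
    _ = _ := by ring

theorem nN_le_of_subset {Q Q' : Finset X} (h : Q ⊆ Q') {L : ℝ} (hL : 0 ≤ L)
    (hc : (Q'.card : ℝ) ≤ L ^ 8 * Q.card) (f : X → ℝ) : nN Q f ≤ L ^ 3 * nN Q' f := by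
  have h1 := nN_eight_le_of_subset h (by positivity) hc f
  refine le_of_pow_le_pow_left₀ (n := 8) (by norm_num)
    (mul_nonneg (by positivity) (nN_nonneg _ _)) ?_
  calc _ ≤ _ := h1
    _ = _ := by ring

end

end Vale.Agent.P141.H419
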