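import Vale.Agent.P141.H419.WFamR
import Vale.Agent.P141.H912.TVpgL

/-!
# P141, line (A), (TI): hub `x1`, moving weight: the own numbers and the plane energy, real letters

`wfamR` : the families of a path `c` satisfy `H912.WFamL`, numbers as plain sums; `c1`,
`P1` : the shifted path; `OM_real`, `OO_real`, `TV_real` : the three inputs of
`(H457.wpair ..).total`.
-/

set_option linter.unusedSectionVars false

namespace Vale.Agent.P141.H419.WFamR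

open Finset Matrix Vale.Agent.P075 Vale.Agent.P141.PL Vale.Agent.P141.PL.H103 Vale.Agent.P141.H103
open Vale.Agent.P141.H389 Vale.Agent.P141.H505 Vale.Agent.P141.H336
open Vale.Agent.P141.H585.PairCh Vale.Agent.P141.H585.PairO
open Vale.Agent.P141.H457 Vale.Agent.P141.H874
open Vale.Agent.P141.H419.PairW Vale.Agent.P141.H419.TVpg
open Vale.Agent.P141.H912 (WFamL OwL wS)

noncomputable section

variable {κ : Type*} [Fintype κ] [DecidableEq κ]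

/-- energy at the start -/
def nmH (N : ℕ) (R S : ℤ) (be : ℝ) (T : ℕ → ℤ → ℤ → Matrix κ κ ℝ) (c : ℕ → ℤ → ℤ → κ → ℝ)
    (r : ℕ) : ℝ := Wn N R S be T (c 0) r

/-- variation, lag `r` -/
def nmD (N : ℕ) (R S : ℤ) (d : ℕ → ℤ → ℤ → Matrix κ κ ℝ) (c : ℕ → ℤ → ℤ → κ → ℝ) (r : ℕ) : ℝ :=
  ∑ k ∈ Ico 0 (N - r), Dn N R S d (c k) (k + r)

/-- drift, lag `r` -/
def nmE (N : ℕ) (R S : ℤ) (e : ℕ → ℤ → ℤ → Matrix κ κ ℝ) (c : ℕ → ℤ → ℤ → κ → ℝ) (r : ℕ) : ℝ :=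
  ∑ k ∈ Ico 0 (N - r), En N R S e (c k) (k + r)

/-- births, lag `r` -/
def nmB (N : ℕ) (R S : ℤ) (be : ℝ) (T : ℕ → ℤ → ℤ → Matrix κ κ ℝ) (Pc : ℕ → ℤ → ℤ → Prop)
    (c : ℕ → ℤ → ℤ → κ → ℝ) (r : ℕ) : ℝ :=
  ∑ k ∈ Ico 0 (N - r), Wn N R S be T (rs (Pc k) k (c (k + 1))) (k + 1 + r)

section nn

variable {be : ℝ} {T e d : ℕ → ℤ → ℤ → Matrix κ κ ℝ}

theorem Wn_nonneg (hb : 0 < be) (hT : ∀ k x m, (T k x m).PosSemidef) (N : ℕ) (R S : ℤ)
    (f : ℤ → ℤ → κ → ℝ) (a : ℕ) : 0 ≤ Wn N R S be T f a := by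
  refine sum_nonneg fun x _ => sum_nonneg fun w _ => ?_
  have h := ((PosSemidef.one (n := κ) (R := ℝ)).smul hb.le).add (hT a x (ix a w))
  have := h.dotProduct_mulVec_nonneg (f x w)
  rwa [star_trivial] at this

theorem Dn_nonneg (N : ℕ) (R S : ℤ) (f : ℤ → ℤ → κ → ℝ) (a : ℕ) : 0 ≤ Dn N R S d f a :=
  sum_nonneg fun x _ => sum_nonneg fun w _ => by
    have := dotProduct_star_self_nonneg (d a x (ix (a + 1) w) *ᵥ f x w)
    rwa [star_trivial] at this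

theorem En_nonneg (he : ∀ k x m, (e k x m).PosSemidef) (N : ℕ) (R S : ℤ)
    (f : ℤ → ℤ → κ → ℝ) (a : ℕ) : 0 ≤ En N R S e f a := by
  refine sum_nonneg fun x _ => sum_nonneg fun w _ => ?_
  have := (he a x (ix (a + 1) w)).dotProduct_mulVec_nonneg (f x w)
  rwa [star_trivial] at this

theorem nmH_nonneg (hb : 0 < be) (hT : ∀ k x m, (T k x m).PosSemidef) (N : ℕ) (R S : ℤ)
    (c : ℕ → ℤ → ℤ → κ → ℝ) (r : ℕ) : 0 ≤ nmH N R S be T c r := Wn_nonneg hb hT N R S _ _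

theorem nmD_nonneg (N : ℕ) (R S : ℤ) (c : ℕ → ℤ → ℤ → κ → ℝ) (r : ℕ) : 0 ≤ nmD N R S d c r :=
  sum_nonneg fun k _ => Dn_nonneg N R S _ _

theorem nmE_nonneg (he : ∀ k x m, (e k x m).PosSemidef) (N : ℕ) (R S : ℤ)
    (c : ℕ → ℤ → ℤ → κ → ℝ) (r : ℕ) : 0 ≤ nmE N R S e c r :=
  sum_nonneg fun k _ => En_nonneg he N R S _ _

theorem nmB_nonneg (hb : 0 < be) (hT : ∀ k x m, (T k x m).PosSemidef) (N : ℕ) (R S : ℤ)
    (Pc : ℕ → ℤ → ℤ → Prop) (c : ℕ → ℤ → ℤ → κ → ℝ) (r : ℕ) : 0 ≤ nmB N R S be T Pc c r :=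
  sum_nonneg fun k _ => Wn_nonneg hb hT N R S _ _

/-- **The families of the path.** -/
theorem wfamR (hb : 0 < be) (hT : H419.Wt T e d) {τ : ℝ} (hτ : 0 ≤ τ)
    (hTτ : ∀ k x m, (τ • (1 : Matrix κ κ ℝ) - T k x m).PosSemidef) {μ : ℝ} (hμ : 0 < μ) {J : ℕ}
    {N : ℕ} (R S : ℤ) {c : ℕ → ℤ → ℤ → κ → ℝ} {Pc : ℕ → ℤ → ℤ → Prop}
    (hPc : ∀ k < N, ∀ w m, ¬ Pc k w m → ∀ x ∈ iv k m, c (k + 1) x w = c k x w)
    {C : ℝ} (hC : μ / 4 ^ J * (2 * C) ≤ 1)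
    (cap : ∀ k a n m, k ≤ a → a < N → (C • (1 : Matrix (Ix k × κ) (Ix k × κ) ℝ)
      - SD be T k (a + 1) n m * CP (c k) k (a + 1) n m * SD be T k (a + 1) n m).PosSemidef) :
    WFamL (ι := fun k => Ix k × κ) 0 N R S μ J τ be (fun k a n m => SD be T k a n m)
      (fun k a n m => TD T k a n m) (fun k a n m => CP (c k) k a n m)
      (fun k a n m => TD e k a n m) (fun k a n m => TD d k a n m) (fun k => sk (k + 1) κ)
      (fun k a n m => pc J be T Pc c k a n m) (nmH N R S be T c)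
      (fun r => 2 * be⁻¹ * nmD N R S d c r) (fun r => 2 * nmE N R S e c r)
      (fun r => 2 * nmD N R S d c r + 2 * τ * nmE N R S e c r)
      (fun r => ((J : ℝ) + 1) * nmB N R S be T Pc c r) where
  hkN := Nat.zero_le _
  hμ := hμ
  hτ := hτ
  hβ := hb
  pS k a n m := SD_psd hb hT.ps _ _ _ _
  uS k a n m := SD_unit hb hT.ps _ _ _ _
  bS k a n m := bS_real hb hT.ps _ _ _ _
  sΘ k a n m := psd_isSymm (TD_psd hT.ps _ _ _ _)
  tΘ k a n m := by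
    rw [SD_sq hb hT.ps]
    exact WD_sq hb.le hτ hT.ps hTτ _ _ _ _
  pG k a n m := CP_psd _ _ _ _ _
  sM k a n m := TD_tr (fun k x m => hT.d_symm k x m) _ _ _ _
  pE k a n m := TD_psd hT.pe _ _ _ _
  par k a n m _ _ _ := par_real _ _ _ _ _
  S0 k a n m _ _ _ := S0_real hb hT _ _ _ _
  S1 k a n m _ _ _ := S1_real hb hT _ _ _ _
  Θ0 k a n m _ _ _ := TD_even hT _ _ _ _
  Θ1 k a n m _ _ _ := TD_odd hT _ _ _ _
  hr k := sk_tr _
  hr2 k := sk_sq _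
  rS k a n m := sk_DB _ _ _
  rΘ k a n m := sk_DB _ _ _
  cap0 k a n m _ h2 h3 := (cap_real hb hT.ps (by positivity) hC (cap k a n m h2 h3)).1
  cap1 k a n m _ h2 h3 := (cap_real hb hT.ps (by positivity) hC (cap k a n m h2 h3)).2
  mid k a n m _ h2 h3 := mid_real hb hT.ps hμ J (hPc k (by omega)) a n m
  np k a n m := by
    have h : ∀ h, 0 ≤ (WD be T k a n h * CP (rs (Pc k) k (c (k + 1))) k a n h).trace := fun h =>
      trace_mul_nonneg (WD_posDef hb hT.ps _ _ _ _).posSemidef (CP_psd _ _ _ _ _)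
    have h0 := h (2 * m)
    have h1 := h (2 * m + 1)
    unfold pc
    positivity
  nH r := nmH_nonneg hb hT.ps N R S c r
  nZM r := mul_nonneg (by positivity) (nmD_nonneg N R S c r)
  nZE r := mul_nonneg (by positivity) (nmE_nonneg hT.pe N R S c r)
  nZQ r := add_nonneg (mul_nonneg (by positivity) (nmD_nonneg N R S c r))
    (mul_nonneg (by positivity) (nmE_nonneg hT.pe N R S c r))
  nQm r := mul_nonneg (by positivity) (nmB_nonneg hb hT.ps N R S Pc c r)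
  hH r hr := by
    rw [H_real hb hT.ps R S (Nat.zero_le N) hr (c 0), Nat.zero_add]
    exact le_rfl
  hZM r := by
    unfold nmD
    rw [mul_sum]
    exact sum_le_sum fun k hk => by
      have := mem_Ico.1 hk
      exact eM_real hb hT R S (by omega) (by omega) (c k)
  hZE r := by
    unfold nmE
    rw [mul_sum]
    exact sum_le_sum fun k hk => by
      have := mem_Ico.1 hk
      exact (eE_real R S (by omega) (by omega) (c k)).le
  hZQ r := by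
    unfold nmD nmE
    rw [mul_sum, mul_sum, ← sum_add_distrib]
    exact sum_le_sum fun k hk => by
      have := mem_Ico.1 hk
      exact eQ_real hT hTτ R S (by omega) (by omega) (c k)
  hQm r := by
    unfold nmB
    rw [mul_sum]
    exact sum_le_sum fun k hk => by
      have := mem_Ico.1 hk
      exact (pc_real J R S (by omega) (by omega) Pc c).le

/-! ### The shifted path -/

/-- the shifted path -/
def c1 (N : ℕ) (c : ℕ → ℤ → ℤ → κ → ℝ) (k : ℕ) : ℤ → ℤ → κ → ℝ := c (min (k + 1) N)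

/-- its row pieces -/
def P1 (N : ℕ) (Pc : ℕ → ℤ → ℤ → Prop) (k : ℕ) (w m : ℤ) : Prop :=
  k + 1 < N ∧ Pc (k + 1) w (ix 1 m)

theorem hP1 {N : ℕ} {c : ℕ → ℤ → ℤ → κ → ℝ} {Pc : ℕ → ℤ → ℤ → Prop}
    (hPc : ∀ k < N, ∀ w m, ¬ Pc k w m → ∀ x ∈ iv k m, c (k + 1) x w = c k x w) :
    ∀ k < N, ∀ w m, ¬ P1 N Pc k w m → ∀ x ∈ iv k m, c1 N c (k + 1) x w = c1 N c k x w := by
  intro k hk w m h x hx
  unfold c1
  by_cases h1 : k + 1 < N
  · have h2 : ¬ Pc (k + 1) w (ix 1 m) := fun h3 => h ⟨h1, h3⟩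
    have hx' : x ∈ iv (k + 1) (ix 1 m) := by
      rw [mem_iv] at hx ⊢
      rw [← hx, ix_ix]
    rw [min_eq_left (by omega), min_eq_left (by omega)]
    exact hPc (k + 1) h1 w _ h2 x hx'
  · rw [min_eq_right (by omega), min_eq_right (by omega)]

end nn

section out

variable {be : ℝ} {T e d : ℕ → ℤ → ℤ → Matrix κ κ ℝ}

/-- **Own number of the middle steps** (`hOM` of `(wpair ..).total`). -/
theorem OM_real (hb : 0 < be) (hT : H419.Wt T e d) {τ : ℝ} (hτ : 0 ≤ τ)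
    (hTτ : ∀ k x m, (τ • (1 : Matrix κ κ ℝ) - T k x m).PosSemidef) {μ : ℝ} (hμ : 0 < μ) {J : ℕ}
    {N : ℕ} (R S : ℤ) {c : ℕ → ℤ → ℤ → κ → ℝ} {Pc : ℕ → ℤ → ℤ → Prop}
    (hPc : ∀ k < N, ∀ w m, ¬ Pc k w m → ∀ x ∈ iv k m, c (k + 1) x w = c k x w)
    {C : ℝ} (hC : μ / 4 ^ J * (2 * C) ≤ 1)
    (cap : ∀ k a n m, k ≤ a → a < N → (C • (1 : Matrix (Ix k × κ) (Ix k × κ) ℝ)
      - SD be T k (a + 1) n m * CP (c k) k (a + 1) n m * SD be T k (a + 1) n m).PosSemidef)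
    {j : ℕ} (hj : j ≤ J) {s : ℝ} (hs : s = (μ / 4 ^ j)⁻¹) :
    ∑ k ∈ Ico 0 N, (4 : ℝ) ^ (k + 1) * ∑ m ∈ iv (N - (k + 1)) S, ∑ n ∈ iv (N - (k + 1)) R,
      gp s (sk (k + 1) κ) (SD be T (k + 1) (k + 1) n m * CP (c (k + 1)) (k + 1) (k + 1) n m
        * SD be T (k + 1) (k + 1) n m)
      ≤ 2 * s * OwL J (nmH N R S be T c) (fun r => 2 * be⁻¹ * nmD N R S d c r)
        (fun r => 2 * nmE N R S e c r) (fun r => ((J : ℝ) + 1) * nmB N R S be T Pc c r) 0 :=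
  (wfamR hb hT hτ hTτ hμ R S hPc hC cap).OM hj hs

/-- **The plane energy of the second slot** (`TV` of `(wpair ..).total`). -/
theorem TV_real (hb : 0 < be) (hT : H419.Wt T e d) {τ : ℝ} (hτ : 0 ≤ τ)
    (hTτ : ∀ k x m, (τ • (1 : Matrix κ κ ℝ) - T k x m).PosSemidef) {μ : ℝ} (hμ : 0 < μ) {J : ℕ}
    {N : ℕ} (R S : ℤ) {c : ℕ → ℤ → ℤ → κ → ℝ} {Pc : ℕ → ℤ → ℤ → Prop}
    (hPc : ∀ k < N, ∀ w m, ¬ Pc k w m → ∀ x ∈ iv k m, c (k + 1) x w = c k x w)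
    {C : ℝ} (hC : μ / 4 ^ J * (2 * C) ≤ 1)
    (cap : ∀ k a n m, k ≤ a → a < N → (C • (1 : Matrix (Ix k × κ) (Ix k × κ) ℝ)
      - SD be T k (a + 1) n m * CP (c k) k (a + 1) n m * SD be T k (a + 1) n m).PosSemidef)
    {j : ℕ} (hj : j ≤ J) {s : ℝ} (hs : s = (μ / 4 ^ j)⁻¹) :
    TV 0 N R S (fun k a n m => PG be s T (c k) k a n m)
      ≤ 368 * τ ^ 2 * s * wS N (OwL J (nmH N R S be T c) (fun r => 2 * be⁻¹ * nmD N R S d c r)
        (fun r => 2 * nmE N R S e c r) (fun r => ((J : ℝ) + 1) * nmB N R S be T Pc c r))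
        + 368 * (τ * s) * (2 + τ * be⁻¹)
          * wS N (fun r => 2 * nmD N R S d c r + 2 * τ * nmE N R S e c r) := by
  have h := (wfamR hb hT hτ hTτ hμ R S hPc hC cap).TV_pg hj hs
  have e1 : (fun k a n m => PG be s T (c k) k a n m)
      = Vf (ι := fun k => Ix k × κ) s (fun k a n m => SD be T k a n m)
        (fun k a n m => TD T k a n m) (fun k a n m => CP (c k) k a n m) := by
    funext k a n m
    unfold Vf PG
    rw [SD_sq hb hT.ps]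
  rw [e1]
  exact h

/-- **Own number of the outer steps** (`hOO` of `(wpair ..).total`): the shifted path. -/
theorem OO_real (hb : 0 < be) (hT : H419.Wt T e d) {τ : ℝ} (hτ : 0 ≤ τ)
    (hTτ : ∀ k x m, (τ • (1 : Matrix κ κ ℝ) - T k x m).PosSemidef) {μ : ℝ} (hμ : 0 < μ) {J : ℕ}
    {N : ℕ} (R S : ℤ) {c : ℕ → ℤ → ℤ → κ → ℝ} {Pc : ℕ → ℤ → ℤ → Prop}
    (hPc : ∀ k < N, ∀ w m, ¬ Pc k w m → ∀ x ∈ iv k m, c (k + 1) x w = c k x w)
    {C : ℝ} (hC : μ / 4 ^ J * (2 * C) ≤ 1)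
    (cap : ∀ k a n m, k ≤ a → a < N → (C • (1 : Matrix (Ix k × κ) (Ix k × κ) ℝ)
      - SD be T k (a + 1) n m * CP (c (k + 1)) k (a + 1) n m * SD be T k (a + 1) n m).PosSemidef)
    {j : ℕ} (hj : j ≤ J) {s : ℝ} (hs : s = (μ / 4 ^ j)⁻¹) :
    ∑ k ∈ Ico 0 N, (4 : ℝ) ^ (k + 1) * ∑ m ∈ iv (N - (k + 1)) S, ∑ n ∈ iv (N - (k + 1)) R,
      mh (fun h => dls s (SD be T k (k + 1) n h * CP (c (k + 1)) k k (2 * n) h
          * SD be T k (k + 1) n h)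
        (SD be T k (k + 1) n h * CP (c (k + 1)) k k (2 * n + 1) h * SD be T k (k + 1) n h)) m
      ≤ 4 * s * OwL J (nmH N R S be T (c1 N c)) (fun r => 2 * be⁻¹ * nmD N R S d (c1 N c) r)
        (fun r => 2 * nmE N R S e (c1 N c) r)
        (fun r => ((J : ℝ) + 1) * nmB N R S be T (P1 N Pc) (c1 N c) r) 0 := by
  have e1 : ∀ k < N, c1 N c k = c (k + 1) := fun k hk => by
    unfold c1
    rw [min_eq_left (by omega)]
  have h := (wfamR hb hT hτ hTτ hμ R S (hP1 hPc) hC (fun k a n m h1 h2 => by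
    rw [e1 k (by omega)]
    exact cap k a n m h1 h2)).OO hj hs
  refine le_trans (le_of_eq (sum_congr rfl fun k hk => ?_)) h
  rw [e1 k (mem_Ico.1 hk).2]

/-! ### The numbers of the shifted path -/

theorem rs_P1 {N : ℕ} {Pc : ℕ → ℤ → ℤ → Prop} {k : ℕ} (hk : k + 1 < N) (f : ℤ → ℤ → κ → ℝ) :
    rs (P1 N Pc k) k f = rs (Pc (k + 1)) (k + 1) f := by
  funext x w
  unfold rs
  have e : P1 N Pc k w (ix k x) ↔ Pc (k + 1) w (ix (k + 1) x) := by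
    unfold P1
    rw [ix_ix]
    exact ⟨fun h => h.2, fun h => ⟨hk, h⟩⟩
  by_cases h : Pc (k + 1) w (ix (k + 1) x)
  · rw [if_pos (e.2 h), if_pos h]
  · rw [if_neg fun h' => h (e.1 h'), if_neg h]

theorem rs_P1' {N : ℕ} {Pc : ℕ → ℤ → ℤ → Prop} {k : ℕ} (hk : ¬ k + 1 < N)
    (f : ℤ → ℤ → κ → ℝ) : rs (P1 N Pc k) k f = fun _ _ => 0 := by
  funext x w
  unfold rs
  exact if_neg fun h => hk h.1

theorem Wn_zero (N : ℕ) (R S : ℤ) (a : ℕ) : Wn N R S be T (fun _ _ => 0) a = 0 := by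
  unfold Wn
  simp

/-- start energy of the shifted path at lag `0` -/
theorem nmH_c1 {N : ℕ} (hN : 0 < N) (R S : ℤ) (c : ℕ → ℤ → ℤ → κ → ℝ) (r : ℕ) :
    nmH N R S be T (c1 N c) r = Wn N R S be T (c 1) r := by
  unfold nmH c1
  rw [min_eq_left (by omega)]

theorem nmD_c1 (N : ℕ) (R S : ℤ) (c : ℕ → ℤ → ℤ → κ → ℝ) (r : ℕ) :
    nmD N R S d (c1 N c) r = ∑ k ∈ Ico 0 (N - r), Dn N R S d (c (k + 1)) (k + r) := by
  unfold nmD c1
  refine sum_congr rfl fun k hk => ?_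
  have := mem_Ico.1 hk
  rw [min_eq_left (by omega)]

theorem nmE_c1 (N : ℕ) (R S : ℤ) (c : ℕ → ℤ → ℤ → κ → ℝ) (r : ℕ) :
    nmE N R S e (c1 N c) r = ∑ k ∈ Ico 0 (N - r), En N R S e (c (k + 1)) (k + r) := by
  unfold nmE c1
  refine sum_congr rfl fun k hk => ?_
  have := mem_Ico.1 hk
  rw [min_eq_left (by omega)]

/-- births of the shifted path at lag `0`: the weight at the scale of the change -/
theorem nmB_c1 (hb : 0 < be) (hT : ∀ k x m, (T k x m).PosSemidef) (N : ℕ) (R S : ℤ)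
    (Pc : ℕ → ℤ → ℤ → Prop) (c : ℕ → ℤ → ℤ → κ → ℝ) :
    nmB N R S be T (P1 N Pc) (c1 N c) 0
      ≤ ∑ k ∈ Ico 0 N, Wn N R S be T (rs (Pc k) k (c (k + 1))) k := by
  unfold nmB
  rw [Nat.sub_zero, ← range_eq_Ico]
  have h1 : ∀ k ∈ range N, Wn N R S be T (rs (P1 N Pc k) k (c1 N c (k + 1))) (k + 1 + 0)
      ≤ if k + 1 < N then Wn N R S be T (rs (Pc (k + 1)) (k + 1) (c (k + 1 + 1))) (k + 1)
        else 0 := by
    intro k _
    split_ifs with h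
    · rw [rs_P1 h]
      unfold c1
      rw [min_eq_left (by omega)]
    · rw [rs_P1' h, Wn_zero]
  refine (sum_le_sum h1).trans ?_
  rcases Nat.eq_zero_or_pos N with h0 | h0
  · subst h0
    simp
  · obtain ⟨M, rfl⟩ : ∃ M, N = M + 1 := ⟨N - 1, by omega⟩
    rw [sum_range_succ, if_neg (by omega), add_zero, sum_range_succ']
    have h2 : ∑ k ∈ range M, (if k + 1 < M + 1 then Wn (M + 1) R S be T
          (rs (Pc (k + 1)) (k + 1) (c (k + 1 + 1))) (k + 1) else 0)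
        = ∑ k ∈ range M, Wn (M + 1) R S be T
          (rs (Pc (k + 1)) (k + 1) (c (k + 1 + 1))) (k + 1) :=
      sum_congr rfl fun k hk => if_pos (by have := mem_range.1 hk; omega)
    rw [h2]
    have h3 := Wn_nonneg hb hT (M + 1) R S (rs (Pc 0) 0 (c (0 + 1))) 0
    linarith

end out

end

end Vale.Agent.P141.H419.WFamR
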