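import Vale.Agent.P141.H419.PairW

/-!
# P141, line (A), (TI): the plane theorem of the pair with both slots moving

The second slot is `pg s Θ W G`; `P` is the raw Gram family of the first slot, static in the outer
variable of the second one. `WPair.total` : the sum of the gains of the middle steps.
-/

set_option linter.unusedSectionVars false

namespace Vale.Agent.P141.H419.PairB

open Finset Matrix Vale.Agent.P075 Vale.Agent.P141.PL Vale.Agent.P141.PL.H103 Vale.Agent.P141.H103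
open Vale.Agent.P141.H389 Vale.Agent.P141.H585.PairCh Vale.Agent.P141.H585.PairO
open Vale.Agent.P141.H419.PairW

noncomputable section

variable {ι : ℕ → Type*} [∀ k, Fintype (ι k)] [∀ k, DecidableEq (ι k)]

/-- Data of the pair: `P` raw partner, `V` second family; `Θp, S, E, M` the slot of the parent on a
half of the middle cell and its moves, `G₀, G₁` the static halves, `P'` the partner on the half. -/
structure WPair (N k₀ : ℕ) (s q τ : ℝ) (P V : ∀ k, ℕ → ℤ → ℤ → Matrix (ι k) (ι k) ℝ)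
    (Θ R G : ∀ k, ℤ → ℤ → Matrix (ι (k + 1)) (ι (k + 1)) ℝ)
    (r : ∀ k, Matrix (ι (k + 1)) (ι (k + 1)) ℝ)
    (P' Θp S E M G₀ G₁ : ∀ k, ℤ → ℤ → Matrix (ι k) (ι k) ℝ)
    (x : ℕ → ℤ → ℤ → ℤ → ℝ) : Prop where
  sP : ∀ k a n m, (P k a n m)ᵀ = P k a n m
  sV : ∀ k a n m, (V k a n m)ᵀ = V k a n m
  hr : ∀ k, (r k)ᵀ = r k
  hr2 : ∀ k, r k * r k = 1
  pP : ∀ k, k₀ ≤ k → k < N → ∀ n m, (P (k + 1) (k + 1) n m).PosSemidef
  capP : ∀ k, k₀ ≤ k → k < N → ∀ n m,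
    (q • (1 : Matrix (ι (k + 1)) (ι (k + 1)) ℝ) - P (k + 1) (k + 1) n m).PosSemidef
  parV : ∀ k, k₀ ≤ k → k < N → ∀ n m,
    V (k + 1) (k + 1) n m = pg s (Θ k n m) (R k n m * R k n m) (G k n m)
  sΘ : ∀ k n m, (Θ k n m)ᵀ = Θ k n m
  pR : ∀ k n m, (R k n m).PosSemidef
  uR : ∀ k n m, IsUnit (R k n m).det
  pG : ∀ k n m, (G k n m).PosSemidef
  tΘ : ∀ k n m, (τ • (R k n m * R k n m) - Θ k n m * Θ k n m).PosSemidef
  rR : ∀ k n m, r k * R k n m = R k n m * r k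
  rΘ : ∀ k n m, r k * Θ k n m = Θ k n m * r k
  sP' : ∀ k n m, (P' k n m).PosSemidef
  capP' : ∀ k, k₀ ≤ k → k < N → ∀ n m,
    (q • (1 : Matrix (ι k) (ι k) ℝ) - P' k n m).PosSemidef
  sΘp : ∀ k n m, (Θp k n m)ᵀ = Θp k n m
  sS : ∀ k n m, (S k n m)ᵀ = S k n m
  uS : ∀ k n m, IsUnit (S k n m).det
  sM : ∀ k n m, (M k n m)ᵀ = M k n m
  pE : ∀ k n m, (E k n m).PosSemidef
  tS : ∀ k n m, (τ • (S k n m * S k n m) - Θp k n m * Θp k n m).PosSemidef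
  w0 : ∀ k n m, (S k n m * S k n m - E k n m + M k n m).PosSemidef
  w1 : ∀ k n m, (S k n m * S k n m - E k n m - M k n m).PosSemidef
  g0 : ∀ k n m, (G₀ k n m).PosSemidef
  g1 : ∀ k n m, (G₁ k n m).PosSemidef
  blk : ∀ k, k₀ ≤ k → k < N → ∀ n n' m,
    (P (k + 1) (k + 1) n m * pg s (Θ k n' m) (R k n' m * R k n' m)
      (G k n' m + r k * G k n' m * r k)).trace
    ≤ (1 / 2) * ((P' k n (2 * m) * pg s (Θp k n' (2 * m)) (S k n' (2 * m) * S k n' (2 * m))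
        ((1 / 2 : ℝ) • (G₀ k n' (2 * m) + G₁ k n' (2 * m)))).trace
      + (P' k n (2 * m + 1) * pg s (Θp k n' (2 * m + 1))
        (S k n' (2 * m + 1) * S k n' (2 * m + 1))
        ((1 / 2 : ℝ) • (G₀ k n' (2 * m + 1) + G₁ k n' (2 * m + 1)))).trace)
  kill : ∀ k, k₀ ≤ k → k < N → ∀ n n' h,
    (1 / 2) * ((P' k n h * pg s (Θp k n' h - E k n' h + M k n' h)
          (S k n' h * S k n' h - E k n' h + M k n' h) (G₀ k n' h)).trace
        + (P' k n h * pg s (Θp k n' h - E k n' h - M k n' h)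
          (S k n' h * S k n' h - E k n' h - M k n' h) (G₁ k n' h)).trace)
      ≤ (mn (fun n => P k k n h) n * mn (fun n => V k k n h) n').trace + x k n n' h

variable {N k₀ : ℕ} {s q τ : ℝ} {P V : ∀ k, ℕ → ℤ → ℤ → Matrix (ι k) (ι k) ℝ}
  {Θ R G : ∀ k, ℤ → ℤ → Matrix (ι (k + 1)) (ι (k + 1)) ℝ}
  {r : ∀ k, Matrix (ι (k + 1)) (ι (k + 1)) ℝ}
  {P' Θp S E M G₀ G₁ : ∀ k, ℤ → ℤ → Matrix (ι k) (ι k) ℝ} {x : ℕ → ℤ → ℤ → ℤ → ℝ}

/-- the gain of the middle step -/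
def gnV (P V : ∀ k, ℕ → ℤ → ℤ → Matrix (ι k) (ι k) ℝ)
    (r : ∀ k, Matrix (ι (k + 1)) (ι (k + 1)) ℝ) (k : ℕ) (n n' m : ℤ) : ℝ :=
  (P (k + 1) (k + 1) n m * (r k * V (k + 1) (k + 1) n' m * r k)).trace

/-- price of the moves on the side of the second slot -/
def mvM (S M G₀ G₁ : ∀ k, ℤ → ℤ → Matrix (ι k) (ι k) ℝ) (k : ℕ) (n h : ℤ) : ℝ :=
  (M k n h * ((S k n h)⁻¹ * (S k n h)⁻¹) * M k n h * G₀ k n h).trace
    + (M k n h * ((S k n h)⁻¹ * (S k n h)⁻¹) * M k n h * G₁ k n h).trace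

/-- price of the drift on the side of the second slot -/
def mvD (E G₀ G₁ : ∀ k, ℤ → ℤ → Matrix (ι k) (ι k) ℝ) (k : ℕ) (n h : ℤ) : ℝ :=
  (E k n h * G₀ k n h).trace + (E k n h * G₁ k n h).trace

/-- all losses of the node -/
def lossW (s q τ lam kap : ℝ) (R G : ∀ k, ℤ → ℤ → Matrix (ι (k + 1)) (ι (k + 1)) ℝ)
    (r : ∀ k, Matrix (ι (k + 1)) (ι (k + 1)) ℝ)
    (P' S E M G₀ G₁ : ∀ k, ℤ → ℤ → Matrix (ι k) (ι k) ℝ)
    (x : ℕ → ℤ → ℤ → ℤ → ℝ) (k : ℕ) (n n' m : ℤ) : ℝ :=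
  q * τ * s⁻¹ * gp s (r k) (R k n' m * G k n' m * R k n' m)
    + q * τ * s⁻¹ * (1 + 2 * lam) * mh (fun h => dls s (S k n' h * G₀ k n' h * S k n' h)
        (S k n' h * G₁ k n' h * S k n' h)) m
    + s * lam⁻¹ * mh (fun h => (P' k n h
        * (M k n' h * ((S k n' h)⁻¹ * (S k n' h)⁻¹) * M k n' h)).trace) m
    + q * τ * (2 * lam)⁻¹ * mh (fun h => mvM S M G₀ G₁ k n' h) m
    + s * kap * mh (fun h => (P' k n h * E k n' h).trace) m
    + q * τ * (2 * kap)⁻¹ * mh (fun h => mvD E G₀ G₁ k n' h) m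
    + mh (fun h => x k n n' h) m

/-- **The node inequality.** -/
theorem WPair.mid (H : WPair N k₀ s q τ P V Θ R G r P' Θp S E M G₀ G₁ x) (hs : 0 < s)
    (hq0 : 0 ≤ q) (hτ0 : 0 ≤ τ) {lam kap : ℝ} (hl : 0 < lam) (hk : 0 < kap) {k : ℕ}
    (h1 : k₀ ≤ k) (h2 : k < N) (n n' m : ℤ) :
    (P (k + 1) (k + 1) n m * V (k + 1) (k + 1) n' m).trace
      + ((1 / 2) * gnV P V r k n n' m - lossW s q τ lam kap R G r P' S E M G₀ G₁ x k n n' m)
      ≤ (1 / 2) * ((mn (fun n => P k k n (2 * m)) n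
          * mn (fun n => V k k n (2 * m)) n').trace
        + (mn (fun n => P k k n (2 * m + 1)) n
          * mn (fun n => V k k n (2 * m + 1)) n').trace) := by
  have a1 := pair_mid hs hq0 hτ0 (H.sΘ k n' m) (H.pR k n' m) (H.uR k n' m) (H.tΘ k n' m)
    (H.pG k n' m) (H.pP k h1 h2 n m) (H.capP k h1 h2 n m) (H.hr k) (H.hr2 k) (H.rR k n' m)
    (H.rΘ k n' m)
  rw [← H.parV k h1 h2 n' m] at a1
  have a2 := H.blk k h1 h2 n n' m
  have b : ∀ h, _ := fun h => pair_outer hs hq0 hτ0 hl hk (H.sΘp k n' h) (H.sS k n' h)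
    (H.uS k n' h) (H.sM k n' h) (H.pE k n' h) (H.tS k n' h) (H.g0 k n' h) (H.g1 k n' h)
    (H.sP' k n h) (H.capP' k h1 h2 n h) (H.w0 k n' h) (H.w1 k n' h)
  have b0 := b (2 * m)
  have b1 := b (2 * m + 1)
  have k0 := H.kill k h1 h2 n n' (2 * m)
  have k1 := H.kill k h1 h2 n n' (2 * m + 1)
  unfold gnV lossW mh mvM mvD
  linarith

/-- **The plane theorem, with two parameters.** -/
theorem WPair.total (H : WPair N k₀ s q τ P V Θ R G r P' Θp S E M G₀ G₁ x) (hs : 0 < s)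
    (hq0 : 0 ≤ q) (hτ0 : 0 ≤ τ) {lam kap : ℝ} (hl : 0 < lam) (hk : 0 < kap) (hkN : k₀ ≤ N)
    {R₁ S₁ T₁ : ℤ} {cc : ℕ → ℤ} (hcc : H588.Pl cc) {OM OO ZB ZM EB EM X : ℝ}
    (hOM : ∑ k ∈ Ico k₀ N, (4 : ℝ) ^ (k + 1) * ∑ m ∈ iv (N - (k + 1)) S₁,
      ∑ n ∈ iv (N - (k + 1)) T₁, gp s (r k) (R k n m * G k n m * R k n m) ≤ OM)
    (hOO : ∑ k ∈ Ico k₀ N, (4 : ℝ) ^ (k + 1) * ∑ m ∈ iv (N - (k + 1)) S₁,
      ∑ n ∈ iv (N - (k + 1)) T₁, mh (fun h => dls s (S k n h * G₀ k n h * S k n h)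
        (S k n h * G₁ k n h * S k n h)) m ≤ OO)
    (hZM : ∑ k ∈ Ico k₀ N, (4 : ℝ) ^ (k + 1) * ∑ m ∈ iv (N - (k + 1)) S₁,
      ∑ n ∈ iv (N - (k + 1)) T₁, mh (fun h => mvM S M G₀ G₁ k n h) m ≤ ZM)
    (hEM : ∑ k ∈ Ico k₀ N, (4 : ℝ) ^ (k + 1) * ∑ m ∈ iv (N - (k + 1)) S₁,
      ∑ n ∈ iv (N - (k + 1)) T₁, mh (fun h => mvD E G₀ G₁ k n h) m ≤ EM)
    (hZB : ∑ k ∈ Ico k₀ N, GW N R₁ S₁ T₁ (k + 1) (cc (k + 1)) (fun n n' m =>
      mh (fun h => (P' k n h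
        * (M k n' h * ((S k n' h)⁻¹ * (S k n' h)⁻¹) * M k n' h)).trace) m) ≤ ZB)
    (hEB : ∑ k ∈ Ico k₀ N, GW N R₁ S₁ T₁ (k + 1) (cc (k + 1)) (fun n n' m =>
      mh (fun h => (P' k n h * E k n' h).trace) m) ≤ EB)
    (hX : ∑ k ∈ Ico k₀ N, GW N R₁ S₁ T₁ (k + 1) (cc (k + 1)) (fun n n' m =>
      mh (fun h => x k n n' h) m) ≤ X) :
    (1 / 2) * ∑ k ∈ Ico k₀ N, GW N R₁ S₁ T₁ (k + 1) (cc (k + 1)) (gnV P V r k)
      ≤ √(TV k₀ N R₁ S₁ P * TV k₀ N T₁ S₁ V)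
        + (q * τ * s⁻¹ * OM + q * τ * s⁻¹ * (1 + 2 * lam) * OO + s * lam⁻¹ * ZB
          + q * τ * (2 * lam)⁻¹ * ZM + s * kap * EB + q * τ * (2 * kap)⁻¹ * EM + X) := by
  have h := totalV_sqrt hkN hcc (P := P) (Q := V)
    (g := fun k n n' m => (1 / 2) * gnV P V r k n n' m
      - lossW s q τ lam kap R G r P' S E M G₀ G₁ x k n n' m) (R := R₁) (S := S₁) (T := T₁)
    H.sP H.sV (fun k h1 h2 n n' m => H.mid hs hq0 hτ0 hl hk h1 h2 n n' m)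
  have eg : ∀ k, GW N R₁ S₁ T₁ (k + 1) (cc (k + 1)) (fun n n' m => (1 / 2) * gnV P V r k n n' m
      - lossW s q τ lam kap R G r P' S E M G₀ G₁ x k n n' m)
      = (1 / 2) * GW N R₁ S₁ T₁ (k + 1) (cc (k + 1)) (gnV P V r k)
        - GW N R₁ S₁ T₁ (k + 1) (cc (k + 1)) (lossW s q τ lam kap R G r P' S E M G₀ G₁ x k) := by
    intro k
    have e1 := GW_add N R₁ S₁ T₁ (k + 1) (cc (k + 1))
      (fun n n' m => (1 / 2) * gnV P V r k n n' m)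
      (fun n n' m => (-1) * lossW s q τ lam kap R G r P' S E M G₀ G₁ x k n n' m)
    rw [GW_mul, GW_mul] at e1
    have e2 : (fun n n' m => (1 / 2) * gnV P V r k n n' m
        - lossW s q τ lam kap R G r P' S E M G₀ G₁ x k n n' m)
        = fun n n' m => (1 / 2) * gnV P V r k n n' m
          + (-1) * lossW s q τ lam kap R G r P' S E M G₀ G₁ x k n n' m := by
      funext n n' m
      ring
    rw [e2, e1]
    ring
  simp only [eg, Finset.sum_sub_distrib, ← Finset.mul_sum] at h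
  have hs' : 0 < s⁻¹ := inv_pos.2 hs
  have hl' : 0 < lam⁻¹ := inv_pos.2 hl
  have hqt : 0 ≤ q * τ := mul_nonneg hq0 hτ0
  have el : ∀ k, GW N R₁ S₁ T₁ (k + 1) (cc (k + 1)) (lossW s q τ lam kap R G r P' S E M G₀ G₁ x k)
      = q * τ * s⁻¹ * GW N R₁ S₁ T₁ (k + 1) (cc (k + 1))
          (fun _ n' m => gp s (r k) (R k n' m * G k n' m * R k n' m))
        + q * τ * s⁻¹ * (1 + 2 * lam) * GW N R₁ S₁ T₁ (k + 1) (cc (k + 1))
          (fun _ n' m => mh (fun h => dls s (S k n' h * G₀ k n' h * S k n' h)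
            (S k n' h * G₁ k n' h * S k n' h)) m)
        + s * lam⁻¹ * GW N R₁ S₁ T₁ (k + 1) (cc (k + 1)) (fun n n' m => mh (fun h => (P' k n h
            * (M k n' h * ((S k n' h)⁻¹ * (S k n' h)⁻¹) * M k n' h)).trace) m)
        + q * τ * (2 * lam)⁻¹ * GW N R₁ S₁ T₁ (k + 1) (cc (k + 1))
          (fun _ n' m => mh (fun h => mvM S M G₀ G₁ k n' h) m)
        + s * kap * GW N R₁ S₁ T₁ (k + 1) (cc (k + 1))
          (fun n n' m => mh (fun h => (P' k n h * E k n' h).trace) m)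
        + q * τ * (2 * kap)⁻¹ * GW N R₁ S₁ T₁ (k + 1) (cc (k + 1))
          (fun _ n' m => mh (fun h => mvD E G₀ G₁ k n' h) m)
        + GW N R₁ S₁ T₁ (k + 1) (cc (k + 1)) (fun n n' m => mh (fun h => x k n n' h) m) := by
    intro k
    rw [← GW_mul, ← GW_mul, ← GW_mul, ← GW_mul, ← GW_mul, ← GW_mul, ← GW_add, ← GW_add,
      ← GW_add, ← GW_add, ← GW_add, ← GW_add]
    rfl
  have pS : ∀ k n h, (M k n h * ((S k n h)⁻¹ * (S k n h)⁻¹) * M k n h).PosSemidef := by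
    intro k n h
    have hSi : ((S k n h)⁻¹)ᵀ = (S k n h)⁻¹ := by rw [transpose_nonsing_inv, H.sS]
    exact psd_conj_symm (psd_sq hSi) (H.sM k n h)
  have nM : ∀ k n h, 0 ≤ mvM S M G₀ G₁ k n h := fun k n h =>
    add_nonneg (trace_mul_nonneg (pS k n h) (H.g0 k n h))
      (trace_mul_nonneg (pS k n h) (H.g1 k n h))
  have nD : ∀ k n h, 0 ≤ mvD E G₀ G₁ k n h := fun k n h =>
    add_nonneg (trace_mul_nonneg (H.pE k n h) (H.g0 k n h))
      (trace_mul_nonneg (H.pE k n h) (H.g1 k n h))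
  have g1 : ∑ k ∈ Ico k₀ N, GW N R₁ S₁ T₁ (k + 1) (cc (k + 1))
      (fun _ n' m => gp s (r k) (R k n' m * G k n' m * R k n' m)) ≤ OM :=
    (Finset.sum_le_sum fun k _ => GW_le_one N R₁ S₁ T₁ (k + 1) (cc (k + 1))
      (fun n m => gp_nonneg hs (psd_conj_symm (H.pG k n m) (psd_isSymm (H.pR k n m)))
        (H.hr k))).trans hOM
  have g2 : ∑ k ∈ Ico k₀ N, GW N R₁ S₁ T₁ (k + 1) (cc (k + 1))
      (fun _ n' m => mh (fun h => dls s (S k n' h * G₀ k n' h * S k n' h)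
        (S k n' h * G₁ k n' h * S k n' h)) m) ≤ OO :=
    (Finset.sum_le_sum fun k _ => GW_le_one N R₁ S₁ T₁ (k + 1) (cc (k + 1))
      (f := fun n' m => mh (fun h => dls s (S k n' h * G₀ k n' h * S k n' h)
        (S k n' h * G₁ k n' h * S k n' h)) m)
      (fun n m => mh_nonneg (fun h => dls_nonneg hs (psd_conj_symm (H.g0 k n h) (H.sS k n h))
        (psd_conj_symm (H.g1 k n h) (H.sS k n h))) m)).trans hOO
  have g4 : ∑ k ∈ Ico k₀ N, GW N R₁ S₁ T₁ (k + 1) (cc (k + 1))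
      (fun _ n' m => mh (fun h => mvM S M G₀ G₁ k n' h) m) ≤ ZM :=
    (Finset.sum_le_sum fun k _ => GW_le_one N R₁ S₁ T₁ (k + 1) (cc (k + 1))
      (f := fun n' m => mh (fun h => mvM S M G₀ G₁ k n' h) m)
      (fun n m => mh_nonneg (fun h => nM k n h) m)).trans hZM
  have g6 : ∑ k ∈ Ico k₀ N, GW N R₁ S₁ T₁ (k + 1) (cc (k + 1))
      (fun _ n' m => mh (fun h => mvD E G₀ G₁ k n' h) m) ≤ EM :=
    (Finset.sum_le_sum fun k _ => GW_le_one N R₁ S₁ T₁ (k + 1) (cc (k + 1))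
      (f := fun n' m => mh (fun h => mvD E G₀ G₁ k n' h) m)
      (fun n m => mh_nonneg (fun h => nD k n h) m)).trans hEM
  simp only [el, Finset.sum_add_distrib, ← Finset.mul_sum] at h
  have f1 := mul_le_mul_of_nonneg_left g1 (show 0 ≤ q * τ * s⁻¹ by positivity)
  have f2 := mul_le_mul_of_nonneg_left g2 (show 0 ≤ q * τ * s⁻¹ * (1 + 2 * lam) by positivity)
  have f3 := mul_le_mul_of_nonneg_left hZB (show 0 ≤ s * lam⁻¹ by positivity)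
  have f4 := mul_le_mul_of_nonneg_left g4 (show 0 ≤ q * τ * (2 * lam)⁻¹ by positivity)
  have f5 := mul_le_mul_of_nonneg_left hEB (show 0 ≤ s * kap by positivity)
  have f6 := mul_le_mul_of_nonneg_left g6 (show 0 ≤ q * τ * (2 * kap)⁻¹ by positivity)
  linarith

end

end Vale.Agent.P141.H419.PairB
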