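import Vale.Agent.P141.H28.RidgeW
import Vale.Agent.P141.H585.PairO

/-!
# P141, line (A), (TI): the pair `(W^(-1/2) Θ b, W^(1/2) C)` with the hub in the rows

`pq ν Θ W G = Θ (1 + ν G W)⁻¹ G Θ` is the capped Gram matrix of the second slot seen from the raw
first slot: for `W = S S` it is `ν⁻¹ Θ S⁻¹ phi (ν S G S) S⁻¹ Θ`.

`pg s = pq s⁻¹`.

* `pair_outer` : the outer step, both slots move (`W`, `Θ` to `W - E ± M`, `Θ - E ± M`);
* `pair_mid` : the middle step, `W` and `Θ` commute with the sign.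
-/

set_option linter.unusedSectionVars false

namespace Vale.Agent.P141.H419.PairW

open Matrix Vale.Agent.P075 Vale.Agent.P141.H28

noncomputable section

variable {n κ α : Type*} [Fintype n] [DecidableEq n] [Fintype κ] [DecidableEq κ] [Fintype α]
  [DecidableEq α]

/-- the second slot seen from the raw first slot -/
def pq (ν : ℝ) (Θ W G : Matrix κ κ ℝ) : Matrix κ κ ℝ := Θ * ((1 + ν • (G * W))⁻¹ * G) * Θ

theorem pq_nu {ν : ℝ} (hν : 0 < ν) (Θ W G : Matrix κ κ ℝ) :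
    pq ν Θ W G = ν⁻¹ • pq 1 Θ W (ν • G) := by
  unfold pq
  simp only [Matrix.smul_mul, Matrix.mul_smul, smul_smul, one_mul]
  rw [inv_mul_cancel₀ hν.ne', one_smul]

/-- rows and columns exchanged -/
theorem phi_push (u : Matrix κ n ℝ) : phi (u * uᵀ) = u * res (uᵀ * u) * uᵀ := by
  have p1 := psd_mul_transpose u
  have p2 := psd_transpose_mul u
  have e1 : (1 + u * uᵀ) * u = u * (1 + uᵀ * u) := by
    rw [Matrix.add_mul, Matrix.mul_add, Matrix.one_mul, Matrix.mul_one, Matrix.mul_assoc]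
  have e2 : res (u * uᵀ) * u = u * res (uᵀ * u) := by
    calc res (u * uᵀ) * u = res (u * uᵀ) * (u * ((1 + uᵀ * u) * res (uᵀ * u))) := by
          rw [one_add_mul_res p2, Matrix.mul_one]
      _ = res (u * uᵀ) * ((1 + u * uᵀ) * u * res (uᵀ * u)) := by
          rw [e1]; simp only [Matrix.mul_assoc]
      _ = (res (u * uᵀ) * (1 + u * uᵀ)) * (u * res (uᵀ * u)) := by
          simp only [Matrix.mul_assoc]
      _ = u * res (uᵀ * u) := by rw [res_mul_one_add p1, Matrix.one_mul]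
  rw [← e2, Matrix.mul_assoc, res_mul_phi p1]

/-- the form with a root of the Gram matrix -/
theorem pq_rect {Θ W : Matrix κ κ ℝ} (hW : W.PosSemidef) (c : Matrix κ n ℝ) :
    pq 1 Θ W (c * cᵀ) = Θ * (c * res (cᵀ * W * c) * cᵀ) * Θ := by
  have hX : (cᵀ * W * c).PosSemidef := gram_psd hW c
  have hd : IsUnit (1 + (1 : ℝ) • (c * cᵀ * W)).det := by
    have h1 : (1 + (1 : ℝ) • (c * cᵀ * W)).det = (1 + cᵀ * W * c).det := by
      rw [one_smul, Matrix.mul_assoc, Matrix.det_one_add_mul_comm]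
    rw [h1]
    exact (det_pos_one_add hX).ne'.isUnit
  have e : (1 + (1 : ℝ) • (c * cᵀ * W)) * (c * res (cᵀ * W * c) * cᵀ) = c * cᵀ := by
    have : (1 + (1 : ℝ) • (c * cᵀ * W)) * (c * res (cᵀ * W * c) * cᵀ)
        = c * ((1 + cᵀ * W * c) * res (cᵀ * W * c)) * cᵀ := by
      rw [one_smul]
      simp only [Matrix.add_mul, Matrix.mul_add, Matrix.one_mul, Matrix.mul_assoc]
    rw [this, one_add_mul_res hX, Matrix.mul_one]
  unfold pq
  have e2 : (1 + (1 : ℝ) • (c * cᵀ * W))⁻¹ * (c * cᵀ) = c * res (cᵀ * W * c) * cᵀ := by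
    calc (1 + (1 : ℝ) • (c * cᵀ * W))⁻¹ * (c * cᵀ)
        = (1 + (1 : ℝ) • (c * cᵀ * W))⁻¹
          * ((1 + (1 : ℝ) • (c * cᵀ * W)) * (c * res (cᵀ * W * c) * cᵀ)) := by rw [e]
      _ = _ := by rw [← Matrix.mul_assoc, nonsing_inv_mul _ hd, Matrix.one_mul]
  rw [e2]

/-- the form with a root of the weight -/
theorem pq_root {Θ S G : Matrix κ κ ℝ} (hSu : IsUnit S.det) (hSt : Sᵀ = S)
    (hG : G.PosSemidef) : pq 1 Θ (S * S) G = Θ * (S⁻¹ * phi (S * G * S) * S⁻¹) * Θ := by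
  have hW : (S * S).PosSemidef := psd_sq hSt
  obtain ⟨c, hc, rfl⟩ := exists_sq hG
  have hct := psd_isSymm hc
  have e := pq_rect (Θ := Θ) hW c
  rw [hct] at e
  rw [e]
  have e1 : S * (c * c) * S = (S * c) * (S * c)ᵀ := by
    rw [transpose_mul, hSt, hct]; simp only [Matrix.mul_assoc]
  have e2 : (S * c)ᵀ * (S * c) = c * (S * S) * c := by
    rw [transpose_mul, hSt, hct]; simp only [Matrix.mul_assoc]
  rw [e1, phi_push, e2]
  have e3 : S⁻¹ * (S * c * res (c * (S * S) * c) * (S * c)ᵀ) * S⁻¹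
      = c * res (c * (S * S) * c) * c := by
    rw [transpose_mul, hSt, hct]
    have : S⁻¹ * (S * c * res (c * (S * S) * c) * (c * S)) * S⁻¹
        = (S⁻¹ * S) * c * res (c * (S * S) * c) * c * (S * S⁻¹) := by
      simp only [Matrix.mul_assoc]
    rw [this, nonsing_inv_mul _ hSu, mul_nonsing_inv _ hSu, Matrix.one_mul, Matrix.mul_one]
  rw [e3]

/-! ### The test vector -/

section test

variable {Θ W δ : Matrix κ κ ℝ} {c : Matrix κ n ℝ} {B : Matrix κ α ℝ}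

/-- the optimal vector of one child -/
def zo (Θ W : Matrix κ κ ℝ) (c : Matrix κ n ℝ) (B : Matrix κ α ℝ) : Matrix n α ℝ :=
  res (cᵀ * W * c) * (cᵀ * (Θ * B))

theorem val_rect (hΘ : Θᵀ = Θ) (hW : W.PosSemidef) :
    (B * Bᵀ * pq 1 Θ W (c * cᵀ)).trace
      = ip (cᵀ * (Θ * B)) (res (cᵀ * W * c) * (cᵀ * (Θ * B))) := by
  rw [pq_rect hW, ip, transpose_mul, transpose_mul, transpose_transpose, hΘ, Matrix.mul_assoc B,
    trace_mul_comm]
  simp only [Matrix.mul_assoc]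

theorem val_own (hΘ : Θᵀ = Θ) (hW : W.PosSemidef) :
    (B * Bᵀ * pq 1 Θ W (c * cᵀ)).trace
      = 2 * ip (c * zo Θ W c B) (Θ * B) - ip (zo Θ W c B) (zo Θ W c B)
        - ip (c * zo Θ W c B) (W * (c * zo Θ W c B)) := by
  have hX : (cᵀ * W * c).PosSemidef := gram_psd hW c
  have hR := res_symm hX
  rw [val_rect hΘ hW]
  have e1 : ip (c * zo Θ W c B) (Θ * B) = ip (zo Θ W c B) (cᵀ * (Θ * B)) := ip_rect _ _ _
  have e2 : ip (c * zo Θ W c B) (W * (c * zo Θ W c B))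
      = ip (zo Θ W c B) ((cᵀ * W * c) * zo Θ W c B) := by
    rw [ip_rect]; simp only [Matrix.mul_assoc]
  have e3 : ip (zo Θ W c B) (zo Θ W c B) + ip (zo Θ W c B) ((cᵀ * W * c) * zo Θ W c B)
      = ip (zo Θ W c B) (cᵀ * (Θ * B)) := by
    rw [← ip_add_right]
    congr 1
    have : zo Θ W c B + (cᵀ * W * c) * zo Θ W c B = (1 + cᵀ * W * c) * zo Θ W c B := by
      rw [Matrix.add_mul, Matrix.one_mul]
    rw [this, zo, ← Matrix.mul_assoc, one_add_mul_res hX, Matrix.one_mul]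
  have e4 : ip (cᵀ * (Θ * B)) (res (cᵀ * W * c) * (cᵀ * (Θ * B)))
      = ip (zo Θ W c B) (cᵀ * (Θ * B)) := by
    rw [ip_comm]; rfl
  rw [e1, e2, e4]
  linarith

theorem val_test (hΘ : Θᵀ = Θ) (hW : W.PosSemidef) (Z : Matrix n α ℝ) :
    2 * ip (c * Z) (Θ * B) - ip Z Z - ip (c * Z) (W * (c * Z))
      ≤ (B * Bᵀ * pq 1 Θ W (c * cᵀ)).trace := by
  have hX : (cᵀ * W * c).PosSemidef := gram_psd hW c
  have h1 := val_own (B := B) (c := c) hΘ hW
  have hp := ip_psd (posDef_one_add hX).posSemidef (Z - zo Θ W c B)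
  have e0 : (1 + cᵀ * W * c) * zo Θ W c B = cᵀ * (Θ * B) := by
    rw [zo, ← Matrix.mul_assoc, one_add_mul_res hX, Matrix.one_mul]
  have e1 : ip (c * Z) (Θ * B) = ip Z (cᵀ * (Θ * B)) := ip_rect _ _ _
  have e2 : ip (c * Z) (W * (c * Z)) = ip Z ((cᵀ * W * c) * Z) := by
    rw [ip_rect]; simp only [Matrix.mul_assoc]
  have e3 : ip Z ((1 + cᵀ * W * c) * Z) = ip Z Z + ip Z ((cᵀ * W * c) * Z) := by
    rw [Matrix.add_mul, Matrix.one_mul, ip_add_right]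
  have e4 : ip (zo Θ W c B) ((1 + cᵀ * W * c) * Z) = ip Z (cᵀ * (Θ * B)) := by
    rw [ip_mul, transpose_add, transpose_one, psd_isSymm hX, e0, ip_comm]
  have e5 : ip (zo Θ W c B) (cᵀ * (Θ * B)) = ip (c * zo Θ W c B) (Θ * B) := (ip_rect _ _ _).symm
  have e6 : ip (c * zo Θ W c B) (W * (c * zo Θ W c B))
      = ip (zo Θ W c B) ((cᵀ * W * c) * zo Θ W c B) := by
    rw [ip_rect]; simp only [Matrix.mul_assoc]
  have e7 : ip (zo Θ W c B) (zo Θ W c B) + ip (zo Θ W c B) ((cᵀ * W * c) * zo Θ W c B)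
      = ip (zo Θ W c B) (cᵀ * (Θ * B)) := by
    rw [← ip_add_right, ← e0, Matrix.add_mul, Matrix.one_mul]
  rw [Matrix.mul_sub, ip_sub_left, ip_sub_right, ip_sub_right, e0, e3, e4] at hp
  rw [h1, e1, e2]
  linarith

/-- **one child with the moved weights** -/
theorem val_move (hΘ : Θᵀ = Θ) (hW : W.PosSemidef) (hδ : δᵀ = δ) (hW' : (W + δ).PosSemidef) :
    (B * Bᵀ * pq 1 Θ W (c * cᵀ)).trace + 2 * ip (c * zo Θ W c B) (δ * B)
      - ip (c * zo Θ W c B) (δ * (c * zo Θ W c B))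
      ≤ (B * Bᵀ * pq 1 (Θ + δ) (W + δ) (c * cᵀ)).trace := by
  have h := val_test (B := B) (c := c) (Θ := Θ + δ) (by rw [transpose_add, hΘ, hδ]) hW'
    (zo Θ W c B)
  rw [val_own hΘ hW]
  simp only [Matrix.add_mul, ip_add_right] at h
  linarith

/-- the size of the optimal vector -/
theorem zo_cap {τ q : ℝ} (hq0 : 0 ≤ q) (hτ0 : 0 ≤ τ) (hΘ : Θᵀ = Θ) (hW : W.PosSemidef)
    (hτ : (τ • W - Θ * Θ).PosSemidef) (hq : (q • (1 : Matrix κ κ ℝ) - B * Bᵀ).PosSemidef) :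
    ((q * τ) • (1 : Matrix n n ℝ) - zo Θ W c B * (zo Θ W c B)ᵀ).PosSemidef := by
  have hX : (cᵀ * W * c).PosSemidef := gram_psd hW c
  have hR := res_symm hX
  have e1 : zo Θ W c B * (zo Θ W c B)ᵀ
      = (res (cᵀ * W * c) * cᵀ * Θ) * (B * Bᵀ) * (res (cᵀ * W * c) * cᵀ * Θ)ᵀ := by
    rw [zo]
    simp only [transpose_mul, transpose_transpose, hΘ, Matrix.mul_assoc]
  have p1 := psd_conj hq (res (cᵀ * W * c) * cᵀ * Θ)
  have p2 := psd_conj hτ (res (cᵀ * W * c) * cᵀ)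
  have e2 : (res (cᵀ * W * c) * cᵀ * Θ) * (q • (1 : Matrix κ κ ℝ) - B * Bᵀ)
        * (res (cᵀ * W * c) * cᵀ * Θ)ᵀ
      = q • ((res (cᵀ * W * c) * cᵀ) * (Θ * Θ) * (res (cᵀ * W * c) * cᵀ)ᵀ)
        - zo Θ W c B * (zo Θ W c B)ᵀ := by
    rw [e1, Matrix.mul_sub, Matrix.sub_mul, Matrix.mul_smul, Matrix.smul_mul, Matrix.mul_one]
    congr 1
    simp only [transpose_mul, transpose_transpose, hΘ, Matrix.mul_assoc]
  have e3 : (res (cᵀ * W * c) * cᵀ) * (τ • W - Θ * Θ) * (res (cᵀ * W * c) * cᵀ)ᵀ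
      = τ • (res (cᵀ * W * c) - res (cᵀ * W * c) * res (cᵀ * W * c))
        - (res (cᵀ * W * c) * cᵀ) * (Θ * Θ) * (res (cᵀ * W * c) * cᵀ)ᵀ := by
    rw [Matrix.mul_sub, Matrix.sub_mul, Matrix.mul_smul, Matrix.smul_mul, res_sub_sq hX]
    congr 2
    rw [transpose_mul, transpose_transpose, hR]
    simp only [Matrix.mul_assoc]
  rw [e2] at p1
  rw [e3] at p2
  have p3 : (1 - (res (cᵀ * W * c) - res (cᵀ * W * c) * res (cᵀ * W * c))).PosSemidef := by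
    have a := one_sub_res_psd hX
    have b := psd_sq hR
    have : (1 - (res (cᵀ * W * c) - res (cᵀ * W * c) * res (cᵀ * W * c)))
        = (1 - res (cᵀ * W * c)) + res (cᵀ * W * c) * res (cᵀ * W * c) := by abel
    rw [this]
    exact a.add b
  have p4 := ((p2.smul hq0).add p1).add (p3.smul (mul_nonneg hq0 hτ0))
  have e4 : (q * τ) • (1 : Matrix n n ℝ) - zo Θ W c B * (zo Θ W c B)ᵀ
      = q • (τ • (res (cᵀ * W * c) - res (cᵀ * W * c) * res (cᵀ * W * c))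
        - (res (cᵀ * W * c) * cᵀ) * (Θ * Θ) * (res (cᵀ * W * c) * cᵀ)ᵀ)
      + (q • ((res (cᵀ * W * c) * cᵀ) * (Θ * Θ) * (res (cᵀ * W * c) * cᵀ)ᵀ)
        - zo Θ W c B * (zo Θ W c B)ᵀ)
      + (q * τ) • (1 - (res (cᵀ * W * c) - res (cᵀ * W * c) * res (cᵀ * W * c))) := by
    module
  rw [e4]
  exact p4

/-- a quadratic loss of the optimal vector -/
theorem zo_loss {τ q : ℝ} (hq0 : 0 ≤ q) (hτ0 : 0 ≤ τ) (hΘ : Θᵀ = Θ) (hW : W.PosSemidef)
    (hτ : (τ • W - Θ * Θ).PosSemidef) (hq : (q • (1 : Matrix κ κ ℝ) - B * Bᵀ).PosSemidef)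
    {N : Matrix κ κ ℝ} (hN : N.PosSemidef) :
    ip (c * zo Θ W c B) (N * (c * zo Θ W c B)) ≤ q * τ * (N * (c * cᵀ)).trace := by
  have h1 := zo_cap (c := c) hq0 hτ0 hΘ hW hτ hq
  have h2 := trace_mul_nonneg (gram_psd hN c) h1
  have e1 : ip (c * zo Θ W c B) (N * (c * zo Θ W c B))
      = ((cᵀ * N * c) * (zo Θ W c B * (zo Θ W c B)ᵀ)).trace := by
    rw [ip, transpose_mul, ← Matrix.mul_assoc (cᵀ * N * c), trace_mul_comm _ (zo Θ W c B)ᵀ]
    simp only [Matrix.mul_assoc]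
  have e2 : (cᵀ * N * c).trace = (N * (c * cᵀ)).trace := by
    rw [Matrix.mul_assoc, trace_mul_comm, Matrix.mul_assoc]
  rw [Matrix.mul_sub, trace_sub, Matrix.mul_smul, Matrix.mul_one, trace_smul, smul_eq_mul, e2,
    ← e1] at h2
  linarith

end test

/-! ### The outer step -/

section outer

variable {Θ S M E : Matrix κ κ ℝ}

/-- Cauchy-Schwarz with a weight -/
theorem ip_wt {N : Matrix κ κ ℝ} (hN : N.PosSemidef) (x y : Matrix κ α ℝ) {r : ℝ} (hr : 0 < r) :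
    ip x (N * y) ≤ r / 2 * ip y (N * y) + (2 * r)⁻¹ * ip x (N * x) := by
  have h := ip_psd hN (x - r • y)
  have hs := psd_isSymm hN
  have e1 : ip y (N * x) = ip x (N * y) := by rw [ip_mul, hs, ip_comm]
  rw [Matrix.mul_sub, Matrix.mul_smul] at h
  simp only [ip_sub_left, ip_sub_right, ip_smul_left, ip_smul_right, e1] at h
  have h2 := mul_le_mul_of_nonneg_left (show 0 ≤ ip x (N * x) - r * ip x (N * y)
    - (r * ip x (N * y) - r * (r * ip y (N * y))) by linarith) (inv_pos.2 hr).le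
  have e2 : r⁻¹ * (ip x (N * x) - r * ip x (N * y) - (r * ip x (N * y) - r * (r * ip y (N * y))))
      = r⁻¹ * ip x (N * x) - 2 * ip x (N * y) + r * ip y (N * y) := by
    field_simp
    ring
  rw [mul_zero, e2] at h2
  have e3 : (2 * r)⁻¹ * ip x (N * x) = (1 / 2) * (r⁻¹ * ip x (N * x)) := by
    rw [mul_inv]; ring
  rw [e3]
  linarith

theorem ip_yg (x y : Matrix κ α ℝ) {r : ℝ} (hr : 0 < r) :
    ip x y ≤ r / 2 * ip x x + (2 * r)⁻¹ * ip y y :=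
  (le_abs_self _).trans (ip_young x y hr)

/-- the resolvent in the two forms -/
theorem core (hS : Sᵀ = S) (hSu : IsUnit S.det) (c : Matrix κ n ℝ) :
    c * res (cᵀ * (S * S) * c) * cᵀ = S⁻¹ * phi (S * (c * cᵀ) * S) * S⁻¹ := by
  have e1 : S * (c * cᵀ) * S = (S * c) * (S * c)ᵀ := by
    rw [transpose_mul, hS]; simp only [Matrix.mul_assoc]
  have e2 : (S * c)ᵀ * (S * c) = cᵀ * (S * S) * c := by
    rw [transpose_mul, hS]; simp only [Matrix.mul_assoc]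
  rw [e1, phi_push, e2, transpose_mul, hS]
  have : S⁻¹ * (S * c * res (cᵀ * (S * S) * c) * (cᵀ * S)) * S⁻¹
      = (S⁻¹ * S) * c * res (cᵀ * (S * S) * c) * cᵀ * (S * S⁻¹) := by
    simp only [Matrix.mul_assoc]
  rw [this, nonsing_inv_mul _ hSu, mul_nonsing_inv _ hSu, Matrix.one_mul, Matrix.mul_one]

/-- the first slot seen in the metric of the weight -/
def bt (Θ S : Matrix κ κ ℝ) (B : Matrix κ α ℝ) : Matrix κ α ℝ := S⁻¹ * (Θ * B)

theorem bt_cap {τ q : ℝ} (hq0 : 0 ≤ q) (hΘ : Θᵀ = Θ) (hS : Sᵀ = S) (hSu : IsUnit S.det)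
    (hτ : (τ • (S * S) - Θ * Θ).PosSemidef) {B : Matrix κ α ℝ}
    (hq : (q • (1 : Matrix κ κ ℝ) - B * Bᵀ).PosSemidef) :
    ((q * τ) • (1 : Matrix κ κ ℝ) - bt Θ S B * (bt Θ S B)ᵀ).PosSemidef := by
  have hSi : (S⁻¹)ᵀ = S⁻¹ := by rw [transpose_nonsing_inv, hS]
  have p1 := psd_conj hq (S⁻¹ * Θ)
  have p2 := psd_conj hτ S⁻¹
  have e1 : S⁻¹ * Θ * (q • (1 : Matrix κ κ ℝ) - B * Bᵀ) * (S⁻¹ * Θ)ᵀ
      = q • (S⁻¹ * (Θ * Θ) * S⁻¹) - bt Θ S B * (bt Θ S B)ᵀ := by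
    rw [bt]
    simp only [Matrix.mul_sub, Matrix.sub_mul, Matrix.mul_smul, Matrix.smul_mul, Matrix.mul_one,
      transpose_mul, hSi, hΘ, Matrix.mul_assoc]
  have e2 : S⁻¹ * (τ • (S * S) - Θ * Θ) * (S⁻¹)ᵀ
      = τ • (1 : Matrix κ κ ℝ) - S⁻¹ * (Θ * Θ) * S⁻¹ := by
    rw [hSi, Matrix.mul_sub, Matrix.sub_mul, Matrix.mul_smul, Matrix.smul_mul]
    have : S⁻¹ * (S * S) * S⁻¹ = (S⁻¹ * S) * (S * S⁻¹) := by simp only [Matrix.mul_assoc]
    rw [this, nonsing_inv_mul _ hSu, mul_nonsing_inv _ hSu, Matrix.one_mul]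
  rw [e1] at p1
  rw [e2] at p2
  have e3 : (q * τ) • (1 : Matrix κ κ ℝ) - bt Θ S B * (bt Θ S B)ᵀ
      = q • (τ • (1 : Matrix κ κ ℝ) - S⁻¹ * (Θ * Θ) * S⁻¹)
        + (q • (S⁻¹ * (Θ * Θ) * S⁻¹) - bt Θ S B * (bt Θ S B)ᵀ) := by
    module
  rw [e3]
  exact (p2.smul hq0).add p1

theorem bt_loss {τ q : ℝ} (hq0 : 0 ≤ q) (hΘ : Θᵀ = Θ) (hS : Sᵀ = S) (hSu : IsUnit S.det)
    (hτ : (τ • (S * S) - Θ * Θ).PosSemidef) {B : Matrix κ α ℝ}
    (hq : (q • (1 : Matrix κ κ ℝ) - B * Bᵀ).PosSemidef) {N : Matrix κ κ ℝ} (hN : N.PosSemidef) :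
    ip (bt Θ S B) (N * bt Θ S B) ≤ q * τ * N.trace := by
  have h1 := bt_cap hq0 hΘ hS hSu hτ hq
  have h2 := trace_mul_nonneg hN h1
  have e1 : ip (bt Θ S B) (N * bt Θ S B) = (N * (bt Θ S B * (bt Θ S B)ᵀ)).trace := by
    rw [ip, trace_mul_comm, Matrix.mul_assoc]
  rw [Matrix.mul_sub, trace_sub, Matrix.mul_smul, Matrix.mul_one, trace_smul, smul_eq_mul,
    ← e1] at h2
  linarith

theorem val_root (hΘ : Θᵀ = Θ) (hS : Sᵀ = S) (hSu : IsUnit S.det) {B G : Matrix κ κ ℝ}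
    (hB : Bᵀ = B) (hG : G.PosSemidef) :
    (B * B * pq 1 Θ (S * S) G).trace = ip (bt Θ S B) (phi (S * G * S) * bt Θ S B) := by
  have hSi : (S⁻¹)ᵀ = S⁻¹ := by rw [transpose_nonsing_inv, hS]
  rw [pq_root hSu hS hG, ip, bt, transpose_mul, transpose_mul, hSi, hΘ, hB, Matrix.mul_assoc B,
    trace_mul_comm]
  simp only [Matrix.mul_assoc]

/-- **The outer step**, level one. -/
theorem outer1 {τ q lam kap : ℝ} (hq0 : 0 ≤ q) (hτ0 : 0 ≤ τ) (hl : 0 < lam) (hk : 0 < kap)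
    (hΘ : Θᵀ = Θ) (hS : Sᵀ = S) (hSu : IsUnit S.det) (hM : Mᵀ = M) (hE : E.PosSemidef)
    (hτ : (τ • (S * S) - Θ * Θ).PosSemidef) {G₀ G₁ Q : Matrix κ κ ℝ} (h0 : G₀.PosSemidef)
    (h1 : G₁.PosSemidef) (hQ : Q.PosSemidef) (hq : (q • (1 : Matrix κ κ ℝ) - Q).PosSemidef)
    (p0 : (S * S - E + M).PosSemidef) (p1 : (S * S - E - M).PosSemidef) :
    (Q * pq 1 Θ (S * S) ((1 / 2 : ℝ) • (G₀ + G₁))).trace
      ≤ (1 / 2) * ((Q * pq 1 (Θ - E + M) (S * S - E + M) G₀).trace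
          + (Q * pq 1 (Θ - E - M) (S * S - E - M) G₁).trace)
        + q * τ * (1 + 2 * lam) * (delt (S * G₀ * S) (S * G₁ * S)).trace
        + lam⁻¹ * (Q * (M * (S⁻¹ * S⁻¹) * M)).trace
        + q * τ * (2 * lam)⁻¹ * ((M * (S⁻¹ * S⁻¹) * M * G₀).trace
          + (M * (S⁻¹ * S⁻¹) * M * G₁).trace)
        + kap * (Q * E).trace
        + q * τ * (2 * kap)⁻¹ * ((E * G₀).trace + (E * G₁).trace) := by
  obtain ⟨B, hB, rfl⟩ := exists_sq hQ
  have hBt := psd_isSymm hB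
  obtain ⟨c₀, hc0, rfl⟩ := exists_sq h0
  obtain ⟨c₁, hc1, rfl⟩ := exists_sq h1
  have hc0t := psd_isSymm hc0
  have hc1t := psd_isSymm hc1
  have hW : (S * S).PosSemidef := psd_sq hS
  have hEt := psd_isSymm hE
  have hSi : (S⁻¹)ᵀ = S⁻¹ := by rw [transpose_nonsing_inv, hS]
  set y₀ := c₀ * zo Θ (S * S) c₀ B with hy0
  set y₁ := c₁ * zo Θ (S * S) c₁ B with hy1
  set Y₀ := S * (c₀ * c₀) * S with hY0
  set Y₁ := S * (c₁ * c₁) * S with hY1
  have hY0p : Y₀.PosSemidef := psd_conj_symm h0 hS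
  have hY1p : Y₁.PosSemidef := psd_conj_symm h1 hS
  -- the two children
  have d0 : (-E + M)ᵀ = -E + M := by rw [transpose_add, transpose_neg, hEt, hM]
  have d1 : (-E - M)ᵀ = -E - M := by rw [transpose_sub, transpose_neg, hEt, hM]
  have a0 := val_move (B := B) (c := c₀) hΘ hW d0 (by
    have : S * S + (-E + M) = S * S - E + M := by abel
    rwa [this])
  have a1 := val_move (B := B) (c := c₁) hΘ hW d1 (by
    have : S * S + (-E - M) = S * S - E - M := by abel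
    rwa [this])
  have b0 : S * S + (-E + M) = S * S - E + M := by abel
  have b1 : S * S + (-E - M) = S * S - E - M := by abel
  have b2 : Θ + (-E + M) = Θ - E + M := by abel
  have b3 : Θ + (-E - M) = Θ - E - M := by abel
  rw [b0, b2, hBt, hc0t] at a0
  rw [b1, b3, hBt, hc1t] at a1
  rw [← hy0] at a0
  rw [← hy1] at a1
  simp only [Matrix.add_mul, Matrix.sub_mul, Matrix.neg_mul, ip_add_right, ip_sub_right] at a0 a1
  have ng : ∀ (X Y : Matrix κ κ ℝ), ip X (-Y) = -ip X Y := fun X Y => by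
    have := ip_smul_right (-1) X Y
    simpa using this
  rw [ng, ng] at a0 a1
  -- losses with `E`
  have cap : ∀ {N : Matrix κ κ ℝ}, N.PosSemidef → ip y₀ (N * y₀) ≤ q * τ * (N * (c₀ * c₀)).trace
      ∧ ip y₁ (N * y₁) ≤ q * τ * (N * (c₁ * c₁)).trace := by
    intro N hN
    have hq' : (q • (1 : Matrix κ κ ℝ) - B * Bᵀ).PosSemidef := by rwa [hBt]
    have u0 := zo_loss (c := c₀) hq0 hτ0 hΘ hW hτ hq' hN
    have u1 := zo_loss (c := c₁) hq0 hτ0 hΘ hW hτ hq' hN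
    rw [hc0t] at u0
    rw [hc1t] at u1
    exact ⟨u0, u1⟩
  obtain ⟨k0, k1⟩ := cap hE
  have f0 := ip_wt hE y₀ B hk
  have f1 := ip_wt hE y₁ B hk
  have f2 : ip B (E * B) = (B * B * E).trace := by
    rw [ip, hBt, ← Matrix.mul_assoc, trace_mul_comm, ← Matrix.mul_assoc]
  have g0 := ip_psd hE y₀
  have g1 := ip_psd hE y₁
  -- losses with `M`
  have hZ : (M * (S⁻¹ * S⁻¹) * M).PosSemidef := by
    have := psd_sq (B := S⁻¹) hSi
    exact psd_conj_symm this hM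
  obtain ⟨m0, m1⟩ := cap hZ
  have hq' : (q • (1 : Matrix κ κ ℝ) - B * Bᵀ).PosSemidef := by rwa [hBt]
  set Bt := bt Θ S B with hBtd
  set H := hdiff Y₀ Y₁ with hH
  have hHs : Hᵀ = H := by
    rw [hH, hdiff, transpose_smul, transpose_sub, phi_symm hY0p, phi_symm hY1p]
  have r0 : y₀ = S⁻¹ * (phi Y₀ * Bt) := by
    have := core hS hSu c₀
    rw [hc0t] at this
    rw [hy0, zo, hc0t, hBtd, bt, hY0]
    calc c₀ * (res (c₀ * (S * S) * c₀) * (c₀ * (Θ * B)))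
        = (c₀ * res (c₀ * (S * S) * c₀) * c₀) * (Θ * B) := by simp only [Matrix.mul_assoc]
      _ = _ := by rw [this]; simp only [Matrix.mul_assoc]
  have r1 : y₁ = S⁻¹ * (phi Y₁ * Bt) := by
    have := core hS hSu c₁
    rw [hc1t] at this
    rw [hy1, zo, hc1t, hBtd, bt, hY1]
    calc c₁ * (res (c₁ * (S * S) * c₁) * (c₁ * (Θ * B)))
        = (c₁ * res (c₁ * (S * S) * c₁) * c₁) * (Θ * B) := by simp only [Matrix.mul_assoc]
      _ = _ := by rw [this]; simp only [Matrix.mul_assoc]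
  have r2 : y₀ - y₁ = (2 : ℝ) • (S⁻¹ * (H * Bt)) := by
    rw [r0, r1, hH, hdiff, ← Matrix.mul_sub, ← Matrix.sub_mul, Matrix.smul_mul, Matrix.mul_smul,
      smul_smul]
    norm_num
  -- the static part
  have hd := delt_psd hY0p hY1p
  have s0 := bt_loss hq0 hΘ hS hSu hτ hq' hd
  rw [← hBtd] at s0
  have v0 := val_root hΘ hS hSu hBt h0
  have v1 := val_root hΘ hS hSu hBt h1
  have vp := val_root hΘ hS hSu hBt (half_psd h0 h1)
  have ep : S * ((1 / 2 : ℝ) • (c₀ * c₀ + c₁ * c₁)) * S = (1 / 2 : ℝ) • (Y₀ + Y₁) := by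
    rw [hY0, hY1, Matrix.mul_smul, Matrix.smul_mul, Matrix.mul_add, Matrix.add_mul]
  rw [ep, ← hBtd] at vp
  rw [← hY0, ← hBtd] at v0
  rw [← hY1, ← hBtd] at v1
  clear_value y₀ y₁ Y₀ Y₁ Bt
  have s1 : ip Bt (phi ((1 / 2 : ℝ) • (Y₀ + Y₁)) * Bt)
      = (1 / 2) * (ip Bt (phi Y₀ * Bt) + ip Bt (phi Y₁ * Bt)) + ip Bt (delt Y₀ Y₁ * Bt) := by
    rw [delt, Matrix.sub_mul, ip_sub_right, Matrix.smul_mul, ip_smul_right, Matrix.add_mul,
      ip_add_right]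
    ring
  -- the first order terms
  have hh : ip (H * Bt) (H * Bt) ≤ q * τ * (delt Y₀ Y₁).trace := by
    have e : ip (H * Bt) (H * Bt) = ip Bt ((H * H) * Bt) := by
      rw [← ip_tmul, hHs, Matrix.mul_assoc]
    have u := bt_loss hq0 hΘ hS hSu hτ hq' (psd_sq hHs)
    rw [← hBtd] at u
    rw [e]
    exact u.trans (mul_le_mul_of_nonneg_left (R.hdiff_sq_le hY0p hY1p) (mul_nonneg hq0 hτ0))
  have mvS : ∀ X Y : Matrix κ κ ℝ, ip (S⁻¹ * X) Y = ip X (S⁻¹ * Y) := fun X Y => by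
    rw [← ip_tmul, hSi]
  have t1 : ip y₀ (M * B) - ip y₁ (M * B) = 2 * ip (H * Bt) (S⁻¹ * (M * B)) := by
    rw [← ip_sub_left, r2, ip_smul_left, mvS]
  have t2 : ip y₀ (M * y₀) - ip y₁ (M * y₁) = 2 * ip (H * Bt) (S⁻¹ * (M * (y₀ + y₁))) := by
    have e : ip y₁ (M * y₀) = ip y₀ (M * y₁) := by rw [ip_mul, hM, ip_comm]
    have e2 : ip (y₀ - y₁) (M * (y₀ + y₁)) = ip y₀ (M * y₀) - ip y₁ (M * y₁) := by
      rw [Matrix.mul_add, ip_sub_left, ip_add_right, ip_add_right, e]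
      ring
    rw [← e2, r2, ip_smul_left, mvS]
  have t3 := abs_le.1 (ip_young (H * Bt) (S⁻¹ * (M * B)) hl)
  have t4 := abs_le.1 (ip_young (H * Bt) (S⁻¹ * (M * (y₀ + y₁))) (show 0 < 2 * lam by linarith))
  have t5 : ip (S⁻¹ * (M * B)) (S⁻¹ * (M * B)) = (B * B * (M * (S⁻¹ * S⁻¹) * M)).trace := by
    rw [ip, transpose_mul, transpose_mul, hSi, hM, hBt, Matrix.mul_assoc B B, trace_mul_comm B]
    simp only [Matrix.mul_assoc]
  have zz : ∀ y : Matrix κ κ ℝ, ip (S⁻¹ * (M * y)) (S⁻¹ * (M * y))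
      = ip y (M * (S⁻¹ * S⁻¹) * M * y) := by
    intro y
    rw [ip, ip, transpose_mul, transpose_mul, hSi, hM]
    simp only [Matrix.mul_assoc]
  have t6 : ip (S⁻¹ * (M * (y₀ + y₁))) (S⁻¹ * (M * (y₀ + y₁)))
      ≤ 2 * (ip y₀ (M * (S⁻¹ * S⁻¹) * M * y₀) + ip y₁ (M * (S⁻¹ * S⁻¹) * M * y₁)) := by
    rw [← zz, ← zz, Matrix.mul_add, Matrix.mul_add]
    have := ip_self_nonneg (S⁻¹ * (M * y₀) - S⁻¹ * (M * y₁))
    simp only [ip_sub_left, ip_sub_right, ip_add_left, ip_add_right] at this ⊢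
    linarith
  have l4 : (2 * (2 * lam))⁻¹ * ip (S⁻¹ * (M * (y₀ + y₁))) (S⁻¹ * (M * (y₀ + y₁)))
      ≤ (2 * lam)⁻¹ * (q * τ * (M * (S⁻¹ * S⁻¹) * M * (c₀ * c₀)).trace
        + q * τ * (M * (S⁻¹ * S⁻¹) * M * (c₁ * c₁)).trace) := by
    have h3 : (2 * (2 * lam))⁻¹ = (1 / 2) * (2 * lam)⁻¹ := by
      rw [mul_inv]; norm_num
    rw [h3]
    have hi : (0 : ℝ) ≤ (2 * lam)⁻¹ := by positivity
    have := mul_le_mul_of_nonneg_left t6 (mul_nonneg (by norm_num : (0 : ℝ) ≤ 1 / 2) hi)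
    have h4 := mul_le_mul_of_nonneg_left (add_le_add m0 m1) hi
    linarith
  have l5 : (2 * kap)⁻¹ * ip y₀ (E * y₀) + (2 * kap)⁻¹ * ip y₁ (E * y₁)
      ≤ (2 * kap)⁻¹ * (q * τ * (E * (c₀ * c₀)).trace + q * τ * (E * (c₁ * c₁)).trace) := by
    have hi : (0 : ℝ) ≤ (2 * kap)⁻¹ := by positivity
    have h4 := mul_le_mul_of_nonneg_left (add_le_add k0 k1) hi
    linarith
  have l6 : lam * ip (H * Bt) (H * Bt) ≤ lam * (q * τ * (delt Y₀ Y₁).trace) :=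
    mul_le_mul_of_nonneg_left hh hl.le
  have l7 : (2 * lam)⁻¹ * ip (S⁻¹ * (M * B)) (S⁻¹ * (M * B))
      = (1 / 2) * (lam⁻¹ * (B * B * (M * (S⁻¹ * S⁻¹) * M)).trace) := by
    rw [t5, mul_inv]; ring
  rw [vp, s1]
  rw [v0] at a0
  rw [v1] at a1
  rw [f2] at f0 f1
  linarith

/-- the capped second slot seen from the raw first slot, level `s` -/
def pg (s : ℝ) (Θ W G : Matrix κ κ ℝ) : Matrix κ κ ℝ := pq s⁻¹ Θ W G

theorem pg_one {s : ℝ} (hs : 0 < s) (Θ W G : Matrix κ κ ℝ) :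
    pg s Θ W G = s • pq 1 Θ W (s⁻¹ • G) := by
  rw [pg, pq_nu (inv_pos.2 hs), inv_inv]

/-- the form with a root of the weight -/
theorem pg_root {s : ℝ} (hs : 0 < s) (hS : Sᵀ = S) (hSu : IsUnit S.det) {G : Matrix κ κ ℝ}
    (hG : G.PosSemidef) :
    pg s Θ (S * S) G = Θ * (S⁻¹ * H585.PairCh.phs s (S * G * S) * S⁻¹) * Θ := by
  rw [pg_one hs, pq_root hSu hS (hG.smul (inv_pos.2 hs).le), H585.PairCh.phs]
  simp only [Matrix.mul_smul, Matrix.smul_mul]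

/-- the form with a root of the Gram matrix -/
theorem pg_rect {s : ℝ} (hs : 0 < s) {W : Matrix κ κ ℝ} (hW : W.PosSemidef)
    (c : Matrix κ n ℝ) :
    pg s Θ W (c * cᵀ) = Θ * (c * res (s⁻¹ • (cᵀ * W * c)) * cᵀ) * Θ := by
  have hi : 0 ≤ s⁻¹ := (inv_pos.2 hs).le
  have e1 : s⁻¹ • (c * cᵀ) = (√s⁻¹ • c) * (√s⁻¹ • c)ᵀ := by
    rw [transpose_smul, Matrix.smul_mul, Matrix.mul_smul, smul_smul, Real.mul_self_sqrt hi]
  rw [pg_one hs, e1, pq_rect hW]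
  have e2 : (√s⁻¹ • c)ᵀ * W * (√s⁻¹ • c) = s⁻¹ • (cᵀ * W * c) := by
    rw [transpose_smul, Matrix.smul_mul, Matrix.smul_mul, Matrix.mul_smul, smul_smul,
      Real.mul_self_sqrt hi]
  rw [e2]
  simp only [transpose_smul, Matrix.mul_smul, Matrix.smul_mul, smul_smul,
    Real.mul_self_sqrt hi]
  rw [mul_inv_cancel₀ hs.ne', one_smul]

theorem pg_psd {s : ℝ} (hs : 0 < s) (hΘ : Θᵀ = Θ) {W G : Matrix κ κ ℝ} (hW : W.PosSemidef)
    (hG : G.PosSemidef) : (pg s Θ W G).PosSemidef := by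
  obtain ⟨c, hc, rfl⟩ := exists_sq hG
  have hct := psd_isSymm hc
  have e := pg_rect (Θ := Θ) hs hW c
  rw [hct] at e
  rw [e]
  have h1 : (s⁻¹ • (c * W * c)).PosSemidef := by
    have := gram_psd hW c
    rw [hct] at this
    exact this.smul (inv_pos.2 hs).le
  exact psd_conj_symm (psd_conj_symm (res_psd h1) hct) hΘ

/-- **The outer step.** -/
theorem pair_outer {s τ q lam kap : ℝ} (hs : 0 < s) (hq0 : 0 ≤ q) (hτ0 : 0 ≤ τ) (hl : 0 < lam)
    (hk : 0 < kap) (hΘ : Θᵀ = Θ) (hS : Sᵀ = S) (hSu : IsUnit S.det) (hM : Mᵀ = M)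
    (hE : E.PosSemidef) (hτ : (τ • (S * S) - Θ * Θ).PosSemidef) {G₀ G₁ Q : Matrix κ κ ℝ}
    (h0 : G₀.PosSemidef) (h1 : G₁.PosSemidef) (hQ : Q.PosSemidef)
    (hq : (q • (1 : Matrix κ κ ℝ) - Q).PosSemidef)
    (p0 : (S * S - E + M).PosSemidef) (p1 : (S * S - E - M).PosSemidef) :
    (Q * pg s Θ (S * S) ((1 / 2 : ℝ) • (G₀ + G₁))).trace
      ≤ (1 / 2) * ((Q * pg s (Θ - E + M) (S * S - E + M) G₀).trace
          + (Q * pg s (Θ - E - M) (S * S - E - M) G₁).trace)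
        + q * τ * s⁻¹ * (1 + 2 * lam) * H585.PairCh.dls s (S * G₀ * S) (S * G₁ * S)
        + s * lam⁻¹ * (Q * (M * (S⁻¹ * S⁻¹) * M)).trace
        + q * τ * (2 * lam)⁻¹ * ((M * (S⁻¹ * S⁻¹) * M * G₀).trace
          + (M * (S⁻¹ * S⁻¹) * M * G₁).trace)
        + s * kap * (Q * E).trace
        + q * τ * (2 * kap)⁻¹ * ((E * G₀).trace + (E * G₁).trace) := by
  have hi : 0 ≤ s⁻¹ := (inv_pos.2 hs).le
  have h := outer1 hq0 hτ0 hl hk hΘ hS hSu hM hE hτ (h0.smul hi) (h1.smul hi) hQ hq p0 p1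
  have e1 : (1 / 2 : ℝ) • (s⁻¹ • G₀ + s⁻¹ • G₁) = s⁻¹ • ((1 / 2 : ℝ) • (G₀ + G₁)) := by module
  have e2 : ∀ G : Matrix κ κ ℝ, S * (s⁻¹ • G) * S = s⁻¹ • (S * G * S) := fun G => by
    rw [Matrix.mul_smul, Matrix.smul_mul]
  rw [e1, e2, e2] at h
  have h2 := mul_le_mul_of_nonneg_left h hs.le
  have e3 : ∀ A B : Matrix κ κ ℝ, (Q * pg s A B (G₀ : Matrix κ κ ℝ)).trace
      = s * (Q * pq 1 A B (s⁻¹ • G₀)).trace := fun A B => by
    rw [pg_one hs, Matrix.mul_smul, trace_smul, smul_eq_mul]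
  have e4 : ∀ A B : Matrix κ κ ℝ, (Q * pg s A B (G₁ : Matrix κ κ ℝ)).trace
      = s * (Q * pq 1 A B (s⁻¹ • G₁)).trace := fun A B => by
    rw [pg_one hs, Matrix.mul_smul, trace_smul, smul_eq_mul]
  have e5 : (Q * pg s Θ (S * S) ((1 / 2 : ℝ) • (G₀ + G₁))).trace
      = s * (Q * pq 1 Θ (S * S) (s⁻¹ • ((1 / 2 : ℝ) • (G₀ + G₁)))).trace := by
    rw [pg_one hs, Matrix.mul_smul, trace_smul, smul_eq_mul]
  rw [e3, e4, e5]
  refine h2.trans (le_of_eq ?_)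
  unfold H585.PairCh.dls
  simp only [Matrix.mul_smul, trace_smul, smul_eq_mul]
  have hs' := hs.ne'
  have e6 : s * s⁻¹ = 1 := mul_inv_cancel₀ hs'
  generalize (Q * pq 1 (Θ - E + M) (S * S - E + M) (s⁻¹ • G₀)).trace = x1
  generalize (Q * pq 1 (Θ - E - M) (S * S - E - M) (s⁻¹ • G₁)).trace = x2
  generalize (delt (s⁻¹ • (S * G₀ * S)) (s⁻¹ • (S * G₁ * S))).trace = x3
  generalize (Q * (M * (S⁻¹ * S⁻¹) * M)).trace = x4
  generalize (M * (S⁻¹ * S⁻¹) * M * G₀).trace = x5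
  generalize (M * (S⁻¹ * S⁻¹) * M * G₁).trace = x6
  generalize (Q * E).trace = x7
  generalize (E * G₀).trace = x8
  generalize (E * G₁).trace = x9
  field_simp

/-- **The middle step**: `Θ` and the weight commute with the sign. -/
theorem pair_mid {s τ q : ℝ} (hs : 0 < s) (hq0 : 0 ≤ q) (hτ0 : 0 ≤ τ) (hΘ : Θᵀ = Θ)
    (hS : S.PosSemidef) (hSu : IsUnit S.det) (hτ : (τ • (S * S) - Θ * Θ).PosSemidef)
    {G Q r : Matrix κ κ ℝ} (hG : G.PosSemidef) (hQ : Q.PosSemidef)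
    (hq : (q • (1 : Matrix κ κ ℝ) - Q).PosSemidef) (hr : rᵀ = r) (hr2 : r * r = 1)
    (rS : r * S = S * r) (rΘ : r * Θ = Θ * r) :
    (Q * pg s Θ (S * S) G).trace + (1 / 2) * (Q * (r * pg s Θ (S * S) G * r)).trace
      ≤ (Q * pg s Θ (S * S) (G + r * G * r)).trace
        + q * τ * s⁻¹ * H585.PairO.gp s r (S * G * S) := by
  have hSt := psd_isSymm hS
  have hSi : (S⁻¹)ᵀ = S⁻¹ := by rw [transpose_nonsing_inv, hSt]
  obtain ⟨B, hB, rfl⟩ := exists_sq hQ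
  have hBt := psd_isSymm hB
  have rSi : r * S⁻¹ = S⁻¹ * r := by
    calc r * S⁻¹ = (S⁻¹ * S) * (r * S⁻¹) := by rw [nonsing_inv_mul _ hSu, Matrix.one_mul]
      _ = S⁻¹ * (S * r) * S⁻¹ := by simp only [Matrix.mul_assoc]
      _ = S⁻¹ * (r * S) * S⁻¹ := by rw [rS]
      _ = S⁻¹ * r * (S * S⁻¹) := by simp only [Matrix.mul_assoc]
      _ = S⁻¹ * r := by rw [mul_nonsing_inv _ hSu, Matrix.mul_one]
  set X := bt Θ S B * (bt Θ S B)ᵀ with hX
  have hXp : X.PosSemidef := psd_mul_transpose _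
  have hXc := bt_cap (B := B) hq0 hΘ hSt hSu hτ (by rwa [hBt])
  have hY : (S * G * S).PosSemidef := psd_conj_symm hG hSt
  have h := H585.PairO.mid_lev hs hXp hXc (mul_nonneg hq0 hτ0) hY hr hr2
  have hG2 : (G + r * G * r).PosSemidef := hG.add (psd_conj_symm hG hr)
  have eX : X = S⁻¹ * (Θ * (B * B) * Θ) * S⁻¹ := by
    rw [hX, bt, transpose_mul, transpose_mul, hSi, hΘ, hBt]
    simp only [Matrix.mul_assoc]
  have e1 : ∀ Z : Matrix κ κ ℝ, (B * B * (Θ * (S⁻¹ * Z * S⁻¹) * Θ)).trace = (X * Z).trace := by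
    intro Z
    rw [eX]
    have a1 : B * B * (Θ * (S⁻¹ * Z * S⁻¹) * Θ) = (B * B * Θ * S⁻¹ * Z) * (S⁻¹ * Θ) := by
      simp only [Matrix.mul_assoc]
    rw [a1, trace_mul_comm]
    simp only [Matrix.mul_assoc]
  rw [pg_root hs hSt hSu hG, pg_root hs hSt hSu hG2, e1, e1]
  have e2 : S * (G + r * G * r) * S = S * G * S + r * (S * G * S) * r := by
    rw [Matrix.mul_add, Matrix.add_mul]
    congr 1
    calc S * (r * G * r) * S = (S * r) * G * (r * S) := by simp only [Matrix.mul_assoc]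
      _ = (r * S) * G * (S * r) := by rw [← rS]
      _ = r * (S * G * S) * r := by simp only [Matrix.mul_assoc]
  have e3 : r * (Θ * (S⁻¹ * H585.PairCh.phs s (S * G * S) * S⁻¹) * Θ) * r
      = Θ * (S⁻¹ * (r * H585.PairCh.phs s (S * G * S) * r) * S⁻¹) * Θ := by
    calc r * (Θ * (S⁻¹ * H585.PairCh.phs s (S * G * S) * S⁻¹) * Θ) * r
        = (r * Θ) * (S⁻¹ * H585.PairCh.phs s (S * G * S) * S⁻¹) * (Θ * r) := by
          simp only [Matrix.mul_assoc]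
      _ = (Θ * r) * (S⁻¹ * H585.PairCh.phs s (S * G * S) * S⁻¹) * (r * Θ) := by rw [← rΘ]
      _ = Θ * ((r * S⁻¹) * H585.PairCh.phs s (S * G * S) * (S⁻¹ * r)) * Θ := by
          simp only [Matrix.mul_assoc]
      _ = Θ * ((S⁻¹ * r) * H585.PairCh.phs s (S * G * S) * (r * S⁻¹)) * Θ := by rw [← rSi]
      _ = _ := by simp only [Matrix.mul_assoc]
  rw [e2, e3, e1]
  exact h

/-- the root of a positive semidefinite matrix is unique -/
theorem root_unique {A B : Matrix κ κ ℝ} (hA : A.PosSemidef) (hB : B.PosSemidef)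
    (h : A * A = B * B) : A = B := by
  open scoped MatrixOrder in
  have h1 := CFC.sqrt_unique (a := A * A) (b := A) rfl hA.nonneg
  open scoped MatrixOrder in
  have h2 := CFC.sqrt_unique (a := A * A) (b := B) h.symm hB.nonneg
  rw [← h1, h2]

/-- the root commutes with a sign which commutes with the square -/
theorem root_comm {S r : Matrix κ κ ℝ} (hS : S.PosSemidef) (hr : rᵀ = r) (hr2 : r * r = 1)
    (h : r * (S * S) = (S * S) * r) : r * S = S * r := by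
  have h1 : r * S * r = S := by
    refine root_unique (psd_conj_symm hS hr) hS ?_
    have e : r * S * r * (r * S * r) = r * S * (r * r) * S * r := by
      simp only [Matrix.mul_assoc]
    rw [e, hr2, Matrix.mul_one]
    have e2 : r * S * S * r = (r * (S * S)) * r := by simp only [Matrix.mul_assoc]
    rw [e2, h, Matrix.mul_assoc, hr2, Matrix.mul_one]
  calc r * S = r * S * (r * r) := by rw [hr2, Matrix.mul_one]
    _ = (r * S * r) * r := by simp only [Matrix.mul_assoc]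
    _ = S * r := by rw [h1]

end outer

end

end Vale.Agent.P141.H419.PairW
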