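import Vale.Agent.P141.H43.MidR
import Vale.Agent.P141.H420.FlowM

/-!
# P141, line (A), (D3): the pair (A, C) with a linear weight

Vector slot `w (x, y) : ι → ℝ`, `x` the outer point, `y` the middle point.  The weight
`T k x m` (positive semidefinite, the middle cell `m` of scale `k`) enters to the first power.
When the middle cell is halved, the mean of the two new weights is `T - e` with `e` positive
semidefinite, and their half difference is `d`.
-/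

namespace Vale.Agent.P141.H419

open Finset Matrix Vale.Agent.P075 Vale.Agent.P141.PL Vale.Agent.P141.PL.H588
open Vale.Agent.P141.H103 Vale.Agent.P141.H43

noncomputable section

variable {ι : Type*} [Fintype ι]

/-! ### Gram matrices with a weight -/

/-- weighted Gram matrix of a vector slot in the middle variable -/
def Gl (a k : ℕ) (T : ℤ → Matrix ι ι ℝ) (w : ℤ → ℤ → ι → ℝ) (n m : ℤ) :
    Matrix (Ix k) (Ix k) ℝ :=
  Gn a k n fun x j j' => w x (2 ^ k * m + val k j) ⬝ᵥ T x *ᵥ w x (2 ^ k * m + val k j')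

theorem form_symm {T : Matrix ι ι ℝ} (hT : Tᵀ = T) (u v : ι → ℝ) :
    u ⬝ᵥ T *ᵥ v = v ⬝ᵥ T *ᵥ u := by
  rw [dotProduct_mulVec, ← mulVec_transpose, hT, dotProduct_comm]

theorem Gl_symm {T : ℤ → Matrix ι ι ℝ} (hT : ∀ x, (T x)ᵀ = T x) (a k : ℕ)
    (w : ℤ → ℤ → ι → ℝ) (n m : ℤ) : (Gl a k T w n m)ᵀ = Gl a k T w n m := by
  ext j j'
  simp only [Matrix.transpose_apply, Gl, Gn]
  congr 1
  exact congrArg _ (funext fun x => form_symm (hT x) _ _)

theorem Gl_out (a k : ℕ) (T : ℤ → Matrix ι ι ℝ) (w : ℤ → ℤ → ι → ℝ) (n m : ℤ) :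
    Gl (a + 1) k T w n m = (1 / 2 : ℝ) • (Gl a k T w (2 * n) m + Gl a k T w (2 * n + 1) m) := by
  ext j j'
  simp only [Gl, Gn, Matrix.smul_apply, Matrix.add_apply, smul_eq_mul]
  rw [av_half]
  ring

/-- quadratic form -/
def qf (T : Matrix ι ι ℝ) (v : ι → ℝ) : ℝ := v ⬝ᵥ T *ᵥ v

theorem qf_sum {J : Type*} (s : Finset J) (T : Matrix ι ι ℝ) (r : J → ℝ) (u : J → ι → ℝ) :
    qf T (∑ j ∈ s, r j • u j) = ∑ j ∈ s, ∑ j' ∈ s, (u j ⬝ᵥ T *ᵥ u j') * (r j' * r j) := by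
  unfold qf
  rw [sum_dotProduct]
  refine sum_congr rfl fun j _ => ?_
  have e : T *ᵥ ∑ j' ∈ s, r j' • u j' = ∑ j' ∈ s, r j' • (T *ᵥ u j') := by
    have := map_sum T.mulVecLin (fun j' => r j' • u j') s
    simp only [mulVecLin_apply, mulVec_smul] at this
    exact this
  rw [e, dotProduct_sum]
  refine sum_congr rfl fun j' _ => ?_
  rw [smul_dotProduct, dotProduct_smul, smul_eq_mul, smul_eq_mul]
  ring

/-- **mixed trace** -/
theorem tr_ls (a a' k : ℕ) (T : ℤ → Matrix ι ι ℝ) (w : ℤ → ℤ → ι → ℝ) (A : ℤ → ℤ → ℝ)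
    (n n' m : ℤ) : (Gl a k T w n m * Gs a' k A n' m).trace
      = av a n fun x => av a' n' fun z => qf (T x) (pv k m A w x z) := by
  have h1 : ∀ x z, qf (T x) (pv k m A w x z) = (((2 : ℝ) ^ k)⁻¹ * ((2 : ℝ) ^ k)⁻¹) *
      ∑ j : Ix k, ∑ j' : Ix k,
        (w x (2 ^ k * m + val k j) ⬝ᵥ T x *ᵥ w x (2 ^ k * m + val k j')) *
        (A z (2 ^ k * m + val k j') * A z (2 ^ k * m + val k j)) := by
    intro x z
    have e : qf (T x) (pv k m A w x z) = (((2 : ℝ) ^ k)⁻¹ * ((2 : ℝ) ^ k)⁻¹) *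
        qf (T x) (∑ y ∈ iv k m, A z y • w x y) := by
      unfold qf pv avv
      rw [mulVec_smul, smul_dotProduct, dotProduct_smul, smul_eq_mul, smul_eq_mul, ← mul_assoc]
    rw [e, ← sum_val_iv, qf_sum]
  simp only [h1]
  exact tr_gen a a' k _ _ _ _

/-- the own form: `tr (T' Mᵀ T M)` for symmetric `T'` -/
def F (T M T' M' : Matrix ι ι ℝ) : ℝ := fro (T * M * T') M'

theorem F_sum {J : Type*} (s : Finset J) (T T' : Matrix ι ι ℝ) (u v : J → ι → ℝ) :
    F T (∑ j ∈ s, vecMulVec (u j) (v j)) T' (∑ j ∈ s, vecMulVec (u j) (v j))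
      = ∑ j ∈ s, ∑ j' ∈ s, (u j ⬝ᵥ T *ᵥ u j') * (v j' ⬝ᵥ T' *ᵥ v j) := by
  have h : T * (∑ j ∈ s, vecMulVec (u j) (v j)) * T'
      = ∑ j ∈ s, vecMulVec (T *ᵥ u j) (v j ᵥ* T') := by
    rw [Matrix.mul_sum, Matrix.sum_mul]
    exact sum_congr rfl fun j _ => by rw [Matrix.mul_vecMulVec, Matrix.vecMulVec_mul]
  have h1 : ∀ i i', (∑ j ∈ s, vecMulVec (T *ᵥ u j) (v j ᵥ* T')) i i'
      = ∑ j ∈ s, (T *ᵥ u j) i * (v j ᵥ* T') i' := by
    intro i i'
    rw [Matrix.sum_apply]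
    rfl
  have h2 : ∀ i i', (∑ j ∈ s, vecMulVec (u j) (v j)) i i' = ∑ j ∈ s, u j i * v j i' := by
    intro i i'
    rw [Matrix.sum_apply]
    rfl
  unfold F fro
  rw [h]
  simp only [h1, h2, sum_mul_sum]
  calc ∑ i, ∑ i', ∑ j' ∈ s, ∑ j ∈ s, (T *ᵥ u j') i * (v j' ᵥ* T') i' * (u j i * v j i')
      = ∑ j' ∈ s, ∑ j ∈ s, ∑ i, ∑ i', (T *ᵥ u j') i * (v j' ᵥ* T') i' * (u j i * v j i') :=
        (sum3_comm s univ univ fun j' j i i' =>
          (T *ᵥ u j') i * (v j' ᵥ* T') i' * (u j i * v j i')).symm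
    _ = ∑ j' ∈ s, ∑ j ∈ s, (u j ⬝ᵥ T *ᵥ u j') * (v j' ⬝ᵥ T' *ᵥ v j) := by
      refine sum_congr rfl fun j' _ => sum_congr rfl fun j _ => ?_
      rw [dotProduct_mulVec (v j')]
      unfold dotProduct
      rw [sum_mul_sum]
      refine sum_congr rfl fun i _ => sum_congr rfl fun i' _ => ?_
      ring
    _ = _ := sum_comm

/-- **own trace** -/
theorem tr_ll (a k : ℕ) (T : ℤ → Matrix ι ι ℝ) (w : ℤ → ℤ → ι → ℝ) (n m : ℤ) :
    (Gl a k T w n m * Gl a k T w n m).trace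
      = av a n fun x => av a n fun z => F (T x) (Wm k m w x z) (T z) (Wm k m w x z) := by
  have h1 : ∀ x z, F (T x) (Wm k m w x z) (T z) (Wm k m w x z)
      = (((2 : ℝ) ^ k)⁻¹ * ((2 : ℝ) ^ k)⁻¹) *
      ∑ j : Ix k, ∑ j' : Ix k,
        (w x (2 ^ k * m + val k j) ⬝ᵥ T x *ᵥ w x (2 ^ k * m + val k j')) *
        (w z (2 ^ k * m + val k j') ⬝ᵥ T z *ᵥ w z (2 ^ k * m + val k j)) := by
    intro x z
    have e : F (T x) (Wm k m w x z) (T z) (Wm k m w x z) = (((2 : ℝ) ^ k)⁻¹ * ((2 : ℝ) ^ k)⁻¹) *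
        F (T x) (∑ y ∈ iv k m, vecMulVec (w x y) (w z y)) (T z)
          (∑ y ∈ iv k m, vecMulVec (w x y) (w z y)) := by
      unfold F Wm avv
      rw [Matrix.mul_smul, Matrix.smul_mul, fro_smul_left, fro_smul_right, ← mul_assoc]
    rw [e, ← sum_val_iv, F_sum]
  simp only [h1]
  exact tr_gen a a k _ _ _ _

/-! ### pointwise inequalities -/

theorem qf_nonneg {T : Matrix ι ι ℝ} (hT : T.PosSemidef) (v : ι → ℝ) : 0 ≤ qf T v := by
  simpa [qf] using hT.dotProduct_mulVec_nonneg v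

omit [Fintype ι] in
theorem ps_symm {T : Matrix ι ι ℝ} (hT : T.PosSemidef) : Tᵀ = T := H420.tr_symm hT.isHermitian

theorem qf_add {T : Matrix ι ι ℝ} (hT : Tᵀ = T) (u v : ι → ℝ) :
    qf T (u + v) = qf T u + 2 * ((T *ᵥ u) ⬝ᵥ v) + qf T v := by
  unfold qf
  rw [mulVec_add, add_dotProduct, dotProduct_add, dotProduct_add, form_symm hT u v,
    dotProduct_comm (T *ᵥ u) v]
  ring

theorem qf_sub {T : Matrix ι ι ℝ} (hT : Tᵀ = T) (u v : ι → ℝ) :
    qf T (u - v) = qf T u - 2 * ((T *ᵥ u) ⬝ᵥ v) + qf T v := by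
  unfold qf
  rw [mulVec_sub, sub_dotProduct, dotProduct_sub, dotProduct_sub, form_symm hT u v,
    dotProduct_comm (T *ᵥ u) v]
  ring

theorem qf_add_left (S T : Matrix ι ι ℝ) (v : ι → ℝ) : qf (S + T) v = qf S v + qf T v := by
  unfold qf
  rw [add_mulVec, dotProduct_add]

theorem qf_sub_left (S T : Matrix ι ι ℝ) (v : ι → ℝ) : qf (S - T) v = qf S v - qf T v := by
  unfold qf
  rw [sub_mulVec, dotProduct_sub]

/-- **middle step, pointwise** (an equality up to the absolute value) -/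
theorem mid_pt {T e d : Matrix ι ι ℝ} (hT : Tᵀ = T) (he : eᵀ = e) (hd : dᵀ = d)
    (p q : ι → ℝ) :
    qf T p + (qf (T - e) q - 2 * |(d *ᵥ p) ⬝ᵥ q| - qf e p)
      ≤ 1 / 2 * (qf (T - e + d) (p + q) + qf (T - e - d) (p - q)) := by
  have s1 : (T - e + d)ᵀ = T - e + d := by rw [transpose_add, transpose_sub, hT, he, hd]
  have s2 : (T - e - d)ᵀ = T - e - d := by rw [transpose_sub, transpose_sub, hT, he, hd]
  have a := neg_abs_le ((d *ᵥ p) ⬝ᵥ q)
  rw [qf_add s1, qf_sub s2, qf_add_left, qf_add_left, qf_sub_left (T - e) d,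
    qf_sub_left (T - e) d, qf_sub_left T e p, add_mulVec, sub_mulVec (T - e) d, add_dotProduct,
    sub_dotProduct]
  linarith

theorem fro_sub_left (X Y Z : Matrix ι ι ℝ) : fro (X - Y) Z = fro X Z - fro Y Z := by
  unfold fro
  simp only [Matrix.sub_apply, sub_mul, sum_sub_distrib]

theorem fro_sub_right (X Y Z : Matrix ι ι ℝ) : fro X (Y - Z) = fro X Y - fro X Z := by
  rw [fro_comm, fro_sub_left, fro_comm Y, fro_comm Z]

theorem F_add₁ (S T M T' M' : Matrix ι ι ℝ) : F (S + T) M T' M' = F S M T' M' + F T M T' M' := by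
  unfold F; rw [Matrix.add_mul, Matrix.add_mul, fro_add_left]

theorem F_add₂ (T M N T' M' : Matrix ι ι ℝ) : F T (M + N) T' M' = F T M T' M' + F T N T' M' := by
  unfold F; rw [Matrix.mul_add, Matrix.add_mul, fro_add_left]

theorem F_add₃ (T M S' T' M' : Matrix ι ι ℝ) : F T M (S' + T') M' = F T M S' M' + F T M T' M' := by
  unfold F; rw [Matrix.mul_add, fro_add_left]

theorem F_add₄ (T M T' M' N' : Matrix ι ι ℝ) : F T M T' (M' + N') = F T M T' M' + F T M T' N' := by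
  unfold F; rw [fro_add_right]

theorem F_sub₁ (S T M T' M' : Matrix ι ι ℝ) : F (S - T) M T' M' = F S M T' M' - F T M T' M' := by
  unfold F; rw [Matrix.sub_mul, Matrix.sub_mul, fro_sub_left]

theorem F_sub₂ (T M N T' M' : Matrix ι ι ℝ) : F T (M - N) T' M' = F T M T' M' - F T N T' M' := by
  unfold F; rw [Matrix.mul_sub, Matrix.sub_mul, fro_sub_left]

theorem F_sub₃ (T M S' T' M' : Matrix ι ι ℝ) : F T M (S' - T') M' = F T M S' M' - F T M T' M' := by
  unfold F; rw [Matrix.mul_sub, fro_sub_left]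

theorem F_sub₄ (T M T' M' N' : Matrix ι ι ℝ) : F T M T' (M' - N') = F T M T' M' - F T M T' N' := by
  unfold F; rw [fro_sub_right]

/-- the own form is symmetric -/
theorem F_comm {T T' : Matrix ι ι ℝ} (hT : Tᵀ = T) (hT' : T'ᵀ = T') (M M' : Matrix ι ι ℝ) :
    F T M T' M' = F T M' T' M := by
  unfold F
  rw [fro_comm, Matrix.mul_assoc, fro_mul_left, hT, fro_mul_right, hT']

theorem F_nonneg {T T' : Matrix ι ι ℝ} (hT : T.PosSemidef) (hT' : T'.PosSemidef)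
    (M : Matrix ι ι ℝ) : 0 ≤ F T M T' M := by
  have h1 : (Mᵀ * T * M).PosSemidef := by
    have := hT.conjTranspose_mul_mul_same M
    simpa [conjTranspose_eq_transpose_of_trivial] using this
  have h2 := H420.trace_mul_nonneg h1 hT'
  have e : F T M T' M = (Mᵀ * T * M * T').trace := by
    unfold F
    rw [fro_comm, fro_eq]
    simp only [Matrix.mul_assoc]
  rw [e]
  exact h2

/-- **own middle step, pointwise** -/
theorem own_pt {T e d T' e' d' : Matrix ι ι ℝ} (he : e.PosSemidef) (he' : e'.PosSemidef)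
    (h0 : (T - e + d).PosSemidef) (h1 : (T - e - d).PosSemidef)
    (h0' : (T' - e' + d').PosSemidef) (h1' : (T' - e' - d').PosSemidef)
    (M D : Matrix ι ι ℝ) :
    F T M T' M ≤ 1 / 2 * (F (T - e + d) (M + D) (T' - e' + d') (M + D)
        + F (T - e - d) (M - D) (T' - e' - d') (M - D))
      + (2 * |F d M (T' - e') D| + 2 * |F (T - e) M d' D| + |F d M d' M|
        + F e M T' M + F T M e' M) := by
  have p0 := F_nonneg h0 h0' D
  have p1 := F_nonneg h1 h1' D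
  have p2 := F_nonneg he he' M
  have c0 := F_comm (ps_symm h0) (ps_symm h0') M D
  have c1 := F_comm (ps_symm h1) (ps_symm h1') M D
  have a1 := neg_abs_le (F d M (T' - e') D)
  have a2 := neg_abs_le (F (T - e) M d' D)
  have a3 := neg_abs_le (F d M d' M)
  have x0 : F (T - e + d) (M + D) (T' - e' + d') (M + D)
      = F (T - e + d) M (T' - e' + d') M + 2 * F (T - e + d) M (T' - e' + d') D
        + F (T - e + d) D (T' - e' + d') D := by
    rw [F_add₂, F_add₄, F_add₄, ← c0]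
    ring
  have x1 : F (T - e - d) (M - D) (T' - e' - d') (M - D)
      = F (T - e - d) M (T' - e' - d') M - 2 * F (T - e - d) M (T' - e' - d') D
        + F (T - e - d) D (T' - e' - d') D := by
    rw [F_sub₂, F_sub₄, F_sub₄, ← c1]
    ring
  rw [x0, x1]
  have y0 : F (T - e + d) M (T' - e' + d') M + F (T - e - d) M (T' - e' - d') M
      = 2 * (F T M T' M - F e M T' M - F T M e' M + F e M e' M) + 2 * F d M d' M := by
    simp only [F_add₁, F_add₃, F_sub₁, F_sub₃]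
    ring
  have y1 : F (T - e + d) M (T' - e' + d') D - F (T - e - d) M (T' - e' - d') D
      = 2 * F d M (T' - e') D + 2 * F (T - e) M d' D := by
    simp only [F_add₁, F_add₃, F_sub₁, F_sub₃]
    ring
  linarith

/-! ### the families -/

/-- the weights: children `T - e ± d`, everything positive semidefinite -/
structure Wt (T e d : ℕ → ℤ → ℤ → Matrix ι ι ℝ) : Prop where
  ps : ∀ k x m, (T k x m).PosSemidef
  pe : ∀ k x m, (e k x m).PosSemidef
  even : ∀ k x m, T k x (2 * m) = T (k + 1) x m - e k x m + d k x m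
  odd : ∀ k x m, T k x (2 * m + 1) = T (k + 1) x m - e k x m - d k x m

omit [Fintype ι] in
theorem Wt.d_symm {T e d : ℕ → ℤ → ℤ → Matrix ι ι ℝ} (h : Wt T e d) (k : ℕ) (x m : ℤ) :
    (d k x m)ᵀ = d k x m := by
  have e1 : d k x m = (1 / 2 : ℝ) • (T k x (2 * m) - T k x (2 * m + 1)) := by
    rw [h.even, h.odd]
    module
  rw [e1, transpose_smul, transpose_sub, ps_symm (h.ps _ _ _), ps_symm (h.ps _ _ _)]

omit [Fintype ι] in
/-- the mean of the children is positive semidefinite -/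
theorem Wt.mean {T e d : ℕ → ℤ → ℤ → Matrix ι ι ℝ} (h : Wt T e d) (k : ℕ) (x m : ℤ) :
    (T (k + 1) x m - e k x m).PosSemidef := by
  have e1 : T (k + 1) x m - e k x m = (1 / 2 : ℝ) • (T k x (2 * m) + T k x (2 * m + 1)) := by
    rw [h.even, h.odd]
    module
  rw [e1]
  exact ((h.ps _ _ _).add (h.ps _ _ _)).smul (by norm_num)

/-- the family of the weighted slot -/
def PT (T : ℕ → ℤ → ℤ → Matrix ι ι ℝ) (w : ℤ → ℤ → ι → ℝ) (k a : ℕ) (n m : ℤ) :
    Matrix (Ix k) (Ix k) ℝ := Gl a k (fun x => T k x m) w n m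

theorem PT_symm {T e d : ℕ → ℤ → ℤ → Matrix ι ι ℝ} (h : Wt T e d) (w : ℤ → ℤ → ι → ℝ)
    (k a : ℕ) (n m : ℤ) : (PT T w k a n m)ᵀ = PT T w k a n m :=
  Gl_symm (fun _ => ps_symm (h.ps _ _ _)) _ _ _ _ _

theorem PT_out (T : ℕ → ℤ → ℤ → Matrix ι ι ℝ) (w : ℤ → ℤ → ι → ℝ) (N k : ℕ) :
    OutM N k (PT T w k) := fun a _ _ n m => Gl_out a k _ _ n m

theorem tr_PT (T : ℕ → ℤ → ℤ → Matrix ι ι ℝ) (w : ℤ → ℤ → ι → ℝ) (A : ℤ → ℤ → ℝ) (k a a' : ℕ)
    (n n' m : ℤ) : (PT T w k a n m * QA A k a' n' m).trace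
      = av a n fun x => av a' n' fun z => qf (T k x m) (pv k m A w x z) := tr_ls ..

theorem tr_PT_own (T : ℕ → ℤ → ℤ → Matrix ι ι ℝ) (w : ℤ → ℤ → ι → ℝ) (k a : ℕ) (n m : ℤ) :
    (PT T w k a n m * PT T w k a n m).trace = av a n fun x => av a n fun z =>
      F (T k x m) (Wm k m w x z) (T k z m) (Wm k m w x z) := tr_ll ..

/-- main term of the gain -/
def gL (T e : ℕ → ℤ → ℤ → Matrix ι ι ℝ) (w : ℤ → ℤ → ι → ℝ) (A : ℤ → ℤ → ℝ) (k : ℕ)
    (n n' m : ℤ) : ℝ :=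
  av (k + 1) n fun x => av (k + 1) n' fun z => qf (T (k + 1) x m - e k x m) (dpv k m A w x z)

/-- defect of the gain -/
def gD (e d : ℕ → ℤ → ℤ → Matrix ι ι ℝ) (w : ℤ → ℤ → ι → ℝ) (A : ℤ → ℤ → ℝ) (k : ℕ)
    (n n' m : ℤ) : ℝ :=
  av (k + 1) n fun x => av (k + 1) n' fun z =>
    2 * |(d k x m *ᵥ pv (k + 1) m A w x z) ⬝ᵥ dpv k m A w x z|
      + qf (e k x m) (pv (k + 1) m A w x z)

/-- **The middle step of the mixed pair.** -/
theorem midL {T e d : ℕ → ℤ → ℤ → Matrix ι ι ℝ} (h : Wt T e d)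
    (w : ℤ → ℤ → ι → ℝ) (A : ℤ → ℤ → ℝ) (k : ℕ) (n n' m : ℤ) :
    (PT T w (k + 1) (k + 1) n m * QA A (k + 1) (k + 1) n' m).trace
        + (gL T e w A k n n' m - gD e d w A k n n' m)
      ≤ 1 / 2 * ((PT T w k (k + 1) n (2 * m) * QA A k (k + 1) n' (2 * m)).trace
        + (PT T w k (k + 1) n (2 * m + 1) * QA A k (k + 1) n' (2 * m + 1)).trace) := by
  rw [tr_PT, tr_PT, tr_PT, gL, gD]
  simp only [← av_mul, ← av_add, ← av_sub]
  refine av_mono fun x _ => av_mono fun z _ => ?_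
  rw [pv_even, pv_odd, h.even, h.odd]
  have := mid_pt (ps_symm (h.ps (k + 1) x m)) (ps_symm (h.pe k x m)) (h.d_symm k x m)
    (pv (k + 1) m A w x z) (dpv k m A w x z)
  linarith

/-- the pointwise defect of the own energy -/
def dO (T e d : ℕ → ℤ → ℤ → Matrix ι ι ℝ) (w : ℤ → ℤ → ι → ℝ) (k : ℕ) (m x z : ℤ) : ℝ :=
  2 * |F (d k x m) (Wm (k + 1) m w x z) (T (k + 1) z m - e k z m) (dWm k m w x z)|
    + 2 * |F (T (k + 1) x m - e k x m) (Wm (k + 1) m w x z) (d k z m) (dWm k m w x z)|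
    + |F (d k x m) (Wm (k + 1) m w x z) (d k z m) (Wm (k + 1) m w x z)|
    + F (e k x m) (Wm (k + 1) m w x z) (T (k + 1) z m) (Wm (k + 1) m w x z)
    + F (T (k + 1) x m) (Wm (k + 1) m w x z) (e k z m) (Wm (k + 1) m w x z)

/-- the defect of the own energy -/
def dEL (N : ℕ) (R₁ S : ℤ) (T e d : ℕ → ℤ → ℤ → Matrix ι ι ℝ) (w : ℤ → ℤ → ι → ℝ) (k a : ℕ) : ℝ :=
  (2 : ℝ) ^ a * 2 ^ (k + 1) * ∑ m ∈ iv (N - (k + 1)) S, ∑ n ∈ iv (N - a) R₁,
    av a n fun x => av a n fun z => dO T e d w k m x z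

/-- **The own middle step of the weighted slot.** -/
theorem ownL {T e d : ℕ → ℤ → ℤ → Matrix ι ι ℝ} (h : Wt T e d) (w : ℤ → ℤ → ι → ℝ) {N k : ℕ}
    (hk : k < N) (R₁ S : ℤ) (a : ℕ) :
    EW N R₁ S (k + 1) (PT T w (k + 1)) a
      ≤ EW N R₁ S k (PT T w k) a + dEL N R₁ S T e d w k a := by
  refine EW_step hk R₁ S _ _ _ a fun n m => ?_
  rw [tr_PT_own, tr_PT_own, tr_PT_own]
  simp only [← av_mul, ← av_add]
  refine av_mono fun x _ => av_mono fun z _ => ?_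
  rw [Wm_even, Wm_odd, dO]
  have h0 := h.ps k x (2 * m)
  have h1 := h.ps k x (2 * m + 1)
  have h0' := h.ps k z (2 * m)
  have h1' := h.ps k z (2 * m + 1)
  rw [h.even] at h0 h0'
  rw [h.odd] at h1 h1'
  rw [h.even k x m, h.odd k x m, h.even k z m, h.odd k z m]
  have := own_pt (h.pe k x m) (h.pe k z m) h0 h1 h0' h1' (Wm (k + 1) m w x z) (dWm k m w x z)
  linarith

/-- **The pair `(A, C)` with the linear weight.**  `w k`, `A k` : the functions of time `k`. -/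
theorem pairL {k₀ N : ℕ} (hkN : k₀ ≤ N) {R₁ S T₁ : ℤ} {cc : ℕ → ℤ} (hc : H588.Pl cc)
    {T e d : ℕ → ℤ → ℤ → Matrix ι ι ℝ} (h : Wt T e d)
    (w : ℕ → ℤ → ℤ → ι → ℝ) (A : ℕ → ℤ → ℤ → ℝ) {x : ℕ → ℝ}
    (hx : ∀ k, k₀ ≤ k → k < N →
      MW N R₁ S T₁ k (cc k) (PT T (w (k + 1)) k k) (QA (A (k + 1)) k k)
        + 9 * (WW N k (EW N R₁ S k (PT T (w (k + 1)) k)) + WW N k (EW N T₁ S k (QA (A (k + 1)) k)))
      ≤ MW N R₁ S T₁ k (cc k) (PT T (w k) k k) (QA (A k) k k)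
        + 9 * (WW N k (EW N R₁ S k (PT T (w k) k)) + WW N k (EW N T₁ S k (QA (A k) k))) + x k) :
    ∑ k ∈ Ico k₀ N, GW N R₁ S T₁ (k + 1) (cc (k + 1)) (gL T e (w (k + 1)) (A (k + 1)) k)
      ≤ 37 * (EW N R₁ S k₀ (PT T (w k₀) k₀) k₀ + EW N T₁ S k₀ (QA (A k₀) k₀) k₀)
        + ∑ k ∈ Ico k₀ N, x k
        + ∑ k ∈ Ico k₀ N, GW N R₁ S T₁ (k + 1) (cc (k + 1)) (gD e d (w (k + 1)) (A (k + 1)) k)
        + 9 * ∑ k ∈ Ico k₀ N, WW N (k + 1) (dEL N R₁ S T e d (w (k + 1)) k) := by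
  have key := totalW hkN hc (R := R₁) (S := S) (T := T₁) (ι := fun k => Ix k)
    (P := fun k => PT T (w k) k) (P' := fun k => PT T (w (k + 1)) k)
    (Q := fun k => QA (A k) k) (Q' := fun k => QA (A (k + 1)) k)
    (g := fun k n n' m => gL T e (w (k + 1)) (A (k + 1)) k n n' m
      - gD e d (w (k + 1)) (A (k + 1)) k n n' m)
    (dE := fun k => dEL N R₁ S T e d (w (k + 1)) k) (dF := fun _ _ => 0) (x := x)
    (fun k _ _ => PT_out T (w k) N k) (fun k _ _ => QA_out (A k) N k)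
    (fun k _ _ => PT_out T (w (k + 1)) N k) (fun k _ _ => QA_out (A (k + 1)) N k)
    (fun k a n m => PT_symm h (w k) k a n m) (fun k a n m => QA_symm (A k) k a n m)
    (fun k a n m => PT_symm h (w (k + 1)) k a n m) (fun k a n m => QA_symm (A (k + 1)) k a n m)
    (fun k _ _ n n' m => midL h (w (k + 1)) (A (k + 1)) k n n' m)
    (fun k _ h2 a _ _ => ownL h (w (k + 1)) h2 R₁ S a)
    (fun k _ h2 a _ _ => by
      have := ownA (A (k + 1)) h2 T₁ S a
      rw [add_zero]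
      exact this)
    hx
  have e1 : ∀ k, GW N R₁ S T₁ (k + 1) (cc (k + 1))
      (fun n n' m => gL T e (w (k + 1)) (A (k + 1)) k n n' m
        - gD e d (w (k + 1)) (A (k + 1)) k n n' m)
      = GW N R₁ S T₁ (k + 1) (cc (k + 1)) (gL T e (w (k + 1)) (A (k + 1)) k)
        - GW N R₁ S T₁ (k + 1) (cc (k + 1)) (gD e d (w (k + 1)) (A (k + 1)) k) := by
    intro k
    have h1 := GW_add N R₁ S T₁ (k + 1) (cc (k + 1))
      (fun n n' m => gL T e (w (k + 1)) (A (k + 1)) k n n' m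
        - gD e d (w (k + 1)) (A (k + 1)) k n n' m)
      (gD e d (w (k + 1)) (A (k + 1)) k)
    simp only [sub_add_cancel] at h1
    linarith
  simp only [e1] at key
  rw [sum_sub_distrib] at key
  have e2 : ∀ k, WW N (k + 1) (fun _ => (0 : ℝ)) = 0 := by
    intro k
    unfold WW
    simp
  simp only [e2, add_zero] at key
  linarith

end

end Vale.Agent.P141.H419
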