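import Vale.Agent.P141.H419.WpCalc

/-!
# P141, line W: the pair weight on product boxes

Bijections, product boxes, tensor edges; `pw3` and `wP` on `A × B × C`; scaling, monotonicity and
change of the box for `pw3`, `wP`; the Loomis–Whitney bound in averages.
-/

namespace Vale.Agent.P141.H419

open Finset
open Vale.Agent.P141.PL.H315 (avg avg_nonneg e12 e13 e23 Tri atm sum_box12 sum_box13 sum_box23
  loomis_whitney)
open Vale.Agent.P141.H922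

noncomputable section

variable {X Y : Type*}

/-! ### reindexing -/

/-- the norms do not see a bijection -/
theorem avg_image {Q : Finset X} {R : Finset Y} (φ : X → Y) (hφ : ∀ x ∈ Q, φ x ∈ R)
    (hi : ∀ x ∈ Q, ∀ y ∈ Q, φ x = φ y → x = y) (hs : ∀ y ∈ R, ∃ x ∈ Q, φ x = y) (f : Y → ℝ) :
    avg Q (fun x => f (φ x)) = avg R f := by
  have h1 : Q.card = R.card := card_bij (fun x _ => φ x) hφ (fun x hx y hy h => hi x hx y hy h)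
    fun y hy => by obtain ⟨x, hx, h⟩ := hs y hy; exact ⟨x, hx, h⟩
  have h2 : ∑ x ∈ Q, f (φ x) = ∑ y ∈ R, f y :=
    sum_bij (fun x _ => φ x) hφ (fun x hx y hy h => hi x hx y hy h)
      (fun y hy => by obtain ⟨x, hx, h⟩ := hs y hy; exact ⟨x, hx, h⟩) fun x _ => rfl
  unfold avg
  rw [h1, h2]

theorem n2_of_avg {Q : Finset X} {R : Finset Y} {f : X → ℝ} {g : Y → ℝ}
    (h : ∀ p : ℝ → ℝ, avg Q (fun x => p (f x)) = avg R fun y => p (g y)) :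
    n2 Q f = n2 R g := by
  unfold n2; rw [h fun t => t ^ 2]

theorem n4_of_avg {Q : Finset X} {R : Finset Y} {f : X → ℝ} {g : Y → ℝ}
    (h : ∀ p : ℝ → ℝ, avg Q (fun x => p (f x)) = avg R fun y => p (g y)) :
    n4 Q f = n4 R g := by
  unfold n4; rw [h fun t => t ^ 4]

theorem nN_of_avg {Q : Finset X} {R : Finset Y} {f : X → ℝ} {g : Y → ℝ}
    (h : ∀ p : ℝ → ℝ, avg Q (fun x => p (f x)) = avg R fun y => p (g y)) :
    nN Q f = nN R g := by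
  unfold nN; rw [n2_of_avg h, n4_of_avg h]

/-! ### product boxes -/

theorem avg_box12 (A B : Finset ℤ) {C : Finset ℤ} (hC : C.Nonempty) (φ : ℤ × ℤ → ℝ) :
    avg (A ×ˢ B ×ˢ C) (fun p => φ (p.1, p.2.1)) = avg (A ×ˢ B) φ := by
  have hc : (C.card : ℝ) ≠ 0 := by exact_mod_cast hC.card_pos.ne'
  unfold avg
  rw [sum_box12, card_product, card_product, card_product]
  push_cast
  rw [show ((A.card : ℝ) * (B.card * C.card))⁻¹ * (C.card * ∑ w ∈ A ×ˢ B, φ w) =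
    ((C.card : ℝ)⁻¹ * C.card) * (((A.card : ℝ) * B.card)⁻¹ * ∑ w ∈ A ×ˢ B, φ w) by
      simp only [mul_inv]; ring, inv_mul_cancel₀ hc, one_mul]

theorem avg_box13 (A : Finset ℤ) {B : Finset ℤ} (C : Finset ℤ) (hB : B.Nonempty)
    (φ : ℤ × ℤ → ℝ) :
    avg (A ×ˢ B ×ˢ C) (fun p => φ (p.1, p.2.2)) = avg (A ×ˢ C) φ := by
  have hc : (B.card : ℝ) ≠ 0 := by exact_mod_cast hB.card_pos.ne'
  unfold avg
  rw [sum_box13, card_product, card_product, card_product]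
  push_cast
  rw [show ((A.card : ℝ) * (B.card * C.card))⁻¹ * (B.card * ∑ w ∈ A ×ˢ C, φ w) =
    ((B.card : ℝ)⁻¹ * B.card) * (((A.card : ℝ) * C.card)⁻¹ * ∑ w ∈ A ×ˢ C, φ w) by
      simp only [mul_inv]; ring, inv_mul_cancel₀ hc, one_mul]

theorem avg_box23 {A : Finset ℤ} (B C : Finset ℤ) (hA : A.Nonempty) (φ : ℤ × ℤ → ℝ) :
    avg (A ×ˢ B ×ˢ C) (fun p => φ (p.2.1, p.2.2)) = avg (B ×ˢ C) φ := by
  have hc : (A.card : ℝ) ≠ 0 := by exact_mod_cast hA.card_pos.ne'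
  unfold avg
  rw [sum_box23, card_product, card_product]
  push_cast
  rw [show ((A.card : ℝ) * (B.card * C.card))⁻¹ * (A.card * ∑ w ∈ B ×ˢ C, φ w) =
    ((A.card : ℝ)⁻¹ * A.card) * (((B.card : ℝ) * C.card)⁻¹ * ∑ w ∈ B ×ˢ C, φ w) by
      simp only [mul_inv]; ring, inv_mul_cancel₀ hc, one_mul]

section box

variable {A B C : Finset ℤ}

theorem n2_e12 (hC : C.Nonempty) (u : ℤ × ℤ → ℝ) : n2 (A ×ˢ B ×ˢ C) (e12 u) = n2 (A ×ˢ B) u :=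
  n2_of_avg fun p => avg_box12 A B hC fun w => p (u w)

theorem n4_e12 (hC : C.Nonempty) (u : ℤ × ℤ → ℝ) : n4 (A ×ˢ B ×ˢ C) (e12 u) = n4 (A ×ˢ B) u :=
  n4_of_avg fun p => avg_box12 A B hC fun w => p (u w)

theorem nN_e12 (hC : C.Nonempty) (u : ℤ × ℤ → ℝ) : nN (A ×ˢ B ×ˢ C) (e12 u) = nN (A ×ˢ B) u :=
  nN_of_avg fun p => avg_box12 A B hC fun w => p (u w)

theorem n2_e13 (hB : B.Nonempty) (u : ℤ × ℤ → ℝ) : n2 (A ×ˢ B ×ˢ C) (e13 u) = n2 (A ×ˢ C) u :=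
  n2_of_avg fun p => avg_box13 A C hB fun w => p (u w)

theorem n4_e13 (hB : B.Nonempty) (u : ℤ × ℤ → ℝ) : n4 (A ×ˢ B ×ˢ C) (e13 u) = n4 (A ×ˢ C) u :=
  n4_of_avg fun p => avg_box13 A C hB fun w => p (u w)

theorem nN_e13 (hB : B.Nonempty) (u : ℤ × ℤ → ℝ) : nN (A ×ˢ B ×ˢ C) (e13 u) = nN (A ×ˢ C) u :=
  nN_of_avg fun p => avg_box13 A C hB fun w => p (u w)

theorem n2_e23 (hA : A.Nonempty) (u : ℤ × ℤ → ℝ) : n2 (A ×ˢ B ×ˢ C) (e23 u) = n2 (B ×ˢ C) u :=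
  n2_of_avg fun p => avg_box23 B C hA fun w => p (u w)

theorem n4_e23 (hA : A.Nonempty) (u : ℤ × ℤ → ℝ) : n4 (A ×ˢ B ×ˢ C) (e23 u) = n4 (B ×ˢ C) u :=
  n4_of_avg fun p => avg_box23 B C hA fun w => p (u w)

theorem nN_e23 (hA : A.Nonempty) (u : ℤ × ℤ → ℝ) : nN (A ×ˢ B ×ˢ C) (e23 u) = nN (B ×ˢ C) u :=
  nN_of_avg fun p => avg_box23 B C hA fun w => p (u w)

/-- `pw3` on a product box in the two-dimensional norms -/
theorem pw3_box (hA : A.Nonempty) (hB : B.Nonempty) (hC : C.Nonempty) (u : Tri) :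
    pw3 (A ×ˢ B ×ˢ C) u =
      nN (A ×ˢ B) u.1 * nN (A ×ˢ C) u.2.1 * n2 (B ×ˢ C) u.2.2 +
      nN (A ×ˢ B) u.1 * nN (B ×ˢ C) u.2.2 * n2 (A ×ˢ C) u.2.1 +
      nN (A ×ˢ C) u.2.1 * nN (B ×ˢ C) u.2.2 * n2 (A ×ˢ B) u.1 := by
  unfold pw3
  rw [nN_e12 hC, nN_e13 hB, nN_e23 hA, n2_e12 hC, n2_e13 hB, n2_e23 hA]

end box

/-! ### tensor edges -/

theorem avg_tensor (A : Finset X) (B : Finset Y) (f : X → ℝ) (g : Y → ℝ) :
    avg (A ×ˢ B) (fun p => f p.1 * g p.2) = avg A f * avg B g := by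
  unfold avg
  rw [card_product, sum_product, ← sum_mul_sum]
  push_cast
  rw [mul_inv]
  ring

theorem n2_tensor (A : Finset X) (B : Finset Y) (f : X → ℝ) (g : Y → ℝ) :
    n2 (A ×ˢ B) (fun p => f p.1 * g p.2) = n2 A f * n2 B g := by
  unfold n2
  rw [← Real.sqrt_mul (avg_sq_nonneg A f), ← avg_tensor]
  congr 1
  exact avg_congr fun p _ => by ring

theorem n4_tensor (A : Finset X) (B : Finset Y) (f : X → ℝ) (g : Y → ℝ) :
    n4 (A ×ˢ B) (fun p => f p.1 * g p.2) = n4 A f * n4 B g := by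
  unfold n4
  rw [← Real.sqrt_mul (Real.sqrt_nonneg _), ← Real.sqrt_mul (avg_four_nonneg A f), ← avg_tensor]
  congr 2
  exact avg_congr fun p _ => by ring

theorem nN_tensor (A : Finset X) (B : Finset Y) (f : X → ℝ) (g : Y → ℝ) :
    nN (A ×ˢ B) (fun p => f p.1 * g p.2) = nN A f * nN B g := by
  unfold nN
  rw [n2_tensor, n4_tensor, ← Real.sqrt_mul (mul_nonneg (n2_nonneg _ _) (n4_nonneg _ _))]
  congr 1; ring

/-- averages over a product, one variable after the other -/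
theorem avg_product (A : Finset X) (B : Finset Y) (f : X × Y → ℝ) :
    avg (A ×ˢ B) f = avg A fun x => avg B fun y => f (x, y) := by
  unfold avg
  rw [card_product, sum_product, mul_sum, mul_sum]
  push_cast
  rw [mul_inv]
  refine sum_congr rfl fun x _ => ?_
  ring

theorem avg_product_comm (A : Finset X) (B : Finset Y) (f : X × Y → ℝ) :
    avg (A ×ˢ B) f = avg B fun y => avg A fun x => f (x, y) := by
  unfold avg
  rw [card_product, sum_product_right, mul_sum, mul_sum]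
  push_cast
  rw [mul_inv]
  refine sum_congr rfl fun x _ => ?_
  ring

/-! ### `pw3` and `wP`: scaling, monotonicity -/

theorem pw3_smul (Q : Finset (ℤ × ℤ × ℤ)) (a b c : ℝ) (u : Tri) :
    pw3 Q (fun w => a * u.1 w, fun w => b * u.2.1 w, fun w => c * u.2.2 w) =
      |a| * |b| * |c| * pw3 Q u := by
  unfold pw3
  have h1 : ∀ (c : ℝ) (v : ℤ × ℤ → ℝ), e12 (fun w => c * v w) = fun p => c * e12 v p :=
    fun _ _ => rfl
  have h2 : ∀ (c : ℝ) (v : ℤ × ℤ → ℝ), e13 (fun w => c * v w) = fun p => c * e13 v p :=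
    fun _ _ => rfl
  have h3 : ∀ (c : ℝ) (v : ℤ × ℤ → ℝ), e23 (fun w => c * v w) = fun p => c * e23 v p :=
    fun _ _ => rfl
  simp only [h1, h2, h3, n2_smul, nN_smul]
  ring

theorem wP_smul (δ : ℝ) (Q : Finset (ℤ × ℤ × ℤ)) (a b c : ℝ) (u : Tri) :
    wP δ Q (fun w => a * u.1 w, fun w => b * u.2.1 w, fun w => c * u.2.2 w) =
      |a| * |b| * |c| * wP δ Q u := by
  unfold wP; rw [pw3_smul]; ring

theorem wP_delta (δ : ℝ) (Q : Finset (ℤ × ℤ × ℤ)) (u : Tri) : wP δ Q u = δ * wP 1 Q u := by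
  unfold wP; ring

theorem wP_mono_delta {δ δ' : ℝ} (h : δ ≤ δ') (Q : Finset (ℤ × ℤ × ℤ)) (u : Tri) :
    wP δ Q u ≤ wP δ' Q u := by
  unfold wP
  exact mul_le_mul_of_nonneg_right (mul_le_mul_of_nonneg_right h (Nat.cast_nonneg _))
    (pw3_nonneg Q u)

/-- `pw3` is a monotone function of the three norm pairs -/
theorem pw3_le_of {Q Q' : Finset (ℤ × ℤ × ℤ)} {u v : Tri} {K : ℝ} (hK : 0 ≤ K)
    (h1 : n2 Q (e12 u.1) ≤ K ^ 4 * n2 Q' (e12 v.1)) (h2 : n2 Q (e13 u.2.1) ≤ K ^ 4 * n2 Q' (e13 v.2.1))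
    (h3 : n2 Q (e23 u.2.2) ≤ K ^ 4 * n2 Q' (e23 v.2.2))
    (k1 : nN Q (e12 u.1) ≤ K ^ 3 * nN Q' (e12 v.1)) (k2 : nN Q (e13 u.2.1) ≤ K ^ 3 * nN Q' (e13 v.2.1))
    (k3 : nN Q (e23 u.2.2) ≤ K ^ 3 * nN Q' (e23 v.2.2)) :
    pw3 Q u ≤ K ^ 10 * pw3 Q' v := by
  have t : ∀ {a b c a' b' c' : ℝ}, 0 ≤ a → 0 ≤ b → 0 ≤ c → 0 ≤ a' → 0 ≤ b' → 0 ≤ c' →
      a ≤ K ^ 3 * a' → b ≤ K ^ 3 * b' → c ≤ K ^ 4 * c' → a * b * c ≤ K ^ 10 * (a' * b' * c') := by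
    intro a b c a' b' c' ha hb hc ha' hb' hc' e1 e2 e3
    calc a * b * c ≤ (K ^ 3 * a') * (K ^ 3 * b') * (K ^ 4 * c') :=
          mul_le_mul (mul_le_mul e1 e2 hb (by positivity)) e3 hc (by positivity)
      _ = _ := by ring
  unfold pw3
  have e1 := t (nN_nonneg Q (e12 u.1)) (nN_nonneg Q (e13 u.2.1)) (n2_nonneg Q (e23 u.2.2))
    (nN_nonneg Q' (e12 v.1)) (nN_nonneg Q' (e13 v.2.1)) (n2_nonneg Q' (e23 v.2.2)) k1 k2 h3
  have e2 := t (nN_nonneg Q (e12 u.1)) (nN_nonneg Q (e23 u.2.2)) (n2_nonneg Q (e13 u.2.1))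
    (nN_nonneg Q' (e12 v.1)) (nN_nonneg Q' (e23 v.2.2)) (n2_nonneg Q' (e13 v.2.1)) k1 k3 h2
  have e3 := t (nN_nonneg Q (e13 u.2.1)) (nN_nonneg Q (e23 u.2.2)) (n2_nonneg Q (e12 u.1))
    (nN_nonneg Q' (e13 v.2.1)) (nN_nonneg Q' (e23 v.2.2)) (n2_nonneg Q' (e12 v.1)) k2 k3 h1
  linarith

/-- `pw3` is monotone in the absolute values of the edges -/
theorem pw3_mono {Q : Finset (ℤ × ℤ × ℤ)} {u v : Tri}
    (h1 : ∀ p ∈ Q, |e12 u.1 p| ≤ |e12 v.1 p|) (h2 : ∀ p ∈ Q, |e13 u.2.1 p| ≤ |e13 v.2.1 p|)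
    (h3 : ∀ p ∈ Q, |e23 u.2.2 p| ≤ |e23 v.2.2 p|) : pw3 Q u ≤ pw3 Q v := by
  have h := pw3_le_of (Q := Q) (Q' := Q) (u := u) (v := v) zero_le_one
    (by simpa using n2_mono h1) (by simpa using n2_mono h2) (by simpa using n2_mono h3)
    (by simpa using nN_mono h1) (by simpa using nN_mono h2) (by simpa using nN_mono h3)
  simpa using h

theorem wP_mono {δ : ℝ} (hδ : 0 ≤ δ) {Q : Finset (ℤ × ℤ × ℤ)} {u v : Tri}
    (h1 : ∀ p ∈ Q, |e12 u.1 p| ≤ |e12 v.1 p|) (h2 : ∀ p ∈ Q, |e13 u.2.1 p| ≤ |e13 v.2.1 p|)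
    (h3 : ∀ p ∈ Q, |e23 u.2.2 p| ≤ |e23 v.2.2 p|) : wP δ Q u ≤ wP δ Q v :=
  mul_le_mul_of_nonneg_left (pw3_mono h1 h2 h3) (mul_nonneg hδ (Nat.cast_nonneg _))

/-- **cut-offs**: edges multiplied by functions bounded by one (any functions of the point, so also
functions of one variable, indicator functions of squares, signs) -/
theorem wP_cut {δ : ℝ} (hδ : 0 ≤ δ) {Q : Finset (ℤ × ℤ × ℤ)} (u : Tri) {a b c : ℤ × ℤ → ℝ}
    (ha : ∀ w, |a w| ≤ 1) (hb : ∀ w, |b w| ≤ 1) (hc : ∀ w, |c w| ≤ 1) :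
    wP δ Q (fun w => a w * u.1 w, fun w => b w * u.2.1 w, fun w => c w * u.2.2 w) ≤ wP δ Q u := by
  refine wP_mono hδ (fun p _ => ?_) (fun p _ => ?_) fun p _ => ?_
  · show |a _ * u.1 _| ≤ |u.1 _|
    rw [abs_mul]; exact mul_le_of_le_one_left (abs_nonneg _) (ha _)
  · show |b _ * u.2.1 _| ≤ |u.2.1 _|
    rw [abs_mul]; exact mul_le_of_le_one_left (abs_nonneg _) (hb _)
  · show |c _ * u.2.2 _| ≤ |u.2.2 _|
    rw [abs_mul]; exact mul_le_of_le_one_left (abs_nonneg _) (hc _)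

/-- **change of the set**: `Q ⊆ Q'`, `|Q'| ≤ L⁸ |Q|`: `pw3_Q ≤ L¹⁰ pw3_Q'` -/
theorem pw3_le_of_subset {Q Q' : Finset (ℤ × ℤ × ℤ)} (h : Q ⊆ Q') {L : ℝ} (hL : 0 ≤ L)
    (hc : (Q'.card : ℝ) ≤ L ^ 8 * Q.card) (u : Tri) : pw3 Q u ≤ L ^ 10 * pw3 Q' u :=
  pw3_le_of hL (n2_le_of_subset h hL hc _) (n2_le_of_subset h hL hc _) (n2_le_of_subset h hL hc _)
    (nN_le_of_subset h hL hc _) (nN_le_of_subset h hL hc _) (nN_le_of_subset h hL hc _)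

/-- change of the set for `wP` -/
theorem wP_le_of_subset {δ : ℝ} (hδ : 0 ≤ δ) {Q Q' : Finset (ℤ × ℤ × ℤ)} (h : Q ⊆ Q') {L : ℝ}
    (hL : 0 ≤ L) (hc : (Q'.card : ℝ) ≤ L ^ 8 * Q.card) (u : Tri) :
    wP δ Q u ≤ L ^ 10 * wP δ Q' u := by
  have h1 := pw3_le_of_subset h hL hc u
  have h2 : (Q.card : ℝ) ≤ Q'.card := by exact_mod_cast card_le_card h
  unfold wP
  calc δ * Q.card * pw3 Q u ≤ δ * Q'.card * (L ^ 10 * pw3 Q' u) :=
        mul_le_mul (mul_le_mul_of_nonneg_left h2 hδ) h1 (pw3_nonneg _ _)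
          (mul_nonneg hδ (Nat.cast_nonneg _))
    _ = _ := by ring

/-! ### upper and lower bounds of `pw3` -/

theorem n2_prod_le_pw3 (Q : Finset (ℤ × ℤ × ℤ)) (u : Tri) :
    3 * (n2 Q (e12 u.1) * n2 Q (e13 u.2.1) * n2 Q (e23 u.2.2)) ≤ pw3 Q u := by
  have h1 := n2_le_nN Q (e12 u.1)
  have h2 := n2_le_nN Q (e13 u.2.1)
  have h3 := n2_le_nN Q (e23 u.2.2)
  have k1 := n2_nonneg Q (e12 u.1)
  have k2 := n2_nonneg Q (e13 u.2.1)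
  have k3 := n2_nonneg Q (e23 u.2.2)
  have m1 := nN_nonneg Q (e12 u.1)
  have m2 := nN_nonneg Q (e13 u.2.1)
  have e1 : n2 Q (e12 u.1) * n2 Q (e13 u.2.1) * n2 Q (e23 u.2.2) ≤
      nN Q (e12 u.1) * nN Q (e13 u.2.1) * n2 Q (e23 u.2.2) := by gcongr
  have e2 : n2 Q (e12 u.1) * n2 Q (e13 u.2.1) * n2 Q (e23 u.2.2) ≤
      nN Q (e12 u.1) * nN Q (e23 u.2.2) * n2 Q (e13 u.2.1) := by
    calc _ = n2 Q (e12 u.1) * n2 Q (e23 u.2.2) * n2 Q (e13 u.2.1) := by ring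
      _ ≤ _ := by gcongr
  have e3 : n2 Q (e12 u.1) * n2 Q (e13 u.2.1) * n2 Q (e23 u.2.2) ≤
      nN Q (e13 u.2.1) * nN Q (e23 u.2.2) * n2 Q (e12 u.1) := by
    calc _ = n2 Q (e13 u.2.1) * n2 Q (e23 u.2.2) * n2 Q (e12 u.1) := by ring
      _ ≤ _ := by gcongr
  unfold pw3; linarith

theorem pw3_le_nN_prod (Q : Finset (ℤ × ℤ × ℤ)) (u : Tri) :
    pw3 Q u ≤ 3 * (nN Q (e12 u.1) * nN Q (e13 u.2.1) * nN Q (e23 u.2.2)) := by
  have h1 := n2_le_nN Q (e12 u.1)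
  have h2 := n2_le_nN Q (e13 u.2.1)
  have h3 := n2_le_nN Q (e23 u.2.2)
  have m1 := nN_nonneg Q (e12 u.1)
  have m2 := nN_nonneg Q (e13 u.2.1)
  have m3 := nN_nonneg Q (e23 u.2.2)
  have e1 : nN Q (e12 u.1) * nN Q (e13 u.2.1) * n2 Q (e23 u.2.2) ≤
      nN Q (e12 u.1) * nN Q (e13 u.2.1) * nN Q (e23 u.2.2) := by gcongr
  have e2 : nN Q (e12 u.1) * nN Q (e23 u.2.2) * n2 Q (e13 u.2.1) ≤
      nN Q (e12 u.1) * nN Q (e23 u.2.2) * nN Q (e13 u.2.1) := by gcongr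
  have e3 : nN Q (e13 u.2.1) * nN Q (e23 u.2.2) * n2 Q (e12 u.1) ≤
      nN Q (e13 u.2.1) * nN Q (e23 u.2.2) * nN Q (e12 u.1) := by gcongr
  unfold pw3
  linarith

/-- all edges bounded by one -/
theorem pw3_le_three {Q : Finset (ℤ × ℤ × ℤ)} {u : Tri} (h1 : ∀ p ∈ Q, |e12 u.1 p| ≤ 1)
    (h2 : ∀ p ∈ Q, |e13 u.2.1 p| ≤ 1) (h3 : ∀ p ∈ Q, |e23 u.2.2 p| ≤ 1) : pw3 Q u ≤ 3 := by
  have k1 := nN_le_sup zero_le_one h1
  have k2 := nN_le_sup zero_le_one h2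
  have k3 := nN_le_sup zero_le_one h3
  have h := pw3_le_nN_prod Q u
  have m1 := nN_nonneg Q (e12 u.1)
  have m2 := nN_nonneg Q (e13 u.2.1)
  have m3 := nN_nonneg Q (e23 u.2.2)
  have : nN Q (e12 u.1) * nN Q (e13 u.2.1) * nN Q (e23 u.2.2) ≤ 1 * 1 * 1 := by gcongr
  linarith

/-- **the geometric mean of the three terms**: `27 (N₁₂N₁₃N₂₃)² |a₁₂|₂|a₁₃|₂|a₂₃|₂ ≤ pw3³` -/
theorem geom_le_pw3 (Q : Finset (ℤ × ℤ × ℤ)) (u : Tri) :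
    27 * ((nN Q (e12 u.1) * nN Q (e13 u.2.1) * nN Q (e23 u.2.2)) ^ 2 *
      (n2 Q (e12 u.1) * n2 Q (e13 u.2.1) * n2 Q (e23 u.2.2))) ≤ pw3 Q u ^ 3 := by
  have amgm : ∀ {a b c : ℝ}, 0 ≤ a → 0 ≤ b → 0 ≤ c → 27 * (a * b * c) ≤ (a + b + c) ^ 3 := by
    intro a b c ha hb hc
    nlinarith [mul_nonneg ha (sq_nonneg (b - c)), mul_nonneg hb (sq_nonneg (a - c)),
      mul_nonneg hc (sq_nonneg (a - b)), mul_nonneg ha (sq_nonneg (a - b)),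
      mul_nonneg ha (sq_nonneg (a - c)), mul_nonneg hb (sq_nonneg (b - a)),
      mul_nonneg hb (sq_nonneg (b - c)), mul_nonneg hc (sq_nonneg (c - a)),
      mul_nonneg hc (sq_nonneg (c - b)), mul_nonneg ha (sq_nonneg (a + b + c)), mul_nonneg (mul_nonneg ha hb) hc]
  have m1 := nN_nonneg Q (e12 u.1)
  have m2 := nN_nonneg Q (e13 u.2.1)
  have m3 := nN_nonneg Q (e23 u.2.2)
  have k1 := n2_nonneg Q (e12 u.1)
  have k2 := n2_nonneg Q (e13 u.2.1)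
  have k3 := n2_nonneg Q (e23 u.2.2)
  have h := amgm (mul_nonneg (mul_nonneg m1 m2) k3) (mul_nonneg (mul_nonneg m1 m3) k2)
    (mul_nonneg (mul_nonneg m2 m3) k1)
  unfold pw3
  refine le_trans (le_of_eq ?_) h
  ring

/-- **an edge bounded by one and the interpolated third term**:
for weights `a + b + c = 1`, `T₁ᵃ T₂ᵇ T₃ᶜ ≤ pw3` -/
theorem rpow_geom_le_pw3 (Q : Finset (ℤ × ℤ × ℤ)) (u : Tri) {a b c : ℝ} (ha : 0 ≤ a) (hb : 0 ≤ b)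
    (hc : 0 ≤ c) (habc : a + b + c = 1) :
    (nN Q (e12 u.1) * nN Q (e13 u.2.1) * n2 Q (e23 u.2.2)) ^ a *
      (nN Q (e12 u.1) * nN Q (e23 u.2.2) * n2 Q (e13 u.2.1)) ^ b *
      (nN Q (e13 u.2.1) * nN Q (e23 u.2.2) * n2 Q (e12 u.1)) ^ c ≤ pw3 Q u := by
  have m1 := nN_nonneg Q (e12 u.1)
  have m2 := nN_nonneg Q (e13 u.2.1)
  have m3 := nN_nonneg Q (e23 u.2.2)
  have k1 := n2_nonneg Q (e12 u.1)
  have k2 := n2_nonneg Q (e13 u.2.1)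
  have k3 := n2_nonneg Q (e23 u.2.2)
  have t1 := mul_nonneg (mul_nonneg m1 m2) k3
  have t2 := mul_nonneg (mul_nonneg m1 m3) k2
  have t3 := mul_nonneg (mul_nonneg m2 m3) k1
  have hp := pw3_nonneg Q u
  have e1 : nN Q (e12 u.1) * nN Q (e13 u.2.1) * n2 Q (e23 u.2.2) ≤ pw3 Q u := by
    unfold pw3; linarith
  have e2 : nN Q (e12 u.1) * nN Q (e23 u.2.2) * n2 Q (e13 u.2.1) ≤ pw3 Q u := by
    unfold pw3; linarith
  have e3 : nN Q (e13 u.2.1) * nN Q (e23 u.2.2) * n2 Q (e12 u.1) ≤ pw3 Q u := by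
    unfold pw3; linarith
  have r1 := Real.rpow_le_rpow t1 e1 ha
  have r2 := Real.rpow_le_rpow t2 e2 hb
  have r3 := Real.rpow_le_rpow t3 e3 hc
  calc _ ≤ pw3 Q u ^ a * pw3 Q u ^ b * pw3 Q u ^ c :=
        mul_le_mul (mul_le_mul r1 r2 (Real.rpow_nonneg t2 _) (Real.rpow_nonneg hp _)) r3
          (Real.rpow_nonneg t3 _) (mul_nonneg (Real.rpow_nonneg hp _) (Real.rpow_nonneg hp _))
    _ = pw3 Q u := by
        rw [← Real.rpow_add_of_nonneg hp ha hb, ← Real.rpow_add_of_nonneg hp (add_nonneg ha hb) hc,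
          habc, Real.rpow_one]

/-! ### Loomis–Whitney in averages -/

/-- `avg_{A×B×C} |a₁₂ a₁₃ a₂₃| ≤ |a₁₂|₂ |a₁₃|₂ |a₂₃|₂` -/
theorem avg_abs_atm_le (A B C : Finset ℤ) (u : Tri) :
    (avg (A ×ˢ B ×ˢ C) fun p => |atm u p|) ≤
      n2 (A ×ˢ B) u.1 * n2 (A ×ˢ C) u.2.1 * n2 (B ×ˢ C) u.2.2 := by
  have h := loomis_whitney A B C (fun x y => |u.1 (x, y)|) (fun x z => |u.2.1 (x, z)|)
    (fun y z => |u.2.2 (y, z)|)
  simp only [sq_abs] at h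
  have hr : 0 ≤ n2 (A ×ˢ B) u.1 * n2 (A ×ˢ C) u.2.1 * n2 (B ×ˢ C) u.2.2 :=
    mul_nonneg (mul_nonneg (n2_nonneg _ _) (n2_nonneg _ _)) (n2_nonneg _ _)
  refine (abs_le_of_sq_le_sq' ?_ hr).2
  rw [mul_pow, mul_pow, n2_sq, n2_sq, n2_sq]
  have e : ∑ p ∈ A ×ˢ B ×ˢ C, |atm u p| =
      ∑ x ∈ A, ∑ y ∈ B, ∑ z ∈ C, |u.1 (x, y)| * |u.2.1 (x, z)| * |u.2.2 (y, z)| := by
    rw [sum_product]
    refine sum_congr rfl fun x _ => ?_
    rw [sum_product]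
    refine sum_congr rfl fun y _ => sum_congr rfl fun z _ => ?_
    unfold atm e12 e13 e23
    rw [abs_mul, abs_mul]
  unfold avg
  simp only [e, mul_pow, card_product, sum_product]
  push_cast
  calc (((A.card : ℝ) * (B.card * C.card))⁻¹) ^ 2 * (∑ x ∈ A, ∑ y ∈ B, ∑ z ∈ C,
        |u.1 (x, y)| * |u.2.1 (x, z)| * |u.2.2 (y, z)|) ^ 2
      ≤ (((A.card : ℝ) * (B.card * C.card))⁻¹) ^ 2 * ((∑ x ∈ A, ∑ y ∈ B, u.1 (x, y) ^ 2) *
        (∑ x ∈ A, ∑ z ∈ C, u.2.1 (x, z) ^ 2) * (∑ y ∈ B, ∑ z ∈ C, u.2.2 (y, z) ^ 2)) :=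
        mul_le_mul_of_nonneg_left h (sq_nonneg _)
    _ = _ := by simp only [mul_inv]; ring

end

end Vale.Agent.P141.H419
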