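import Vale.Agent.P141.H782.Max2

/-!
# P141, line W: a three-dimensional dyadic maximal function with neighbouring cubes

Weak type `(1,1)` with the constant `27`, and the sums of powers.  Used for the mixed-scale gluing
in the natural weight (file WGgl).
-/

namespace Vale.Agent.P141.H419

open Finset
open Vale.Agent.P141.H782 (ic mem_ic card_ic sum_ic_succ bl mem_bl card_bl near_div kolmogorov)

noncomputable section

/-- sum over a cube -/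
def Cb (F : ℤ → ℤ → ℤ → ℝ) (k : ℕ) (a b c : ℤ) : ℝ :=
  ∑ x ∈ ic k a, ∑ y ∈ ic k b, ∑ z ∈ ic k c, F x y z

theorem Cb_nonneg {F : ℤ → ℤ → ℤ → ℝ} (hF : ∀ x y z, 0 ≤ F x y z) (k : ℕ) (a b c : ℤ) :
    0 ≤ Cb F k a b c :=
  sum_nonneg fun _ _ => sum_nonneg fun _ _ => sum_nonneg fun _ _ => hF _ _ _

/-- the indices of the eight children -/
def ch (a b c : ℤ) : Finset (ℤ × ℤ × ℤ) :=
  {2 * a, 2 * a + 1} ×ˢ {2 * b, 2 * b + 1} ×ˢ {2 * c, 2 * c + 1}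

theorem Cb_succ (F : ℤ → ℤ → ℤ → ℝ) (k : ℕ) (a b c : ℤ) :
    Cb F (k + 1) a b c = ∑ p ∈ ch a b c, Cb F k p.1 p.2.1 p.2.2 := by
  unfold Cb ch
  rw [sum_product, sum_pair (by omega), sum_product, sum_product, sum_pair (by omega),
    sum_pair (by omega), sum_pair (by omega), sum_pair (by omega), sum_pair (by omega),
    sum_pair (by omega)]
  simp only [sum_ic_succ, sum_add_distrib]
  ring

/-- `w` is near a cube inside the cube `(k, a, b, c)` with average `> lam` -/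
def Near3 (F : ℤ → ℤ → ℤ → ℝ) (lam : ℝ) (k : ℕ) (a b c : ℤ) (w : ℤ × ℤ × ℤ) : Prop :=
  ∃ j ≤ k, ∃ d1 d2 d3 : ℤ, (-1 ≤ d1 ∧ d1 ≤ 1) ∧ (-1 ≤ d2 ∧ d2 ≤ 1) ∧ (-1 ≤ d3 ∧ d3 ≤ 1) ∧
    (w.1 / 2 ^ j + d1) / 2 ^ (k - j) = a ∧ (w.2.1 / 2 ^ j + d2) / 2 ^ (k - j) = b ∧
      (w.2.2 / 2 ^ j + d3) / 2 ^ (k - j) = c ∧
      lam * 8 ^ j < Cb F j (w.1 / 2 ^ j + d1) (w.2.1 / 2 ^ j + d2) (w.2.2 / 2 ^ j + d3)

open Classical in
/-- the set of these points -/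
def Bd3 (F : ℤ → ℤ → ℤ → ℝ) (lam : ℝ) (k : ℕ) (a b c : ℤ) : Finset (ℤ × ℤ × ℤ) :=
  (bl k a ×ˢ bl k b ×ˢ bl k c).filter (Near3 F lam k a b c)

theorem mem_Bd3 {F : ℤ → ℤ → ℤ → ℝ} {lam : ℝ} {k : ℕ} {a b c : ℤ} {w : ℤ × ℤ × ℤ} :
    w ∈ Bd3 F lam k a b c ↔ Near3 F lam k a b c w := by
  classical
  unfold Bd3
  rw [mem_filter, and_iff_right_iff_imp]
  rintro ⟨j, hj, d1, d2, d3, h1, h2, h3, h4, h5, h6, _⟩
  rw [mem_product, mem_product, mem_bl, mem_bl, mem_bl]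
  have hp : (0 : ℤ) < 2 ^ (k - j) := by positivity
  have e : (2 : ℤ) ^ k = 2 ^ j * 2 ^ (k - j) := by rw [← pow_add]; congr 1; omega
  have e1 : ∀ x : ℤ, x / 2 ^ k = x / 2 ^ j / 2 ^ (k - j) := fun x => by
    rw [e, Int.ediv_ediv_of_nonneg (by positivity)]
  rw [e1, e1, e1, ← h4, ← h5, ← h6]
  exact ⟨near_div hp h1.1 h1.2, near_div hp h2.1 h2.2, near_div hp h3.1 h3.2⟩

theorem card_bl3' (k : ℕ) (a b c : ℤ) : (bl k a ×ˢ bl k b ×ˢ bl k c).card = 27 * 8 ^ k := by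
  rw [card_product, card_product, card_bl, card_bl, card_bl,
    show (8 : ℕ) = 2 * 2 * 2 by norm_num, mul_pow, mul_pow]
  ring

theorem card_Bd3_le (F : ℤ → ℤ → ℤ → ℝ) (lam : ℝ) (k : ℕ) (a b c : ℤ) :
    ((Bd3 F lam k a b c).card : ℝ) ≤ 27 * 8 ^ k := by
  have : (Bd3 F lam k a b c).card ≤ (bl k a ×ˢ bl k b ×ˢ bl k c).card := by
    classical exact card_filter_le _ _
  rw [card_bl3'] at this
  exact_mod_cast this

theorem card_Bd3 (F : ℤ → ℤ → ℤ → ℝ) (hF : ∀ x y z, 0 ≤ F x y z) {lam : ℝ} (hl : 0 < lam)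
    (k : ℕ) : ∀ a b c : ℤ, lam * (Bd3 F lam k a b c).card ≤ 27 * Cb F k a b c := by
  induction k with
  | zero =>
    intro a b c
    by_cases h : lam < Cb F 0 a b c
    · have hc := card_Bd3_le F lam 0 a b c
      rw [pow_zero, mul_one] at hc
      calc lam * (Bd3 F lam 0 a b c).card ≤ lam * 27 := by gcongr
        _ ≤ _ := by linarith
    · have : Bd3 F lam 0 a b c = ∅ := by
        rw [Finset.eq_empty_iff_forall_notMem]
        intro w hw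
        obtain ⟨j, hj, d1, d2, d3, _, _, _, h4, h5, h6, h7⟩ := mem_Bd3.1 hw
        obtain rfl : j = 0 := by omega
        simp only [pow_zero, Int.ediv_one, Nat.sub_self] at h4 h5 h6 h7
        rw [h4, h5, h6, mul_one] at h7
        exact h h7
      rw [this, card_empty, Nat.cast_zero, mul_zero]
      have := Cb_nonneg hF 0 a b c
      linarith
  | succ k ih =>
    intro a b c
    by_cases h : lam * 8 ^ (k + 1) < Cb F (k + 1) a b c
    · have hc := card_Bd3_le F lam (k + 1) a b c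
      calc lam * (Bd3 F lam (k + 1) a b c).card ≤ lam * (27 * 8 ^ (k + 1)) := by gcongr
        _ ≤ _ := by linarith
    · classical
      have hsub : Bd3 F lam (k + 1) a b c ⊆
          (ch a b c).biUnion fun p => Bd3 F lam k p.1 p.2.1 p.2.2 := by
        intro w hw
        obtain ⟨j, hj, d1, d2, d3, h1, h2, h3, h4, h5, h6, h7⟩ := mem_Bd3.1 hw
        have hjk : j ≤ k := by
          by_contra hjk
          obtain rfl : j = k + 1 := by omega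
          simp only [Nat.sub_self, pow_zero, Int.ediv_one] at h4 h5 h6
          rw [h4, h5, h6] at h7
          exact h h7
        have e : (2 : ℤ) ^ (k + 1 - j) = 2 ^ (k - j) * 2 := by
          rw [← pow_succ]; congr 1; omega
        have hp : (0 : ℤ) ≤ 2 ^ (k - j) := by positivity
        rw [e, ← Int.ediv_ediv_of_nonneg hp] at h4 h5 h6
        have hN : Near3 F lam k ((w.1 / 2 ^ j + d1) / 2 ^ (k - j))
            ((w.2.1 / 2 ^ j + d2) / 2 ^ (k - j)) ((w.2.2 / 2 ^ j + d3) / 2 ^ (k - j)) w :=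
          ⟨j, hjk, d1, d2, d3, h1, h2, h3, rfl, rfl, rfl, h7⟩
        have ha : (w.1 / 2 ^ j + d1) / 2 ^ (k - j) = 2 * a ∨
            (w.1 / 2 ^ j + d1) / 2 ^ (k - j) = 2 * a + 1 := by omega
        have hb : (w.2.1 / 2 ^ j + d2) / 2 ^ (k - j) = 2 * b ∨
            (w.2.1 / 2 ^ j + d2) / 2 ^ (k - j) = 2 * b + 1 := by omega
        have hc : (w.2.2 / 2 ^ j + d3) / 2 ^ (k - j) = 2 * c ∨
            (w.2.2 / 2 ^ j + d3) / 2 ^ (k - j) = 2 * c + 1 := by omega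
        rw [mem_biUnion]
        refine ⟨((w.1 / 2 ^ j + d1) / 2 ^ (k - j), (w.2.1 / 2 ^ j + d2) / 2 ^ (k - j),
          (w.2.2 / 2 ^ j + d3) / 2 ^ (k - j)), ?_, mem_Bd3.2 hN⟩
        unfold ch
        simp only [mem_product, mem_insert, mem_singleton]
        exact ⟨ha, hb, hc⟩
      have hc : ((Bd3 F lam (k + 1) a b c).card : ℝ) ≤
          ∑ p ∈ ch a b c, ((Bd3 F lam k p.1 p.2.1 p.2.2).card : ℝ) := by
        have h1 := (card_le_card hsub).trans card_biUnion_le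
        exact_mod_cast h1
      rw [Cb_succ, mul_sum]
      calc lam * (Bd3 F lam (k + 1) a b c).card ≤
          lam * ∑ p ∈ ch a b c, ((Bd3 F lam k p.1 p.2.1 p.2.2).card : ℝ) := by gcongr
        _ = ∑ p ∈ ch a b c, lam * ((Bd3 F lam k p.1 p.2.1 p.2.2).card : ℝ) := mul_sum _ _ _
        _ ≤ _ := sum_le_sum fun p _ => ih _ _ _

/-! ### The maximal function -/

/-- the index set of the maximal function of depth `l` -/
def mi3 (l : ℕ) : Finset (ℕ × ℤ × ℤ × ℤ) :=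
  range (l + 1) ×ˢ Icc (-1) 1 ×ˢ Icc (-1) 1 ×ˢ Icc (-1) 1

/-- the maximal function: cubes of scale `≤ l` which contain the point or are neighbours -/
def MF3 (F : ℤ → ℤ → ℤ → ℝ) (l : ℕ) (w : ℤ × ℤ × ℤ) : ℝ :=
  (((mi3 l).sup fun p => Real.toNNReal
    (Cb F p.1 (w.1 / 2 ^ p.1 + p.2.1) (w.2.1 / 2 ^ p.1 + p.2.2.1)
      (w.2.2 / 2 ^ p.1 + p.2.2.2) / 8 ^ p.1) : NNReal) : ℝ)

theorem MF3_nonneg (F : ℤ → ℤ → ℤ → ℝ) (l : ℕ) (w : ℤ × ℤ × ℤ) : 0 ≤ MF3 F l w :=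
  NNReal.coe_nonneg _

theorem le_MF3 {F : ℤ → ℤ → ℤ → ℝ} (hF : ∀ x y z, 0 ≤ F x y z) {l j : ℕ} (hj : j ≤ l)
    {d1 d2 d3 : ℤ} (h1 : -1 ≤ d1 ∧ d1 ≤ 1) (h2 : -1 ≤ d2 ∧ d2 ≤ 1) (h3 : -1 ≤ d3 ∧ d3 ≤ 1)
    (w : ℤ × ℤ × ℤ) :
    Cb F j (w.1 / 2 ^ j + d1) (w.2.1 / 2 ^ j + d2) (w.2.2 / 2 ^ j + d3) / 8 ^ j ≤ MF3 F l w := by
  have hm : (j, d1, d2, d3) ∈ mi3 l := by
    unfold mi3
    simp only [mem_product, mem_range, mem_Icc]
    exact ⟨by omega, h1, h2, h3⟩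
  have h := Finset.le_sup (f := fun p : ℕ × ℤ × ℤ × ℤ => Real.toNNReal
    (Cb F p.1 (w.1 / 2 ^ p.1 + p.2.1) (w.2.1 / 2 ^ p.1 + p.2.2.1)
      (w.2.2 / 2 ^ p.1 + p.2.2.2) / 8 ^ p.1)) hm
  have h4 := NNReal.coe_le_coe.2 h
  rwa [Real.coe_toNNReal _ (div_nonneg (Cb_nonneg hF _ _ _ _) (by positivity))] at h4

theorem lt_MF3 {F : ℤ → ℤ → ℤ → ℝ} {l : ℕ} {w : ℤ × ℤ × ℤ} {lam : ℝ} (hl : 0 ≤ lam)
    (h : lam < MF3 F l w) :
    ∃ j ≤ l, ∃ d1 d2 d3 : ℤ, (-1 ≤ d1 ∧ d1 ≤ 1) ∧ (-1 ≤ d2 ∧ d2 ≤ 1) ∧ (-1 ≤ d3 ∧ d3 ≤ 1) ∧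
      lam * 8 ^ j < Cb F j (w.1 / 2 ^ j + d1) (w.2.1 / 2 ^ j + d2) (w.2.2 / 2 ^ j + d3) := by
  have h1 : Real.toNNReal lam < (mi3 l).sup fun p : ℕ × ℤ × ℤ × ℤ => Real.toNNReal
      (Cb F p.1 (w.1 / 2 ^ p.1 + p.2.1) (w.2.1 / 2 ^ p.1 + p.2.2.1)
        (w.2.2 / 2 ^ p.1 + p.2.2.2) / 8 ^ p.1) := by
    rw [← NNReal.coe_lt_coe, Real.coe_toNNReal _ hl]; exact h
  obtain ⟨p, hp, h2⟩ := (Finset.lt_sup_iff).1 h1
  unfold mi3 at hp
  simp only [mem_product, mem_range, mem_Icc] at hp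
  have h3 := (Real.toNNReal_lt_toNNReal_iff_of_nonneg hl).1 h2
  rw [lt_div_iff₀ (by positivity)] at h3
  exact ⟨p.1, by omega, p.2.1, p.2.2.1, p.2.2.2, hp.2.1, hp.2.2.1, hp.2.2.2, h3⟩

/-- Weak type for a function supported in the cube `(l, a, b, c)`. -/
theorem weak3 {F : ℤ → ℤ → ℤ → ℝ} (hF : ∀ x y z, 0 ≤ F x y z) {l : ℕ} {a b c : ℤ}
    (hs : ∀ x y z, F x y z ≠ 0 → x / 2 ^ l = a ∧ y / 2 ^ l = b ∧ z / 2 ^ l = c) {lam : ℝ}
    (hl : 0 < lam) (s : Finset (ℤ × ℤ × ℤ)) :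
    lam * ((s.filter fun w => lam < MF3 F l w).card : ℝ) ≤ 27 * Cb F l a b c := by
  classical
  refine le_trans ?_ (card_Bd3 F hF hl l a b c)
  refine mul_le_mul_of_nonneg_left ?_ hl.le
  have hsub : (s.filter fun w => lam < MF3 F l w) ⊆ Bd3 F lam l a b c := by
    intro w hw
    rw [mem_filter] at hw
    obtain ⟨j, hj, d1, d2, d3, h1, h2, h3, h4⟩ := lt_MF3 hl.le hw.2
    have h5 : 0 < Cb F j (w.1 / 2 ^ j + d1) (w.2.1 / 2 ^ j + d2) (w.2.2 / 2 ^ j + d3) :=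
      lt_of_le_of_lt (by positivity) h4
    obtain ⟨x, hx, h6⟩ := Finset.exists_ne_zero_of_sum_ne_zero h5.ne'
    obtain ⟨y, hy, h7⟩ := Finset.exists_ne_zero_of_sum_ne_zero h6
    obtain ⟨z, hz, h8⟩ := Finset.exists_ne_zero_of_sum_ne_zero h7
    obtain ⟨g1, g2, g3⟩ := hs x y z h8
    have e : (2 : ℤ) ^ l = 2 ^ j * 2 ^ (l - j) := by rw [← pow_add]; congr 1; omega
    have hp : (0 : ℤ) ≤ 2 ^ j := by positivity
    rw [e, ← Int.ediv_ediv_of_nonneg hp] at g1 g2 g3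
    rw [mem_ic.1 hx] at g1
    rw [mem_ic.1 hy] at g2
    rw [mem_ic.1 hz] at g3
    exact mem_Bd3.2 ⟨j, hj, d1, d2, d3, h1, h2, h3, g1, g2, g3, h4⟩
  exact_mod_cast card_le_card hsub

/-- sums of powers of the maximal function, for a function supported in the cube -/
theorem sum_MF3_le {e : ℝ} (h0 : 0 < e) (h1 : e < 1) {F : ℤ → ℤ → ℤ → ℝ}
    (hF : ∀ x y z, 0 ≤ F x y z) {l : ℕ} {a b c : ℤ}
    (hs : ∀ x y z, F x y z ≠ 0 → x / 2 ^ l = a ∧ y / 2 ^ l = b ∧ z / 2 ^ l = c) :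
    ∑ w ∈ bl l a ×ˢ bl l b ×ˢ bl l c, MF3 F l w ^ (1 - e) ≤
      135 / e * 8 ^ l * (Cb F l a b c / 8 ^ l) ^ (1 - e) := by
  set A : ℝ := Cb F l a b c / 8 ^ l with hAdef
  have hp8 : (0 : ℝ) < 8 ^ l := by positivity
  have hA0 : 0 ≤ A := div_nonneg (Cb_nonneg hF _ _ _ _) hp8.le
  have hS : Cb F l a b c = 8 ^ l * A := by rw [hAdef]; field_simp
  have hweak : ∀ lam : ℝ, 0 < lam → lam * (((bl l a ×ˢ bl l b ×ˢ bl l c).filter
      fun w => lam < MF3 F l w).card : ℝ) ≤ 27 * Cb F l a b c := fun lam hl => weak3 hF hs hl _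
  rcases hA0.eq_or_lt with hA | hA
  · have hz : ∀ w ∈ bl l a ×ˢ bl l b ×ˢ bl l c, MF3 F l w ^ (1 - e) = 0 := by
      intro w hw
      have hM : MF3 F l w = 0 := by
        by_contra hne
        have hpos : 0 < MF3 F l w := lt_of_le_of_ne (MF3_nonneg _ _ _) (Ne.symm hne)
        have h2 := hweak (MF3 F l w / 2) (by linarith)
        rw [hS, ← hA, mul_zero, mul_zero] at h2
        have h3 : 0 < (((bl l a ×ˢ bl l b ×ˢ bl l c).filter
            fun w' => MF3 F l w / 2 < MF3 F l w').card : ℝ) := by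
          have : w ∈ (bl l a ×ˢ bl l b ×ˢ bl l c).filter
              fun w' => MF3 F l w / 2 < MF3 F l w' :=
            mem_filter.2 ⟨hw, by linarith⟩
          exact_mod_cast card_pos.2 ⟨w, this⟩
        have h4 := mul_pos (show 0 < MF3 F l w / 2 by linarith) h3
        linarith
      rw [hM, Real.zero_rpow (by linarith)]
    rw [sum_eq_zero hz]
    have := Real.rpow_nonneg hA0 (1 - e)
    positivity
  · have hk := kolmogorov (bl l a ×ˢ bl l b ×ˢ bl l c) (fun w => MF3 F l w)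
      (fun w _ => MF3_nonneg _ _ _) (B := 27 * Cb F l a b c)
      (mul_nonneg (by norm_num) (Cb_nonneg hF _ _ _ _)) hweak h0 h1.le hA
    have hcard : ((bl l a ×ˢ bl l b ×ˢ bl l c).card : ℝ) = 27 * 8 ^ l := by
      rw [card_bl3']; push_cast; ring
    rw [hcard, hS] at hk
    have hr : A * A ^ (-e) = A ^ (1 - e) := by
      rw [show 1 - e = 1 + -e by ring, Real.rpow_add hA, Real.rpow_one]
    refine hk.trans ?_
    have hre : 4 / e * (27 * (8 ^ l * A)) * A ^ (-e) = 108 / e * 8 ^ l * A ^ (1 - e) := by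
      rw [← hr]; ring
    rw [hre]
    have h9 : (27 : ℝ) ≤ 27 / e := by rw [le_div_iff₀ h0]; linarith
    have h10 : 0 ≤ 8 ^ l * A ^ (1 - e) := by
      have := Real.rpow_nonneg hA0 (1 - e)
      positivity
    calc A ^ (1 - e) * (27 * 8 ^ l) + 108 / e * 8 ^ l * A ^ (1 - e)
        = (27 + 108 / e) * (8 ^ l * A ^ (1 - e)) := by ring
      _ ≤ (27 / e + 108 / e) * (8 ^ l * A ^ (1 - e)) := by gcongr
      _ = _ := by ring

end

end Vale.Agent.P141.H419
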