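import Vale.Agent.P141.H258.Wt

/-!
# P141, line (A), (D3): the pair (A, C) with the linear weight `β + T`, in numbers

`T` positive semidefinite, at most `τ`.  When the middle cell is halved, the mean of the two new
weights is `T - e` with `e` positive semidefinite, and their half difference is `d`.  With the
weight `β + T` the cross terms are absorbed by the gains of the same functional.
-/

namespace Vale.Agent.P141.H419.MidB

open Finset Matrix Vale.Agent.P141.PL Vale.Agent.P141.PL.H103 Vale.Agent.P141.H103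
open Vale.Agent.P141.H258
open Vale.Agent.P075 (Ix val)

noncomputable section

/-! ### one pair of rows -/

section node

variable {κ κ' : Type*} [Fintype κ] [Fintype κ']

/-- two sided form -/
def nf (U : Matrix κ κ ℝ) (U' : Matrix κ' κ' ℝ) (X Y : Matrix κ κ' ℝ) : ℝ := ip (U * X * U') Y

theorem nf_comm {U : Matrix κ κ ℝ} {U' : Matrix κ' κ' ℝ} (hU : Uᵀ = U) (hU' : U'ᵀ = U')
    (X Y : Matrix κ κ' ℝ) : nf U U' X Y = nf U U' Y X := by
  unfold nf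
  rw [ip_mul_right hU', ip_mul_left hU, ip_comm, ← Matrix.mul_assoc]

theorem nf_nonneg {U : Matrix κ κ ℝ} {U' : Matrix κ' κ' ℝ} (hU : U.PosSemidef)
    (hU' : U'.PosSemidef) (X : Matrix κ κ' ℝ) : 0 ≤ nf U U' X X := by
  have h1 : (Xᵀ * U * X).PosSemidef := by
    have := hU.conjTranspose_mul_mul_same X
    simpa [conjTranspose_eq_transpose_of_trivial] using this
  have h2 := H420.trace_mul_nonneg h1 hU'
  have e : nf U U' X X = (Xᵀ * U * X * U').trace := by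
    unfold nf
    rw [ip_comm, ip]
    simp only [Matrix.mul_assoc]
  rw [e]
  exact h2

theorem nf_add₁ (U V : Matrix κ κ ℝ) (U' : Matrix κ' κ' ℝ) (X Y : Matrix κ κ' ℝ) :
    nf (U + V) U' X Y = nf U U' X Y + nf V U' X Y := by
  unfold nf; rw [Matrix.add_mul, Matrix.add_mul, ip_add_left]

theorem nf_sub₁ (U V : Matrix κ κ ℝ) (U' : Matrix κ' κ' ℝ) (X Y : Matrix κ κ' ℝ) :
    nf (U - V) U' X Y = nf U U' X Y - nf V U' X Y := by
  unfold nf; rw [Matrix.sub_mul, Matrix.sub_mul, ip_sub_left]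

theorem nf_add₂ (U : Matrix κ κ ℝ) (U' V' : Matrix κ' κ' ℝ) (X Y : Matrix κ κ' ℝ) :
    nf U (U' + V') X Y = nf U U' X Y + nf U V' X Y := by
  unfold nf; rw [Matrix.mul_add, ip_add_left]

theorem nf_sub₂ (U : Matrix κ κ ℝ) (U' V' : Matrix κ' κ' ℝ) (X Y : Matrix κ κ' ℝ) :
    nf U (U' - V') X Y = nf U U' X Y - nf U V' X Y := by
  unfold nf; rw [Matrix.mul_sub, ip_sub_left]

theorem nf_add₃ (U : Matrix κ κ ℝ) (U' : Matrix κ' κ' ℝ) (X Z Y : Matrix κ κ' ℝ) :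
    nf U U' (X + Z) Y = nf U U' X Y + nf U U' Z Y := by
  unfold nf; rw [Matrix.mul_add, Matrix.add_mul, ip_add_left]

theorem nf_sub₃ (U : Matrix κ κ ℝ) (U' : Matrix κ' κ' ℝ) (X Z Y : Matrix κ κ' ℝ) :
    nf U U' (X - Z) Y = nf U U' X Y - nf U U' Z Y := by
  unfold nf; rw [Matrix.mul_sub, Matrix.sub_mul, ip_sub_left]

theorem nf_add₄ (U : Matrix κ κ ℝ) (U' : Matrix κ' κ' ℝ) (X Y Z : Matrix κ κ' ℝ) :
    nf U U' X (Y + Z) = nf U U' X Y + nf U U' X Z := by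
  unfold nf; rw [ip_add_right]

theorem nf_sub₄ (U : Matrix κ κ ℝ) (U' : Matrix κ' κ' ℝ) (X Y Z : Matrix κ κ' ℝ) :
    nf U U' X (Y - Z) = nf U U' X Y - nf U U' X Z := by
  unfold nf; rw [ip_sub_right]

theorem nf_smul₁ (r : ℝ) (U : Matrix κ κ ℝ) (U' : Matrix κ' κ' ℝ) (X Y : Matrix κ κ' ℝ) :
    nf (r • U) U' X Y = r * nf U U' X Y := by
  unfold nf; rw [Matrix.smul_mul, Matrix.smul_mul, ip_smul_left]

theorem nf_smul₂ (r : ℝ) (U : Matrix κ κ ℝ) (U' : Matrix κ' κ' ℝ) (X Y : Matrix κ κ' ℝ) :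
    nf U (r • U') X Y = r * nf U U' X Y := by
  unfold nf; rw [Matrix.mul_smul, ip_smul_left]

theorem nf_smul₃ (r : ℝ) (U : Matrix κ κ ℝ) (U' : Matrix κ' κ' ℝ) (X Y : Matrix κ κ' ℝ) :
    nf U U' (r • X) Y = r * nf U U' X Y := by
  unfold nf; rw [Matrix.mul_smul, Matrix.smul_mul, ip_smul_left]

theorem nf_smul₄ (r : ℝ) (U : Matrix κ κ ℝ) (U' : Matrix κ' κ' ℝ) (X Y : Matrix κ κ' ℝ) :
    nf U U' X (r • Y) = r * nf U U' X Y := by
  unfold nf; rw [ip_smul_right]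

/-- Young's inequality for a positive semidefinite pair -/
theorem nf_young {U : Matrix κ κ ℝ} {U' : Matrix κ' κ' ℝ} (hU : U.PosSemidef)
    (hU' : U'.PosSemidef) {t : ℝ} (ht : 0 < t) (X Y : Matrix κ κ' ℝ) :
    -(t * nf U U' X X) - t⁻¹ * nf U U' Y Y ≤ 2 * nf U U' X Y := by
  have h := nf_nonneg hU hU' (t • X + Y)
  simp only [nf_add₃, nf_add₄, nf_smul₃, nf_smul₄] at h
  rw [nf_comm (H420.tr_symm hU.isHermitian) (H420.tr_symm hU'.isHermitian) Y X] at h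
  have h2 : 0 ≤ t⁻¹ * (t * (t * nf U U' X X) + t * nf U U' X Y
      + (t * nf U U' X Y + nf U U' Y Y)) := by
    refine mul_nonneg (inv_pos.2 ht).le ?_
    linarith
  have h3 : t⁻¹ * (t * (t * nf U U' X X) + t * nf U U' X Y + (t * nf U U' X Y + nf U U' Y Y))
      = t * nf U U' X X + 2 * nf U U' X Y + t⁻¹ * nf U U' Y Y := by
    field_simp
    ring
  linarith

variable [DecidableEq κ] [DecidableEq κ']

omit [DecidableEq κ'] in
theorem nf_one₁ (U' : Matrix κ' κ' ℝ) (X Y : Matrix κ κ' ℝ) :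
    nf 1 U' X Y = ip (X * U') Y := by
  unfold nf; rw [Matrix.one_mul]

omit [DecidableEq κ] in
theorem nf_one₂ (U : Matrix κ κ ℝ) (X Y : Matrix κ κ' ℝ) :
    nf U 1 X Y = ip (U * X) Y := by
  unfold nf; rw [Matrix.mul_one]

theorem nf_one (X Y : Matrix κ κ' ℝ) : nf (1 : Matrix κ κ ℝ) (1 : Matrix κ' κ' ℝ) X Y = ip X Y := by
  unfold nf; rw [Matrix.one_mul, Matrix.mul_one]

/-- **own middle inequality at one pair of rows**, weight `β + T` -/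
theorem node_ownT {β τ : ℝ} (hβ : 0 < β) {T e d : Matrix κ κ ℝ}
    {T' e' d' : Matrix κ' κ' ℝ} (hd : dᵀ = d) (hd' : d'ᵀ = d')
    (he : e.PosSemidef) (he' : e'.PosSemidef)
    (h0 : (T - e + d).PosSemidef) (h1 : (T - e - d).PosSemidef)
    (h0' : (T' - e' + d').PosSemidef) (h1' : (T' - e' - d').PosSemidef)
    (hT : (τ • (1 : Matrix κ κ ℝ) - T).PosSemidef)
    (hT' : (τ • (1 : Matrix κ' κ' ℝ) - T').PosSemidef) (W V : Matrix κ κ' ℝ) :
    nf (β • 1 + T) (β • 1 + T') W W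
      ≤ (1 / 2) * (nf (β • 1 + (T - e + d)) (β • 1 + (T' - e' + d')) (W + V) (W + V)
        + nf (β • 1 + (T - e - d)) (β • 1 + (T' - e' - d')) (W - V) (W - V))
        + (2 * (β + τ) / β + 1 / 2) * (ip (d * W) (d * W) + ip (W * d') (W * d'))
        + (β + τ) * (ip (e * W) W + ip (W * e') W) := by
  set m : Matrix κ κ ℝ := T - e with hm
  set m' : Matrix κ' κ' ℝ := T' - e' with hm'
  have pm : m.PosSemidef := by
    have : m = (1 / 2 : ℝ) • ((m + d) + (m - d)) := by module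
    rw [this]
    exact (h0.add h1).smul (by norm_num)
  have pm' : m'.PosSemidef := by
    have : m' = (1 / 2 : ℝ) • ((m' + d') + (m' - d')) := by module
    rw [this]
    exact (h0'.add h1').smul (by norm_num)
  have b1 : (β • (1 : Matrix κ κ ℝ)).PosSemidef := PosSemidef.one.smul hβ.le
  have b1' : (β • (1 : Matrix κ' κ' ℝ)).PosSemidef := PosSemidef.one.smul hβ.le
  set U : Matrix κ κ ℝ := β • 1 + m with hU
  set U' : Matrix κ' κ' ℝ := β • 1 + m' with hU'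
  have pU : U.PosSemidef := b1.add pm
  have pU' : U'.PosSemidef := b1'.add pm'
  have sU : Uᵀ = U := H420.tr_symm pU.isHermitian
  have sU' : U'ᵀ = U' := H420.tr_symm pU'.isHermitian
  have eT : β • (1 : Matrix κ κ ℝ) + T = U + e := by rw [hU, hm]; module
  have eT' : β • (1 : Matrix κ' κ' ℝ) + T' = U' + e' := by rw [hU', hm']; module
  have eP : β • (1 : Matrix κ κ ℝ) + (m + d) = U + d := by rw [hU]; module
  have eM : β • (1 : Matrix κ κ ℝ) + (m - d) = U - d := by rw [hU]; module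
  have eP' : β • (1 : Matrix κ' κ' ℝ) + (m' + d') = U' + d' := by rw [hU']; module
  have eM' : β • (1 : Matrix κ' κ' ℝ) + (m' - d') = U' - d' := by rw [hU']; module
  -- the mean of the two children
  have E1 : (1 / 2) * (nf (U + d) (U' + d') (W + V) (W + V)
        + nf (U - d) (U' - d') (W - V) (W - V))
      = nf U U' W W + nf d d' W W + (nf U U' V V + nf d d' V V)
        + 2 * nf d U' W V + 2 * nf U d' W V := by
    have c1 := nf_comm hd sU' V W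
    have c2 := nf_comm sU hd' V W
    simp only [nf_add₁, nf_add₂, nf_add₃, nf_add₄, nf_sub₁, nf_sub₂, nf_sub₃, nf_sub₄]
    rw [c1, c2]
    ring
  -- the gains
  have E2 : β * β * ip V V + β * ip (m * V) V + β * ip (V * m') V
      ≤ nf U U' V V + nf d d' V V := by
    have f0 := nf_nonneg h0 h0' V
    have f1 := nf_nonneg h1 h1' V
    have e2 : nf U U' V V + nf d d' V V = β * β * ip V V + β * ip (m * V) V + β * ip (V * m') V
        + (1 / 2) * (nf (m + d) (m' + d') V V + nf (m - d) (m' - d') V V) := by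
      rw [hU, hU']
      simp only [nf_add₁, nf_add₂, nf_sub₁, nf_sub₂, nf_smul₁, nf_smul₂, nf_one₁, nf_one₂,
        Matrix.add_mul, ip_add_left, Matrix.smul_mul, Matrix.one_mul, ip_smul_left]
      ring
    rw [e2]
    linarith
  -- the cross terms
  have hβ2 : 0 < β / 2 := by positivity
  have i1 : (β / 2)⁻¹ = 2 / β := by rw [inv_div]
  have y1 := nf_young (PosSemidef.one (n := κ) (R := ℝ)) pU' hβ2 V (d * W)
  have y2 := nf_young pU (PosSemidef.one (n := κ') (R := ℝ)) hβ2 V (W * d')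
  rw [i1] at y1 y2
  have c1 : nf 1 U' V (d * W) = nf d U' W V := by
    rw [nf_comm (transpose_one) sU', nf_one₁]
    rfl
  have c2 : nf U 1 V (W * d') = nf U d' W V := by
    rw [nf_comm sU (transpose_one), nf_one₂, nf, Matrix.mul_assoc]
  rw [c1] at y1
  rw [c2] at y2
  have g1 : nf 1 U' V V = β * ip V V + ip (V * m') V := by
    rw [nf_one₁, hU', Matrix.mul_add, ip_add_left, Matrix.mul_smul, Matrix.mul_one, ip_smul_left]
  have g2 : nf U 1 V V = β * ip V V + ip (m * V) V := by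
    rw [nf_one₂, hU, Matrix.add_mul, ip_add_left, Matrix.smul_mul, Matrix.one_mul, ip_smul_left]
  rw [g1] at y1
  rw [g2] at y2
  have n1 : 0 ≤ ip (m * V) V := by
    have := nf_nonneg pm (PosSemidef.one (n := κ') (R := ℝ)) V
    rwa [nf_one₂] at this
  have n2 : 0 ≤ ip (V * m') V := by
    have := nf_nonneg (PosSemidef.one (n := κ) (R := ℝ)) pm' V
    rwa [nf_one₁] at this
  -- the caps
  have bU : ((β + τ) • (1 : Matrix κ κ ℝ) - U).PosSemidef := by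
    have : (β + τ) • (1 : Matrix κ κ ℝ) - U = (τ • 1 - T) + e := by rw [hU, hm]; module
    rw [this]
    exact hT.add he
  have bU' : ((β + τ) • (1 : Matrix κ' κ' ℝ) - U').PosSemidef := by
    have : (β + τ) • (1 : Matrix κ' κ' ℝ) - U' = (τ • 1 - T') + e' := by rw [hU', hm']; module
    rw [this]
    exact hT'.add he'
  have bT : ((β + τ) • (1 : Matrix κ κ ℝ) - (U + e)).PosSemidef := by
    have : (β + τ) • (1 : Matrix κ κ ℝ) - (U + e) = τ • 1 - T := by rw [hU, hm]; module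
    rw [this]
    exact hT
  have k1 := nf_nonneg (PosSemidef.one (n := κ) (R := ℝ)) bU' (d * W)
  rw [nf_sub₂, nf_smul₂, nf_one] at k1
  have k2 := nf_nonneg bU (PosSemidef.one (n := κ') (R := ℝ)) (W * d')
  rw [nf_sub₁, nf_smul₁, nf_one] at k2
  have k3 := nf_nonneg he bU' W
  rw [nf_sub₂, nf_smul₂, nf_one₂] at k3
  have k4 := nf_nonneg bT he' W
  rw [nf_sub₁, nf_smul₁, nf_one₁] at k4
  -- the product term
  have z1 : nf d d' W W = ip (d * W) (W * d') := by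
    rw [nf, ip_mul_right hd']
  have z2 := ip_self_nonneg (d * W + W * d')
  simp only [ip_add_left, ip_add_right] at z2
  rw [ip_comm (W * d') (d * W)] at z2
  rw [eT, eT', eP, eM, eP', eM', E1]
  have E6 : nf (U + e) (U' + e') W W = nf U U' W W + nf e U' W W + nf (U + e) e' W W := by
    simp only [nf_add₁, nf_add₂]
  rw [E6]
  have i2 : 0 < 2 / β := by positivity
  have j1 := mul_le_mul_of_nonneg_left (sub_nonneg.1 k1) i2.le
  have j2 := mul_le_mul_of_nonneg_left (sub_nonneg.1 k2) i2.le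
  have l1 : 2 / β * ((β + τ) * ip (d * W) (d * W)) = 2 * (β + τ) / β * ip (d * W) (d * W) := by
    ring
  have l2 : 2 / β * ((β + τ) * ip (W * d') (W * d')) = 2 * (β + τ) / β * ip (W * d') (W * d') := by
    ring
  rw [l1] at j1
  rw [l2] at j2
  have n1' := mul_nonneg hβ.le n1
  have n2' := mul_nonneg hβ.le n2
  have s1 : (2 * (β + τ) / β + 1 / 2) * (ip (d * W) (d * W) + ip (W * d') (W * d'))
      = 2 * (β + τ) / β * ip (d * W) (d * W) + 2 * (β + τ) / β * ip (W * d') (W * d')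
        + 1 / 2 * (ip (d * W) (d * W) + ip (W * d') (W * d')) := by ring
  rw [s1, z1]
  have y1' : -(β / 2 * (β * ip V V + ip (V * m') V)) = -(β * β * ip V V) / 2
      - β * ip (V * m') V / 2 := by ring
  have y2' : -(β / 2 * (β * ip V V + ip (m * V) V)) = -(β * β * ip V V) / 2
      - β * ip (m * V) V / 2 := by ring
  rw [y1'] at y1
  rw [y2'] at y2
  linarith [E2, y1, y2, k3, k4, j1, j2, z2, n1', n2']

omit [Fintype κ'] [DecidableEq κ'] in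
/-- **middle inequality at one pair of rows**, weight `β + T` -/
theorem node_midT {β : ℝ} (hβ : 0 < β) {T e d : Matrix κ κ ℝ} (hT : Tᵀ = T) (he : eᵀ = e)
    (hd : dᵀ = d) (q p : κ → ℝ) :
    q ⬝ᵥ (β • 1 + T) *ᵥ q + ((β / 2) * (p ⬝ᵥ p) + p ⬝ᵥ (T - e) *ᵥ p)
      ≤ (1 / 2) * ((q + p) ⬝ᵥ (β • 1 + (T - e + d)) *ᵥ (q + p)
        + (q - p) ⬝ᵥ (β • 1 + (T - e - d)) *ᵥ (q - p))
        + ((2 / β) * ((d *ᵥ q) ⬝ᵥ (d *ᵥ q)) + q ⬝ᵥ e *ᵥ q) := by
  have y := dp_young (show 0 < β / 2 by positivity) p (d *ᵥ q)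
  rw [inv_div] at y
  have s : ∀ {M : Matrix κ κ ℝ} (_ : Mᵀ = M) (u v : κ → ℝ), u ⬝ᵥ M *ᵥ v = v ⬝ᵥ M *ᵥ u := by
    intro M hM u v
    rw [dotProduct_mulVec, ← mulVec_transpose, hM, dotProduct_comm]
  have e1 := s hd q p
  have e2 := s he q p
  have e3 := s hT q p
  have e4 : q ⬝ᵥ p = p ⬝ᵥ q := dotProduct_comm _ _
  simp only [add_mulVec, sub_mulVec, mulVec_add, mulVec_sub, dotProduct_add, add_dotProduct,
    dotProduct_sub, sub_dotProduct, smul_mulVec, one_mulVec, dotProduct_smul, smul_eq_mul]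
  rw [e1, e2, e3, e4]
  nlinarith [y]

end node

/-! ### Gram matrices -/

section gram

variable {κ κ' : Type*} [Fintype κ] [Fintype κ']

/-- energy `<b, e b>` on one cell at the row `x` -/
def en1 (e : Matrix κ κ ℝ) (b : ℤ → ℤ → κ → ℝ) (x : ℤ) (k : ℕ) (m : ℤ) : ℝ :=
  ((2 : ℝ) ^ k)⁻¹ * ∑ y ∈ iv k m, b x y ⬝ᵥ e *ᵥ b x y

open scoped MatrixOrder in
theorem exists_root {e : Matrix κ κ ℝ} (he : e.PosSemidef) : ∃ B : Matrix κ κ ℝ, e = Bᵀ * B := by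
  classical
  obtain ⟨B, hB⟩ := CStarAlgebra.nonneg_iff_eq_star_mul_self.mp he.nonneg
  refine ⟨B, ?_⟩
  rw [hB, star_eq_conjTranspose, conjTranspose_eq_transpose_of_trivial]

theorem root_ip (B : Matrix κ κ ℝ) (X : Matrix κ κ' ℝ) :
    ip (Bᵀ * B * X) X = ip (B * X) (B * X) := by
  simp only [ip, transpose_mul, transpose_transpose, Matrix.mul_assoc]

theorem root_dp (B : Matrix κ κ ℝ) (v : κ → ℝ) :
    v ⬝ᵥ (Bᵀ * B) *ᵥ v = (B *ᵥ v) ⬝ᵥ (B *ᵥ v) := by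
  rw [← mulVec_mulVec, dotProduct_mulVec, vecMul_transpose]

theorem en1_eq (B : Matrix κ κ ℝ) (b : ℤ → ℤ → κ → ℝ) (x : ℤ) (k : ℕ) (m : ℤ) :
    en1 (Bᵀ * B) b x k m = en2 B b x k m := by
  unfold en1 en2
  simp only [root_dp]

theorem en1_nonneg {e : Matrix κ κ ℝ} (he : e.PosSemidef) (b : ℤ → ℤ → κ → ℝ) (x : ℤ) (k : ℕ)
    (m : ℤ) : 0 ≤ en1 e b x k m := by
  obtain ⟨B, rfl⟩ := exists_root he
  rw [en1_eq]
  exact en2_nonneg ..

/-- the cap pays `<e W, W>` -/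
theorem ip_eXR_le {s2 : ℝ} {e : Matrix κ κ ℝ} (he : e.PosSemidef) (b : ℤ → ℤ → κ → ℝ)
    (b' : ℤ → ℤ → κ' → ℝ) {a k : ℕ} {n m : ℤ} (hc : Cap s2 b' a k n m) (x : ℤ) :
    ∑ x' ∈ iv a n, ip (e * XR k b b' x x' m) (XR k b b' x x' m)
      ≤ (2 : ℝ) ^ a * s2 * en1 e b x k m := by
  obtain ⟨B, rfl⟩ := exists_root he
  simp only [root_ip, en1_eq]
  exact ip_LXR_le B b b' hc x

/-- the cap of `A` pays `<q, e q>` -/
theorem eq_le {t2 : ℝ} {e : Matrix κ κ ℝ} (he : e.PosSemidef) (A : ℤ → ℤ → ℝ)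
    (b : ℤ → ℤ → κ → ℝ) {a k : ℕ} {n m : ℤ} (hc : Cap t2 (un A) a k n m) (x : ℤ) :
    ∑ z ∈ iv a n, qK A b z x k m ⬝ᵥ e *ᵥ qK A b z x k m ≤ (2 : ℝ) ^ a * t2 * en1 e b x k m := by
  obtain ⟨B, rfl⟩ := exists_root he
  simp only [root_dp, en1_eq]
  exact Lq_le B A b hc x

/-- sums of cell energies are sums over points -/
theorem sum_en1 {N a k : ℕ} (ha : a ≤ N) (hk : k ≤ N) (R₁ S : ℤ)
    (e : ℤ → ℤ → Matrix κ κ ℝ) (b : ℤ → ℤ → κ → ℝ) :
    (2 : ℝ) ^ k * ∑ m ∈ iv (N - k) S, ∑ n ∈ iv (N - a) R₁, ∑ x ∈ iv a n, en1 (e x m) b x k m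
      = ∑ x ∈ iv N R₁, ∑ y ∈ iv N S, b x y ⬝ᵥ e x (ix k y) *ᵥ b x y := by
  have h1 : ∀ m, ∑ n ∈ iv (N - a) R₁, ∑ x ∈ iv a n, en1 (e x m) b x k m
      = ∑ x ∈ iv N R₁, en1 (e x m) b x k m := fun m =>
    sum_sub ha R₁ fun _ x => en1 (e x m) b x k m
  rw [Finset.sum_congr rfl fun m _ => h1 m, Finset.mul_sum]
  have h2 : ∀ m, (2 : ℝ) ^ k * ∑ x ∈ iv N R₁, en1 (e x m) b x k m
      = ∑ y ∈ iv k m, ∑ x ∈ iv N R₁, b x y ⬝ᵥ e x m *ᵥ b x y := by
    intro m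
    unfold en1
    rw [← Finset.mul_sum, ← mul_assoc, mul_inv_cancel₀ (by positivity), one_mul, Finset.sum_comm]
  rw [Finset.sum_congr rfl fun m _ => h2 m]
  rw [sum_sub hk S fun m y => ∑ x ∈ iv N R₁, b x y ⬝ᵥ e x m *ᵥ b x y, Finset.sum_comm]

/-- the energy `SUM <b, e b>` of one scale (`SUM |d b|²` is `H258.e1`) -/
def f1 (N : ℕ) (R₁ S : ℤ) (b : ℤ → ℤ → κ → ℝ) (e : ℤ → ℕ → ℤ → Matrix κ κ ℝ) (k : ℕ) : ℝ :=
  ∑ x ∈ iv N R₁, ∑ y ∈ iv N S, b x y ⬝ᵥ e x k (ix k y) *ᵥ b x y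

theorem f1_nonneg {e : ℤ → ℕ → ℤ → Matrix κ κ ℝ} (he : ∀ x k m, (e x k m).PosSemidef) (N : ℕ)
    (R₁ S : ℤ) (b : ℤ → ℤ → κ → ℝ) (k : ℕ) : 0 ≤ f1 N R₁ S b e k :=
  Finset.sum_nonneg fun x _ => Finset.sum_nonneg fun y _ => by
    simpa using (he x k (ix k y)).dotProduct_mulVec_nonneg (b x y)

theorem e1_nonneg (N : ℕ) (R₁ S : ℤ) (b : ℤ → ℤ → κ → ℝ) (d : ℤ → ℕ → ℤ → Matrix κ κ ℝ)
    (k : ℕ) : 0 ≤ e1 N R₁ S b d k :=
  Finset.sum_nonneg fun _ _ => Finset.sum_nonneg fun _ _ => dp_nonneg _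

/-! ### The family -/

variable [DecidableEq κ]

/-- the weights: children `T - e ± d`, everything positive semidefinite, `T ≤ τ` -/
structure Mt (N : ℕ) (τ : ℝ) (T e d : ℤ → ℕ → ℤ → Matrix κ κ ℝ) : Prop where
  psd : ∀ x k m, (T x k m).PosSemidef
  pe : ∀ x k m, (e x k m).PosSemidef
  le : ∀ x k m, (τ • (1 : Matrix κ κ ℝ) - T x k m).PosSemidef
  left : ∀ x k m, k < N → T x k (2 * m) = T x (k + 1) m - e x (k + 1) m + d x (k + 1) m
  right : ∀ x k m, k < N → T x k (2 * m + 1) = T x (k + 1) m - e x (k + 1) m - d x (k + 1) m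

omit [Fintype κ] in
theorem Mt.symT {N : ℕ} {τ : ℝ} {T e d : ℤ → ℕ → ℤ → Matrix κ κ ℝ} (h : Mt N τ T e d)
    (x : ℤ) (k : ℕ) (m : ℤ) : (T x k m)ᵀ = T x k m := H420.tr_symm (h.psd x k m).isHermitian

omit [Fintype κ] in
theorem Mt.symE {N : ℕ} {τ : ℝ} {T e d : ℤ → ℕ → ℤ → Matrix κ κ ℝ} (h : Mt N τ T e d)
    (x : ℤ) (k : ℕ) (m : ℤ) : (e x k m)ᵀ = e x k m := H420.tr_symm (h.pe x k m).isHermitian

omit [Fintype κ] in
theorem Mt.symD {N : ℕ} {τ : ℝ} {T e d : ℤ → ℕ → ℤ → Matrix κ κ ℝ} (h : Mt N τ T e d)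
    (x : ℤ) {k : ℕ} (hk : k < N) (m : ℤ) : (d x (k + 1) m)ᵀ = d x (k + 1) m := by
  have e1 : d x (k + 1) m = (1 / 2 : ℝ) • (T x k (2 * m) - T x k (2 * m + 1)) := by
    rw [h.left x k m hk, h.right x k m hk]
    module
  rw [e1, transpose_smul, transpose_sub, h.symT, h.symT]

/-- the family of the slot `b` with the weight `β + T` -/
def QT (β : ℝ) (b : ℤ → ℤ → κ → ℝ) (T : ℤ → ℕ → ℤ → Matrix κ κ ℝ) (k : ℕ) :
    ℕ → ℤ → ℤ → Matrix (Ix k) (Ix k) ℝ :=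
  fun a n m => QW a k b (fun x => β • 1 + T x k m) n m

theorem QT_out (N k : ℕ) (β : ℝ) (b : ℤ → ℤ → κ → ℝ) (T : ℤ → ℕ → ℤ → Matrix κ κ ℝ) :
    OutM N k (QT β b T k) := QW_out N k b fun m x => β • 1 + T x k m

omit [Fintype κ] in
theorem wT_psd {N : ℕ} {τ β : ℝ} (hβ : 0 ≤ β) {T e d : ℤ → ℕ → ℤ → Matrix κ κ ℝ}
    (h : Mt N τ T e d) (x : ℤ) (k : ℕ) (m : ℤ) :
    (β • (1 : Matrix κ κ ℝ) + T x k m).PosSemidef :=
  (PosSemidef.one.smul hβ).add (h.psd x k m)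

theorem QT_psd {N : ℕ} {τ β : ℝ} (hβ : 0 ≤ β) {T e d : ℤ → ℕ → ℤ → Matrix κ κ ℝ}
    (h : Mt N τ T e d) (b : ℤ → ℤ → κ → ℝ) (k a : ℕ) (n m : ℤ) : (QT β b T k a n m).PosSemidef :=
  QW_psd (fun x => wT_psd hβ h x k m) n m

theorem QT_symm {N : ℕ} {τ β : ℝ} (hβ : 0 ≤ β) {T e d : ℤ → ℕ → ℤ → Matrix κ κ ℝ}
    (h : Mt N τ T e d) (b : ℤ → ℤ → κ → ℝ) (k a : ℕ) (n m : ℤ) :
    (QT β b T k a n m)ᵀ = QT β b T k a n m :=
  H420.tr_symm (QT_psd hβ h b k a n m).isHermitian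

/-- defect of the own middle inequality -/
def dT (β τ : ℝ) (b : ℤ → ℤ → κ → ℝ) (e d : ℤ → ℕ → ℤ → Matrix κ κ ℝ) (k a : ℕ) (n m : ℤ) : ℝ :=
  ((2 : ℝ) ^ a * 2 ^ a)⁻¹ * ∑ x ∈ iv a n, ∑ x' ∈ iv a n,
    ((4 * (β + τ) / β + 1) * ip (d x k m * XR k b b x x' m) (d x k m * XR k b b x x' m)
      + 2 * (β + τ) * ip (e x k m * XR k b b x x' m) (XR k b b x x' m))

/-- **own middle inequality**, pointwise -/
theorem QT_own_pt {β τ : ℝ} (hβ : 0 < β) {N : ℕ} {T e d : ℤ → ℕ → ℤ → Matrix κ κ ℝ}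
    (h : Mt N τ T e d) {k : ℕ} (hk : k < N) (b : ℤ → ℤ → κ → ℝ) (a : ℕ) (n m : ℤ) :
    (QT β b T (k + 1) a n m * QT β b T (k + 1) a n m).trace
      ≤ (1 / 2) * ((QT β b T k a n (2 * m) * QT β b T k a n (2 * m)).trace
        + (QT β b T k a n (2 * m + 1) * QT β b T k a n (2 * m + 1)).trace)
        + dT β τ b e d (k + 1) a n m := by
  have tr : ∀ (U U' : Matrix κ κ ℝ) (X : Matrix κ κ ℝ), (Xᵀ * (U * X * U')).trace = nf U U' X X := by
    intro U U' X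
    rw [nf, ip_comm]
    rfl
  have key : ∀ x x', ((XR (k + 1) b b x x' m)ᵀ * ((β • 1 + T x (k + 1) m) * XR (k + 1) b b x x' m
        * (β • 1 + T x' (k + 1) m))).trace
      ≤ (1 / 2) * (((XR k b b x x' (2 * m))ᵀ * ((β • 1 + T x k (2 * m)) * XR k b b x x' (2 * m)
          * (β • 1 + T x' k (2 * m)))).trace
        + ((XR k b b x x' (2 * m + 1))ᵀ * ((β • 1 + T x k (2 * m + 1)) * XR k b b x x' (2 * m + 1)
          * (β • 1 + T x' k (2 * m + 1)))).trace)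
        + (2 * (β + τ) / β + 1 / 2) * (ip (d x (k + 1) m * XR (k + 1) b b x x' m)
            (d x (k + 1) m * XR (k + 1) b b x x' m)
          + ip (d x' (k + 1) m * XR (k + 1) b b x' x m)
            (d x' (k + 1) m * XR (k + 1) b b x' x m))
        + (β + τ) * (ip (e x (k + 1) m * XR (k + 1) b b x x' m) (XR (k + 1) b b x x' m)
          + ip (e x' (k + 1) m * XR (k + 1) b b x' x m) (XR (k + 1) b b x' x m)) := by
    intro x x'
    have eh := XR_half k b b x x' m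
    have p0 := h.psd x k (2 * m)
    have p1 := h.psd x k (2 * m + 1)
    have p0' := h.psd x' k (2 * m)
    have p1' := h.psd x' k (2 * m + 1)
    rw [h.left _ k m hk] at p0 p0'
    rw [h.right _ k m hk] at p1 p1'
    have q := node_ownT hβ (h.symD x hk m) (h.symD x' hk m) (h.pe x (k + 1) m)
      (h.pe x' (k + 1) m) p0 p1 p0' p1' (h.le x (k + 1) m) (h.le x' (k + 1) m)
      (XR (k + 1) b b x x' m)
      ((1 / 2 : ℝ) • (XR k b b x x' (2 * m) - XR k b b x x' (2 * m + 1)))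
    rw [eh.1, eh.2, ← h.left x k m hk, ← h.right x k m hk, ← h.left x' k m hk,
      ← h.right x' k m hk] at q
    have t1 : ip (XR (k + 1) b b x x' m * d x' (k + 1) m) (XR (k + 1) b b x x' m * d x' (k + 1) m)
        = ip (d x' (k + 1) m * XR (k + 1) b b x' x m) (d x' (k + 1) m * XR (k + 1) b b x' x m) := by
      rw [← ip_transpose, transpose_mul, XR_transpose, h.symD x' hk]
    have t2 : ip (XR (k + 1) b b x x' m * e x' (k + 1) m) (XR (k + 1) b b x x' m)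
        = ip (e x' (k + 1) m * XR (k + 1) b b x' x m) (XR (k + 1) b b x' x m) := by
      rw [← ip_transpose, transpose_mul, XR_transpose, h.symE]
    rw [t1, t2] at q
    rw [tr, tr, tr]
    exact q
  unfold QT dT
  rw [tr_QW, tr_QW, tr_QW]
  set f : ℤ → ℤ → ℝ := fun x x' => ip (d x (k + 1) m * XR (k + 1) b b x x' m)
    (d x (k + 1) m * XR (k + 1) b b x x' m) with hf
  set g : ℤ → ℤ → ℝ := fun x x' => ip (e x (k + 1) m * XR (k + 1) b b x x' m)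
    (XR (k + 1) b b x x' m) with hg
  have s1 : ∑ x ∈ iv a n, ∑ x' ∈ iv a n, f x' x = ∑ x ∈ iv a n, ∑ x' ∈ iv a n, f x x' :=
    Finset.sum_comm
  have s2 : ∑ x ∈ iv a n, ∑ x' ∈ iv a n, g x' x = ∑ x ∈ iv a n, ∑ x' ∈ iv a n, g x x' :=
    Finset.sum_comm
  have hs := Finset.sum_le_sum fun x (_ : x ∈ iv a n) => Finset.sum_le_sum
    fun x' (_ : x' ∈ iv a n) => key x x'
  simp only [Finset.sum_add_distrib, ← Finset.mul_sum] at hs
  have hs2 := mul_le_mul_of_nonneg_left hs (show (0 : ℝ) ≤ ((2 : ℝ) ^ a * 2 ^ a)⁻¹ by positivity)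
  refine hs2.trans (le_of_eq ?_)
  have s1' : ∑ x ∈ iv a n, ∑ x' ∈ iv a n,
      ip (d x' (k + 1) m * XR (k + 1) b b x' x m) (d x' (k + 1) m * XR (k + 1) b b x' x m)
      = ∑ x ∈ iv a n, ∑ x' ∈ iv a n, f x x' := s1
  have s2' : ∑ x ∈ iv a n, ∑ x' ∈ iv a n,
      ip (e x' (k + 1) m * XR (k + 1) b b x' x m) (XR (k + 1) b b x' x m)
      = ∑ x ∈ iv a n, ∑ x' ∈ iv a n, g x x' := s2
  rw [s1', s2']
  have s3 : ∑ x ∈ iv a n, ∑ x' ∈ iv a n, ((4 * (β + τ) / β + 1) * f x x' + 2 * (β + τ) * g x x')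
      = (4 * (β + τ) / β + 1) * ∑ x ∈ iv a n, ∑ x' ∈ iv a n, f x x'
        + 2 * (β + τ) * ∑ x ∈ iv a n, ∑ x' ∈ iv a n, g x x' := by
    simp only [Finset.sum_add_distrib, ← Finset.mul_sum]
  rw [s3]
  ring

omit [DecidableEq κ] in
/-- energies per row and cell: the bound of the defect -/
theorem dT_le {β τ s2 : ℝ} (hβ : 0 < β) (hτ : 0 ≤ τ) {e d : ℤ → ℕ → ℤ → Matrix κ κ ℝ}
    (he : ∀ x k m, (e x k m).PosSemidef)
    (b : ℤ → ℤ → κ → ℝ) {k a : ℕ} {n m : ℤ} (hc : Cap s2 b a k n m) :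
    dT β τ b e d k a n m ≤ ((2 : ℝ) ^ a)⁻¹ * s2 * ∑ x ∈ iv a n,
      ((4 * (β + τ) / β + 1) * en2 (d x k m) b x k m + 2 * (β + τ) * en1 (e x k m) b x k m) := by
  unfold dT
  have h1 : ∀ x ∈ iv a n, ∑ x' ∈ iv a n,
      ((4 * (β + τ) / β + 1) * ip (d x k m * XR k b b x x' m) (d x k m * XR k b b x x' m)
        + 2 * (β + τ) * ip (e x k m * XR k b b x x' m) (XR k b b x x' m))
      ≤ (2 : ℝ) ^ a * s2 * ((4 * (β + τ) / β + 1) * en2 (d x k m) b x k m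
        + 2 * (β + τ) * en1 (e x k m) b x k m) := by
    intro x _
    rw [Finset.sum_add_distrib, ← Finset.mul_sum, ← Finset.mul_sum]
    have e1 := ip_LXR_le (d x k m) b b hc x
    have e2 := ip_eXR_le (he x k m) b b hc x
    have c1 : 0 ≤ 4 * (β + τ) / β + 1 := by positivity
    have e3 := mul_le_mul_of_nonneg_left e1 c1
    have e4 := mul_le_mul_of_nonneg_left e2 (show 0 ≤ 2 * (β + τ) by positivity)
    linarith
  refine (mul_le_mul_of_nonneg_left (Finset.sum_le_sum h1) (by positivity)).trans (le_of_eq ?_)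
  rw [← Finset.mul_sum, mul_inv]
  have : (2 : ℝ) ^ a ≠ 0 := by positivity
  field_simp

/-- **own middle inequality**, energies; the defect does not depend on the outer scale `a` -/
theorem QT_own {β τ s2 : ℝ} (hβ : 0 < β) (hτ : 0 ≤ τ) {N : ℕ}
    {T e d : ℤ → ℕ → ℤ → Matrix κ κ ℝ} (h : Mt N τ T e d)
    {k : ℕ} (hk : k < N) (R₁ S : ℤ) {b : ℤ → ℤ → κ → ℝ} {a : ℕ} (ha : a ≤ N)
    (hc : ∀ n ∈ iv (N - a) R₁, ∀ m ∈ iv (N - (k + 1)) S, Cap s2 b a (k + 1) n m) :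
    EW N R₁ S (k + 1) (QT β b T (k + 1)) a ≤ EW N R₁ S k (QT β b T k) a
      + s2 * ((4 * (β + τ) / β + 1) * e1 N R₁ S b d (k + 1)
        + 2 * (β + τ) * f1 N R₁ S b e (k + 1)) := by
  have q := EW_mid hk (R := R₁) (S := S) (P := QT β b T k) (P' := QT β b T (k + 1)) (a := a)
    (d := fun n m => dT β τ b e d (k + 1) a n m) (fun n m => QT_own_pt hβ h hk b a n m)
  refine q.trans (add_le_add_right ?_ _)
  have q2 : ∑ m ∈ iv (N - (k + 1)) S, ∑ n ∈ iv (N - a) R₁, dT β τ b e d (k + 1) a n m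
      ≤ ∑ m ∈ iv (N - (k + 1)) S, ∑ n ∈ iv (N - a) R₁, ((2 : ℝ) ^ a)⁻¹ * s2 * ∑ x ∈ iv a n,
      ((4 * (β + τ) / β + 1) * en2 (d x (k + 1) m) b x (k + 1) m
        + 2 * (β + τ) * en1 (e x (k + 1) m) b x (k + 1) m) :=
    Finset.sum_le_sum fun m hm => Finset.sum_le_sum fun n hn => dT_le hβ hτ h.pe b (hc n hn m hm)
  refine (mul_le_mul_of_nonneg_left q2 (by positivity)).trans (le_of_eq ?_)
  have z0 := sum_en2 ha (show k + 1 ≤ N from hk) R₁ S (fun x m => d x (k + 1) m) b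
  have z1 := sum_en1 ha (show k + 1 ≤ N from hk) R₁ S (fun x m => e x (k + 1) m) b
  unfold e1 f1
  rw [← z0, ← z1]
  simp only [Finset.sum_add_distrib, ← Finset.mul_sum, mul_add]
  have h2 : (2 : ℝ) ^ a ≠ 0 := by positivity
  field_simp

/-- gain of the pair `A`, `b` with the weight `β + T` -/
def gT (β : ℝ) (A : ℤ → ℤ → ℝ) (b : ℤ → ℤ → κ → ℝ) (T e : ℤ → ℕ → ℤ → Matrix κ κ ℝ) (k : ℕ)
    (n n' m : ℤ) : ℝ :=
  ((2 : ℝ) ^ k * 2 ^ k)⁻¹ * ∑ z ∈ iv k n, ∑ x ∈ iv k n',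
    ((β / 2) * (H483.hd (qK A b z x) k m ⬝ᵥ H483.hd (qK A b z x) k m)
      + H483.hd (qK A b z x) k m ⬝ᵥ (T x k m - e x k m) *ᵥ H483.hd (qK A b z x) k m)

/-- defect of the pair `A`, `b` with the weight `β + T` -/
def xT (β : ℝ) (A : ℤ → ℤ → ℝ) (b : ℤ → ℤ → κ → ℝ) (e d : ℤ → ℕ → ℤ → Matrix κ κ ℝ) (k : ℕ)
    (n n' m : ℤ) : ℝ :=
  ((2 : ℝ) ^ k * 2 ^ k)⁻¹ * ∑ z ∈ iv k n, ∑ x ∈ iv k n',
    ((2 / β) * ((d x k m *ᵥ qK A b z x k m) ⬝ᵥ (d x k m *ᵥ qK A b z x k m))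
      + qK A b z x k m ⬝ᵥ e x k m *ᵥ qK A b z x k m)

/-- **middle inequality with gain and defect**, pointwise -/
theorem QT_mid {β τ : ℝ} (hβ : 0 < β) {N : ℕ} {T e d : ℤ → ℕ → ℤ → Matrix κ κ ℝ}
    (h : Mt N τ T e d) {k : ℕ} (hk : k < N) (A : ℤ → ℤ → ℝ) (b : ℤ → ℤ → κ → ℝ) (n n' m : ℤ) :
    (PA A (k + 1) (k + 1) n m * QT β b T (k + 1) (k + 1) n' m).trace
        + (gT β A b T e (k + 1) n n' m - xT β A b e d (k + 1) n n' m)
      ≤ (1 / 2) * ((PA A k (k + 1) n (2 * m) * QT β b T k (k + 1) n' (2 * m)).trace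
        + (PA A k (k + 1) n (2 * m + 1) * QT β b T k (k + 1) n' (2 * m + 1)).trace) := by
  unfold PA QT gT xT
  rw [tr_Xg_QW, tr_Xg_QW, tr_Xg_QW]
  have key : ∀ z x, qK A b z x (k + 1) m ⬝ᵥ (β • 1 + T x (k + 1) m) *ᵥ qK A b z x (k + 1) m
      + ((β / 2) * (H483.hd (qK A b z x) (k + 1) m ⬝ᵥ H483.hd (qK A b z x) (k + 1) m)
        + H483.hd (qK A b z x) (k + 1) m ⬝ᵥ (T x (k + 1) m - e x (k + 1) m) *ᵥ
          H483.hd (qK A b z x) (k + 1) m)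
      ≤ (1 / 2) * (qK A b z x k (2 * m) ⬝ᵥ (β • 1 + T x k (2 * m)) *ᵥ qK A b z x k (2 * m)
        + qK A b z x k (2 * m + 1) ⬝ᵥ (β • 1 + T x k (2 * m + 1)) *ᵥ qK A b z x k (2 * m + 1))
      + ((2 / β) * ((d x (k + 1) m *ᵥ qK A b z x (k + 1) m) ⬝ᵥ
        (d x (k + 1) m *ᵥ qK A b z x (k + 1) m))
      + qK A b z x (k + 1) m ⬝ᵥ e x (k + 1) m *ᵥ qK A b z x (k + 1) m) := by
    intro z x
    have q := node_midT hβ (h.symT x (k + 1) m) (h.symE x (k + 1) m) (h.symD x hk m)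
      (qK A b z x (k + 1) m) (H483.hd (qK A b z x) (k + 1) m)
    have e := H483.half_vec (qK A b z x k (2 * m)) (qK A b z x k (2 * m + 1))
    rw [← qK_step] at e
    have e1 : qK A b z x (k + 1) m + H483.hd (qK A b z x) (k + 1) m = qK A b z x k (2 * m) := e.1
    have e2 : qK A b z x (k + 1) m - H483.hd (qK A b z x) (k + 1) m = qK A b z x k (2 * m + 1) :=
      e.2
    rw [e1, e2, ← h.left x k m hk, ← h.right x k m hk] at q
    exact q
  have hs := Finset.sum_le_sum fun z (_ : z ∈ iv (k + 1) n) => Finset.sum_le_sum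
    fun x (_ : x ∈ iv (k + 1) n') => key z x
  have hs2 := mul_le_mul_of_nonneg_left hs
    (show (0 : ℝ) ≤ ((2 : ℝ) ^ (k + 1) * 2 ^ (k + 1))⁻¹ by positivity)
  simp only [Finset.sum_add_distrib, ← Finset.mul_sum, mul_add] at hs2 ⊢
  linarith

omit [DecidableEq κ] in
/-- bound of the defect on the plane -/
theorem GW_xT_le {β t2 : ℝ} (hβ : 0 < β) (ht : 0 ≤ t2) {N : ℕ} {R₁ S T₁ : ℤ} {k : ℕ} (hk : k ≤ N)
    (c : ℤ) {A : ℤ → ℤ → ℝ} (b : ℤ → ℤ → κ → ℝ) {e d : ℤ → ℕ → ℤ → Matrix κ κ ℝ}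
    (he : ∀ x k m, (e x k m).PosSemidef)
    (hA : ∀ n ∈ iv (N - k) R₁, ∀ m ∈ iv (N - k) S, Cap t2 (un A) k k n m) :
    GW N R₁ S T₁ k c (xT β A b e d k)
      ≤ t2 * ((2 / β) * e1 N T₁ S b d k + f1 N T₁ S b e k) := by
  set w : ℤ → ℤ → ℝ := fun n' m => ∑ x ∈ iv k n',
    ((2 / β) * en2 (d x k m) b x k m + en1 (e x k m) b x k m) with hw
  have w0 : ∀ n' m, 0 ≤ w n' m := fun n' m => Finset.sum_nonneg fun x _ =>
    add_nonneg (mul_nonneg (by positivity) (en2_nonneg ..)) (en1_nonneg (he x k m) ..)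
  have h1 : ∀ n ∈ iv (N - k) R₁, ∀ m ∈ iv (N - k) S, ∀ n',
      xT β A b e d k n n' m ≤ ((2 : ℝ) ^ k)⁻¹ * t2 * w n' m := by
    intro n hn m hm n'
    unfold xT
    rw [Finset.sum_comm]
    have h2 : ∀ x ∈ iv k n', ∑ z ∈ iv k n,
        ((2 / β) * ((d x k m *ᵥ qK A b z x k m) ⬝ᵥ (d x k m *ᵥ qK A b z x k m))
        + qK A b z x k m ⬝ᵥ e x k m *ᵥ qK A b z x k m)
        ≤ (2 : ℝ) ^ k * t2 * ((2 / β) * en2 (d x k m) b x k m + en1 (e x k m) b x k m) := by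
      intro x _
      rw [Finset.sum_add_distrib, ← Finset.mul_sum]
      have e1 := Lq_le (d x k m) A b (hA n hn m hm) x
      have e2 := eq_le (he x k m) A b (hA n hn m hm) x
      have e3 := mul_le_mul_of_nonneg_left e1 (show 0 ≤ 2 / β by positivity)
      linarith
    refine (mul_le_mul_of_nonneg_left (Finset.sum_le_sum h2) (by positivity)).trans (le_of_eq ?_)
    rw [← Finset.mul_sum, mul_inv, hw]
    have : (2 : ℝ) ^ k ≠ 0 := by positivity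
    field_simp
  unfold GW
  have h3 : ∑ m ∈ iv (N - k) S, ∑ n ∈ iv (N - k) R₁,
      (if c - m - n ∈ iv (N - k) T₁ then xT β A b e d k n (c - m - n) m else 0)
      ≤ ∑ m ∈ iv (N - k) S, ∑ n' ∈ iv (N - k) T₁, ((2 : ℝ) ^ k)⁻¹ * t2 * w n' m := by
    refine Finset.sum_le_sum fun m hm => ?_
    have h4 := H588.sum_refl_le (N - k) R₁ T₁ (c - m) (fun n' => ((2 : ℝ) ^ k)⁻¹ * t2 * w n' m)
      (fun n' => mul_nonneg (by positivity) (w0 n' m))
    refine le_trans (Finset.sum_le_sum fun n hn => ?_) h4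
    split_ifs with hc
    · exact h1 n hn m hm _
    · exact le_rfl
  refine (mul_le_mul_of_nonneg_left h3 (by positivity)).trans (le_of_eq ?_)
  have z0 := sum_en2 hk hk T₁ S (fun x m => d x k m) b
  have z1 := sum_en1 hk hk T₁ S (fun x m => e x k m) b
  unfold e1 f1
  rw [← z0, ← z1, hw]
  simp only [Finset.sum_add_distrib, ← Finset.mul_sum, mul_add]
  have h4 : (4 : ℝ) ^ k = 2 ^ k * 2 ^ k := by rw [← mul_pow]; norm_num
  have : (2 : ℝ) ^ k ≠ 0 := by positivity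
  rw [h4]
  field_simp


/-! ### Totals -/

/-- END value of the own energy -/
theorem EW_endT {β τ s2 : ℝ} (hβ : 0 < β) (hτ : 0 ≤ τ) {N : ℕ} {T e d : ℤ → ℕ → ℤ → Matrix κ κ ℝ}
    (h : Mt N τ T e d) (R₁ S : ℤ)
    {b : ℤ → ℤ → κ → ℝ} (hb : ∀ x ∈ iv N R₁, ∀ y ∈ iv N S, b x y ⬝ᵥ b x y ≤ s2) :
    EW N R₁ S 0 (QT β b T 0) 0 ≤ s2 * ((β + τ) * (β * ∑ x ∈ iv N R₁, ∑ y ∈ iv N S, b x y ⬝ᵥ b x y
      + ∑ x ∈ iv N R₁, ∑ y ∈ iv N S, b x y ⬝ᵥ T x 0 y *ᵥ b x y)) := by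
  have h0 : ∀ x y, (QT β b T 0 0 x y * QT β b T 0 0 x y).trace
      = (β * (b x y ⬝ᵥ b x y) + b x y ⬝ᵥ T x 0 y *ᵥ b x y) ^ 2 := by
    intro x y
    have hx : iv 0 x = {x} := by
      unfold iv
      ext z
      simp only [pow_zero, one_mul, mem_Ico, mem_singleton]
      omega
    have hv : ∀ j : Ix 0, ((val 0 j : ℕ) : ℤ) = 0 := by
      intro j
      have := Vale.Agent.P075.val_lt 0 j
      simp only [pow_zero] at this
      omega
    have hq : ∀ j j' : Ix 0, QT β b T 0 0 x y j j'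
        = β * (b x y ⬝ᵥ b x y) + b x y ⬝ᵥ T x 0 y *ᵥ b x y := by
      intro j j'
      unfold QT QW
      rw [hx, Finset.sum_singleton, hv, hv]
      simp [add_mulVec, smul_mulVec]
    have hu : (Finset.univ : Finset (Ix 0)).card = 1 := by
      rfl
    simp only [trace, diag_apply, mul_apply, hq, Finset.sum_const, hu, one_smul]
    ring
  unfold EW
  simp only [Nat.sub_zero, pow_zero, one_mul]
  rw [Finset.sum_comm]
  have h1 : ∀ x ∈ iv N R₁, ∀ y ∈ iv N S, (QT β b T 0 0 x y * QT β b T 0 0 x y).trace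
      ≤ s2 * ((β + τ) * (β * (b x y ⬝ᵥ b x y) + b x y ⬝ᵥ T x 0 y *ᵥ b x y)) := by
    intro x hx y hy
    rw [h0]
    have a1 := hb x hx y hy
    have a2 := dp_nonneg (b x y)
    have a3 : 0 ≤ b x y ⬝ᵥ T x 0 y *ᵥ b x y := by
      simpa using (h.psd x 0 y).dotProduct_mulVec_nonneg (b x y)
    have a4 : 0 ≤ τ * (b x y ⬝ᵥ b x y) - b x y ⬝ᵥ T x 0 y *ᵥ b x y := by
      have := (h.le x 0 y).dotProduct_mulVec_nonneg (b x y)
      simpa [sub_mulVec, smul_mulVec] using this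
    have p0 : 0 ≤ β * (b x y ⬝ᵥ b x y) + b x y ⬝ᵥ T x 0 y *ᵥ b x y :=
      add_nonneg (mul_nonneg hβ.le a2) a3
    have p1 : β * (b x y ⬝ᵥ b x y) + b x y ⬝ᵥ T x 0 y *ᵥ b x y ≤ s2 * (β + τ) := by
      have := mul_le_mul_of_nonneg_left a1 (show 0 ≤ β + τ by positivity)
      linarith
    rw [pow_two]
    refine (mul_le_mul_of_nonneg_right p1 p0).trans (le_of_eq ?_)
    ring
  refine (Finset.sum_le_sum fun x hx => Finset.sum_le_sum fun y hy => h1 x hx y hy).trans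
    (le_of_eq ?_)
  simp only [Finset.sum_add_distrib, ← Finset.mul_sum]

/-- **pair `A`, `b` with the weight `β + T`, time dependent slots** (`A k`, `b k` at scale `k`;
changes `x`) -/
theorem pairT_chg {β τ s2 t2 : ℝ} (hβ : 0 < β) (hτ : 0 ≤ τ) (hs : 0 ≤ s2) (ht : 0 ≤ t2)
    {k₀ N : ℕ} (hkN : k₀ ≤ N) {R₁ S T₁ : ℤ} {c : ℕ → ℤ} (hc : H588.Pl c)
    {T e d : ℤ → ℕ → ℤ → Matrix κ κ ℝ} (h : Mt N τ T e d)
    (A : ℕ → ℤ → ℤ → ℝ) (b : ℕ → ℤ → ℤ → κ → ℝ) (x : ℕ → ℝ)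
    (hA : ∀ k, k₀ ≤ k → k < N → ∀ n ∈ iv (N - (k + 1)) R₁, ∀ m ∈ iv (N - (k + 1)) S,
      Cap t2 (un (A (k + 1))) (k + 1) (k + 1) n m)
    (hb : ∀ k, k₀ ≤ k → k < N → ∀ a, k + 1 ≤ a → a ≤ N → ∀ n ∈ iv (N - a) T₁,
      ∀ m ∈ iv (N - (k + 1)) S, Cap s2 (b (k + 1)) a (k + 1) n m)
    (hx : ∀ k, k₀ ≤ k → k < N →
      MW N R₁ S T₁ k (c k) (PA (A (k + 1)) k k) (QT β (b (k + 1)) T k k)
      + 9 * (WW N k (EW N R₁ S k (PA (A (k + 1)) k)) + WW N k (EW N T₁ S k (QT β (b (k + 1)) T k)))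
      ≤ MW N R₁ S T₁ k (c k) (PA (A k) k k) (QT β (b k) T k k)
      + 9 * (WW N k (EW N R₁ S k (PA (A k) k)) + WW N k (EW N T₁ S k (QT β (b k) T k))) + x k) :
    ∑ k ∈ Ico k₀ N, GW N R₁ S T₁ (k + 1) (c (k + 1)) (gT β (A (k + 1)) (b (k + 1)) T e (k + 1))
      ≤ 37 * (EW N R₁ S k₀ (PA (A k₀) k₀) k₀ + EW N T₁ S k₀ (QT β (b k₀) T k₀) k₀)
        + ∑ k ∈ Ico k₀ N, x k
        + ∑ k ∈ Ico k₀ N, t2 * ((2 / β) * e1 N T₁ S (b (k + 1)) d (k + 1)
          + f1 N T₁ S (b (k + 1)) e (k + 1))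
        + 36 * ∑ k ∈ Ico k₀ N, s2 * ((4 * (β + τ) / β + 1) * e1 N T₁ S (b (k + 1)) d (k + 1)
          + 2 * (β + τ) * f1 N T₁ S (b (k + 1)) e (k + 1)) := by
  set dd : ℕ → ℝ := fun k => s2 * ((4 * (β + τ) / β + 1) * e1 N T₁ S (b (k + 1)) d (k + 1)
          + 2 * (β + τ) * f1 N T₁ S (b (k + 1)) e (k + 1)) with hdd
  have dd0 : ∀ k, 0 ≤ dd k := fun k => mul_nonneg hs (add_nonneg
    (mul_nonneg (by positivity) (e1_nonneg _ _ _ _ _ _))
    (mul_nonneg (by positivity) (f1_nonneg h.pe _ _ _ _ _)))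
  have ht' := totalW hkN hc (R := R₁) (S := S) (T := T₁)
    (P := fun k => PA (A k) k) (P' := fun k => PA (A (k + 1)) k)
    (Q := fun k => QT β (b k) T k) (Q' := fun k => QT β (b (k + 1)) T k)
    (g := fun k n n' m => gT β (A (k + 1)) (b (k + 1)) T e (k + 1) n n' m
      - xT β (A (k + 1)) (b (k + 1)) e d (k + 1) n n' m)
    (dE := fun _ _ => 0) (dF := fun k _ => dd k) (x := x)
    (fun k _ _ => PA_out N k (A k)) (fun k _ _ => QT_out N k β (b k) T)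
    (fun k _ _ => PA_out N k (A (k + 1))) (fun k _ _ => QT_out N k β (b (k + 1)) T)
    (fun k a n m => PA_symm (A k) k a n m) (fun k a n m => QT_symm hβ.le h (b k) k a n m)
    (fun k a n m => PA_symm (A (k + 1)) k a n m)
    (fun k a n m => QT_symm hβ.le h (b (k + 1)) k a n m)
    (fun k _ hk n n' m => QT_mid hβ h hk (A (k + 1)) (b (k + 1)) n n' m)
    (fun k _ hk a _ _ => by simpa using PA_own hk R₁ S (A (k + 1)) a)
    (fun k h1 h2 a h3 h4 => QT_own hβ hτ h h2 T₁ S h4 (hb k h1 h2 a h3 h4)) hx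
  have e1' : ∑ k ∈ Ico k₀ N, (WW N (k + 1) (fun _ => (0 : ℝ)) + WW N (k + 1) (fun _ => dd k))
      ≤ 4 * ∑ k ∈ Ico k₀ N, dd k := by
    rw [Finset.mul_sum]
    refine Finset.sum_le_sum fun k _ => ?_
    have z1 := WW_const (N := N) (k := k + 1) (d := 0) le_rfl
    have z2 := WW_const (N := N) (k := k + 1) (dd0 k)
    linarith
  have e2' : ∑ k ∈ Ico k₀ N, GW N R₁ S T₁ (k + 1) (c (k + 1))
        (fun n n' m => gT β (A (k + 1)) (b (k + 1)) T e (k + 1) n n' m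
          - xT β (A (k + 1)) (b (k + 1)) e d (k + 1) n n' m)
      = ∑ k ∈ Ico k₀ N, GW N R₁ S T₁ (k + 1) (c (k + 1))
          (gT β (A (k + 1)) (b (k + 1)) T e (k + 1))
        - ∑ k ∈ Ico k₀ N, GW N R₁ S T₁ (k + 1) (c (k + 1))
          (xT β (A (k + 1)) (b (k + 1)) e d (k + 1)) := by
    rw [← Finset.sum_sub_distrib]
    refine Finset.sum_congr rfl fun k _ => ?_
    unfold GW
    rw [← mul_sub, ← Finset.sum_sub_distrib]
    congr 1
    refine Finset.sum_congr rfl fun m _ => ?_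
    rw [← Finset.sum_sub_distrib]
    refine Finset.sum_congr rfl fun n _ => ?_
    split_ifs <;> ring
  have e3' : ∑ k ∈ Ico k₀ N, GW N R₁ S T₁ (k + 1) (c (k + 1))
          (xT β (A (k + 1)) (b (k + 1)) e d (k + 1))
      ≤ ∑ k ∈ Ico k₀ N, t2 * ((2 / β) * e1 N T₁ S (b (k + 1)) d (k + 1)
          + f1 N T₁ S (b (k + 1)) e (k + 1)) :=
    Finset.sum_le_sum fun k hk => GW_xT_le hβ ht (by have := mem_Ico.1 hk; omega) _ _ h.pe
      (hA k (mem_Ico.1 hk).1 (mem_Ico.1 hk).2)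
  rw [e2'] at ht'
  linarith

/-- **pair `A`, `b` with the weight `β + T`, static slots, product form** -/
theorem pairT_sqrt {β τ s2 t2 : ℝ} (hβ : 0 < β) (hτ : 0 ≤ τ) (hs : 0 ≤ s2) (ht : 0 ≤ t2)
    {k₀ N : ℕ} (hkN : k₀ ≤ N) {R₁ S T₁ : ℤ} {c : ℕ → ℤ} (hc : H588.Pl c)
    {T e d : ℤ → ℕ → ℤ → Matrix κ κ ℝ} (h : Mt N τ T e d)
    (A : ℤ → ℤ → ℝ) (b : ℤ → ℤ → κ → ℝ)
    (hA : ∀ k, k₀ ≤ k → k < N → ∀ n ∈ iv (N - (k + 1)) R₁, ∀ m ∈ iv (N - (k + 1)) S,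
      Cap t2 (un A) (k + 1) (k + 1) n m)
    (hb : ∀ k, k₀ ≤ k → k < N → ∀ a, k + 1 ≤ a → a ≤ N → ∀ n ∈ iv (N - a) T₁,
      ∀ m ∈ iv (N - (k + 1)) S, Cap s2 b a (k + 1) n m) :
    ∑ k ∈ Ico k₀ N, GW N R₁ S T₁ (k + 1) (c (k + 1)) (gT β A b T e (k + 1))
      ≤ 74 * √(EW N R₁ S k₀ (PA A k₀) k₀ * (EW N T₁ S k₀ (QT β b T k₀) k₀
          + ∑ k ∈ Ico k₀ N, s2 * ((4 * (β + τ) / β + 1) * e1 N T₁ S b d (k + 1)
          + 2 * (β + τ) * f1 N T₁ S b e (k + 1))))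
        + ∑ k ∈ Ico k₀ N, t2 * ((2 / β) * e1 N T₁ S b d (k + 1) + f1 N T₁ S b e (k + 1)) := by
  set dd : ℕ → ℝ := fun k => s2 * ((4 * (β + τ) / β + 1) * e1 N T₁ S b d (k + 1)
          + 2 * (β + τ) * f1 N T₁ S b e (k + 1)) with hdd
  set G := ∑ k ∈ Ico k₀ N, GW N R₁ S T₁ (k + 1) (c (k + 1)) (gT β A b T e (k + 1)) with hG
  set X := EW N R₁ S k₀ (PA A k₀) k₀ with hX
  set Y := EW N T₁ S k₀ (QT β b T k₀) k₀ with hY
  set Z := ∑ k ∈ Ico k₀ N, t2 * ((2 / β) * e1 N T₁ S b d (k + 1) + f1 N T₁ S b e (k + 1)) with hZ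
  have dd0 : ∀ k, 0 ≤ dd k := fun k => mul_nonneg hs (add_nonneg
    (mul_nonneg (by positivity) (e1_nonneg _ _ _ _ _ _))
    (mul_nonneg (by positivity) (f1_nonneg h.pe _ _ _ _ _)))
  have X0 : 0 ≤ X := EW_nonneg (fun a n m => PA_symm A k₀ a n m) k₀
  have Y0 : 0 ≤ Y := EW_nonneg (fun a n m => QT_symm hβ.le h b k₀ a n m) k₀
  have key : ∀ μ : ℝ, 0 < μ → G - Z ≤ 37 * (μ ^ 2 * X + (μ⁻¹) ^ 2 * (Y + ∑ k ∈ Ico k₀ N, dd k)) := by
    intro μ hμ
    have ht' := totalW hkN hc (R := R₁) (S := S) (T := T₁)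
      (P := fun k a n m => μ • PA A k a n m) (P' := fun k a n m => μ • PA A k a n m)
      (Q := fun k a n m => μ⁻¹ • QT β b T k a n m) (Q' := fun k a n m => μ⁻¹ • QT β b T k a n m)
      (g := fun k n n' m => gT β A b T e (k + 1) n n' m - xT β A b e d (k + 1) n n' m)
      (dE := fun _ _ => 0) (dF := fun k _ => (μ⁻¹) ^ 2 * dd k) (x := fun _ => 0)
      (fun k _ _ => (PA_out N k A).smul μ) (fun k _ _ => (QT_out N k β b T).smul μ⁻¹)
      (fun k _ _ => (PA_out N k A).smul μ) (fun k _ _ => (QT_out N k β b T).smul μ⁻¹)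
      (fun k a n m => by rw [transpose_smul, PA_symm])
      (fun k a n m => by rw [transpose_smul, QT_symm hβ.le h])
      (fun k a n m => by rw [transpose_smul, PA_symm])
      (fun k a n m => by rw [transpose_smul, QT_symm hβ.le h])
      (fun k _ hk n n' m => by
        have := QT_mid hβ h hk A b n n' m
        simp only [Matrix.smul_mul, Matrix.mul_smul, smul_smul, inv_mul_cancel₀ hμ.ne',
          one_smul]
        exact this)
      (fun k _ hk a _ _ => by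
        simp only [EW_smul, add_zero]
        exact mul_le_mul_of_nonneg_left (PA_own hk R₁ S A a) (sq_nonneg _))
      (fun k h1 h2 a h3 h4 => by
        simp only [EW_smul, ← mul_add]
        exact mul_le_mul_of_nonneg_left (QT_own hβ hτ h h2 T₁ S h4 (hb k h1 h2 a h3 h4))
          (sq_nonneg _))
      (fun k h1 h2 => by simp)
    simp only [EW_smul, sum_const_zero, add_zero] at ht'
    have e1' : ∑ k ∈ Ico k₀ N, (WW N (k + 1) (fun _ => (0 : ℝ))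
        + WW N (k + 1) (fun _ => (μ⁻¹) ^ 2 * dd k)) ≤ 4 * ((μ⁻¹) ^ 2 * ∑ k ∈ Ico k₀ N, dd k) := by
      rw [Finset.mul_sum, Finset.mul_sum]
      refine Finset.sum_le_sum fun k _ => ?_
      have z1 := WW_const (N := N) (k := k + 1) (d := 0) le_rfl
      have z2 := WW_const (N := N) (k := k + 1) (mul_nonneg (sq_nonneg μ⁻¹) (dd0 k))
      linarith
    have e2' : ∑ k ∈ Ico k₀ N, GW N R₁ S T₁ (k + 1) (c (k + 1))
          (fun n n' m => gT β A b T e (k + 1) n n' m - xT β A b e d (k + 1) n n' m)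
        = G - ∑ k ∈ Ico k₀ N, GW N R₁ S T₁ (k + 1) (c (k + 1)) (xT β A b e d (k + 1)) := by
      rw [hG, ← Finset.sum_sub_distrib]
      refine Finset.sum_congr rfl fun k _ => ?_
      unfold GW
      rw [← mul_sub, ← Finset.sum_sub_distrib]
      congr 1
      refine Finset.sum_congr rfl fun m _ => ?_
      rw [← Finset.sum_sub_distrib]
      refine Finset.sum_congr rfl fun n _ => ?_
      split_ifs <;> ring
    have e3' : ∑ k ∈ Ico k₀ N, GW N R₁ S T₁ (k + 1) (c (k + 1)) (xT β A b e d (k + 1)) ≤ Z :=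
      Finset.sum_le_sum fun k hk => GW_xT_le hβ ht (by have := mem_Ico.1 hk; omega) _ _ h.pe
        (hA k (mem_Ico.1 hk).1 (mem_Ico.1 hk).2)
    rw [e2'] at ht'
    have e4' : 0 ≤ (μ⁻¹) ^ 2 * ∑ k ∈ Ico k₀ N, dd k :=
      mul_nonneg (sq_nonneg _) (Finset.sum_nonneg fun k _ => dd0 k)
    nlinarith [ht', e1', e3', e4']
  have r := opt_mul X0 (add_nonneg Y0 (Finset.sum_nonneg fun k _ => dd0 k))
    (show (0 : ℝ) < 37 by norm_num) key
  have e : (2 : ℝ) * 37 = 74 := by norm_num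
  rw [e] at r
  linarith

end gram

end

end Vale.Agent.P141.H419.MidB
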