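import Vale.Agent.P141.H505.Node

/-!
# P141, line (A): the middle step of a slot with a moving weight, all levels

Gram matrix `Cᵀ T C` with a positive definite weight `T`.  When the middle cell is halved, the
weights of the children are `T - E + M` and `T - E - M`, `E` positive semidefinite.  The energy
`SG` of all levels loses at most `64 (J+1)³ tr (Cᵀ M T⁻¹ M C) + (J+1) tr (Cᵀ E C)` and gains a
quarter of the column defects.
-/

namespace Vale.Agent.P141.H419.NodeW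

open Finset Matrix Vale.Agent.P075 Vale.Agent.P141.H505

noncomputable section

variable {n m : Type*} [Fintype n] [DecidableEq n] [Fintype m] [DecidableEq m]

/-- a positive semidefinite matrix with small trace is at most one -/
theorem one_sub_psd {X : Matrix n n ℝ} (hX : X.PosSemidef) (h : X.trace ≤ 1) :
    (1 - X).PosSemidef := by
  refine PosSemidef.of_dotProduct_mulVec_nonneg ?_ fun x => ?_
  · rw [IsHermitian, conjTranspose_eq_transpose_of_trivial, transpose_sub, transpose_one,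
      psd_isSymm hX]
  · obtain ⟨B, hBp, hBB⟩ := exists_sq hX
    have hB := psd_isSymm hBp
    have e0 : star x ⬝ᵥ (1 - X) *ᵥ x = x ⬝ᵥ x - (B *ᵥ x) ⬝ᵥ (B *ᵥ x) := by
      have e1 : x ⬝ᵥ X *ᵥ x = (B *ᵥ x) ⬝ᵥ (B *ᵥ x) := by
        rw [← hBB, ← mulVec_mulVec, dotProduct_mulVec x B, ← mulVec_transpose, hB]
      rw [star_trivial, sub_mulVec, one_mulVec, dotProduct_sub, e1]
    have e2 : X.trace = ∑ i, ∑ j, B i j ^ 2 := by
      have hXB : X = B * Bᵀ := by rw [hB, hBB]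
      rw [hXB]
      simp only [trace, diag_apply, Matrix.mul_apply, transpose_apply, pow_two]
    have e3 : (B *ᵥ x) ⬝ᵥ (B *ᵥ x) ≤ (∑ i, ∑ j, B i j ^ 2) * (x ⬝ᵥ x) := by
      have h1 : ∀ i, (B *ᵥ x) i * (B *ᵥ x) i ≤ (∑ j, B i j ^ 2) * (x ⬝ᵥ x) := by
        intro i
        have := Finset.sum_mul_sq_le_sq_mul_sq Finset.univ (fun j => B i j) x
        simpa only [mulVec, dotProduct, pow_two] using this
      simp only [dotProduct] at h1 ⊢
      rw [Finset.sum_mul]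
      exact Finset.sum_le_sum fun i _ => h1 i
    have e4 : 0 ≤ x ⬝ᵥ x := by
      simp only [dotProduct]
      exact Finset.sum_nonneg fun _ _ => mul_self_nonneg _
    rw [e0]
    rw [e2] at h
    nlinarith

section mid

variable {r : Matrix n n ℝ} (hr : rᵀ = r) (hr2 : r * r = 1)

/-- the Gram matrices `X` and `Z` of the two halves side by side, twice -/
def pin (r X Z : Matrix n n ℝ) : Matrix n n ℝ :=
  (1 / 2 : ℝ) • ((1 + r) * X * (1 + r)) + (1 / 2 : ℝ) • ((1 - r) * Z * (1 - r))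

theorem pin_smul (r X Z : Matrix n n ℝ) (c : ℝ) : pin r (c • X) (c • Z) = c • pin r X Z := by
  unfold pin
  simp only [Matrix.mul_smul, Matrix.smul_mul, smul_add, smul_smul, mul_comm c]

include hr in
theorem pin_psd {X Z : Matrix n n ℝ} (hX : X.PosSemidef) (hZ : Z.PosSemidef) :
    (pin r X Z).PosSemidef := by
  have s1 : (1 + r)ᵀ = 1 + r := by rw [transpose_add, transpose_one, hr]
  have s2 : (1 - r)ᵀ = 1 - r := by rw [transpose_sub, transpose_one, hr]
  exact ((psd_conj_symm hX s1).smul (by norm_num)).add ((psd_conj_symm hZ s2).smul (by norm_num))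

/-- both halves: even and odd part -/
theorem pin_eq (r X A F : Matrix n n ℝ) : pin r (X - F + A) (X - F - A)
    = (X + r * X * r) - (F + r * F * r) + (A * r + r * A) := by
  unfold pin
  have e : (1 + r) * (X - F + A) * (1 + r) + (1 - r) * (X - F - A) * (1 - r)
      = (2 : ℝ) • ((X + r * X * r) - (F + r * F * r) + (A * r + r * A)) := by
    rw [two_smul]
    noncomm_ring
  rw [← smul_add, e, smul_smul]
  norm_num

include hr hr2 in
/-- **Change of the weight in the middle step**, one level. -/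
theorem mid_changeW (C : Matrix m n ℝ) {S M E : Matrix m m ℝ} (hS : Sᵀ = S) (hSu : IsUnit S.det)
    (hM : Mᵀ = M) (hE : E.PosSemidef) (p0 : (S * S - E + M).PosSemidef)
    (p1 : (S * S - E - M).PosSemidef) :
    (1 / 2) * GX ((S * C)ᵀ * (S * C) + r * ((S * C)ᵀ * (S * C)) * r)
        + 2 * (((1 / 2 : ℝ) • (S⁻¹ * M * S⁻¹))ᵀ
          * (dY (S * C * (1 + r) * (S * C)ᵀ) (S * C * (1 - r) * (S * C)ᵀ)
          - hdiff (S * C * (1 + r) * (S * C)ᵀ) (S * C * (1 - r) * (S * C)ᵀ))).trace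
        - (Cᵀ * E * C).trace
      ≤ (1 / 2) * GX (pin r (Cᵀ * (S * S - E + M) * C) (Cᵀ * (S * S - E - M) * C)) := by
  set X : Matrix n n ℝ := (S * C)ᵀ * (S * C) with hXd
  have hX : X.PosSemidef := psd_transpose_mul (S * C)
  have hXb : (X + r * X * r).PosSemidef := hX.add (refl_psd hX hr)
  have q : ∀ {T : Matrix m m ℝ}, T.PosSemidef → (Cᵀ * T * C).PosSemidef := by
    intro T hT
    have := psd_conj hT Cᵀ
    rwa [transpose_transpose] at this
  have hZ := pin_psd hr (q p0) (q p1)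
  have ht := GX_tangent hXb hZ
  set W := phi (X + r * X * r) with hW
  have hWs : Wᵀ = W := phi_symm hXb
  have hWp : W.PosSemidef := phi_psd hXb
  have hW1 : (1 - W).PosSemidef := one_sub_phi_psd hXb
  have hrW : r * W * r = W := by
    rw [hW, ← phi_refl hXb hr hr2]
    congr 1
    rw [Matrix.mul_add, Matrix.add_mul]
    have : r * (r * X * r) * r = X := refl_refl hr2 _
    rw [this, add_comm]
  have hrW2 : W * r = r * W := by
    calc W * r = (r * W * r) * r := by rw [hrW]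
      _ = r * W * (r * r) := by simp only [Matrix.mul_assoc]
      _ = r * W := by rw [hr2, Matrix.mul_one]
  -- the increment
  have eX : Cᵀ * (S * S) * C = X := by
    rw [hXd, transpose_mul, hS]
    simp only [Matrix.mul_assoc]
  set F : Matrix n n ℝ := Cᵀ * E * C with hF
  set A : Matrix n n ℝ := Cᵀ * M * C with hA
  have e1 : Cᵀ * (S * S - E + M) * C = X - F + A := by
    rw [Matrix.mul_add, Matrix.mul_sub, Matrix.add_mul, Matrix.sub_mul, eX]
  have e2 : Cᵀ * (S * S - E - M) * C = X - F - A := by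
    rw [Matrix.mul_sub, Matrix.mul_sub, Matrix.sub_mul, Matrix.sub_mul, eX]
  rw [e1, e2, pin_eq] at ht
  rw [e1, e2, pin_eq]
  have e3 : X + r * X * r - (F + r * F * r) + (A * r + r * A) - (X + r * X * r)
      = (A * r + r * A) - (F + r * F * r) := by abel
  rw [e3, Matrix.mul_sub, trace_sub] at ht
  -- the part with a sign
  have hFp : F.PosSemidef := q hE
  have t1 : (W * (F + r * F * r)).trace = 2 * (W * F).trace := by
    have : (W * (r * F * r)).trace = (W * F).trace := by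
      calc (W * (r * F * r)).trace = ((W * r * F) * r).trace := by simp only [Matrix.mul_assoc]
        _ = (r * (W * r * F)).trace := trace_mul_comm _ _
        _ = ((r * W * r) * F).trace := by simp only [Matrix.mul_assoc]
        _ = (W * F).trace := by rw [hrW]
    rw [Matrix.mul_add, trace_add, this]; ring
  have t2 : (W * F).trace ≤ F.trace := by
    have := trace_mul_nonneg hW1 hFp
    rw [Matrix.sub_mul, Matrix.one_mul, trace_sub] at this
    linarith
  -- the first order term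
  have hf := mid_first hr hr2 (S * C)
  rw [← hXd, ← hW] at hf
  have hSi : S⁻¹ * S = 1 := nonsing_inv_mul S hSu
  have hSi2 : S * S⁻¹ = 1 := mul_nonsing_inv S hSu
  have sSi : (S⁻¹)ᵀ = S⁻¹ := by rw [transpose_nonsing_inv, hS]
  have t3 : (W * (A * r + r * A)).trace = 2 * (W * r * A).trace := by
    have : (W * (A * r)).trace = (W * r * A).trace := by
      calc (W * (A * r)).trace = ((W * A) * r).trace := by simp only [Matrix.mul_assoc]
        _ = (r * (W * A)).trace := trace_mul_comm _ _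
        _ = ((r * W) * A).trace := by simp only [Matrix.mul_assoc]
        _ = _ := by rw [hrW2]
    rw [Matrix.mul_add, trace_add, this, ← Matrix.mul_assoc W r A]; ring
  have t4 : (W * r * A).trace = ((S⁻¹ * M * S⁻¹) * (S * C * r * W * (S * C)ᵀ)).trace := by
    have e : (S⁻¹ * M * S⁻¹) * (S * C * r * W * (S * C)ᵀ)
        = S⁻¹ * (M * (C * r * W * Cᵀ) * S) := by
      rw [transpose_mul, hS]
      calc (S⁻¹ * M * S⁻¹) * (S * C * r * W * (Cᵀ * S))
          = S⁻¹ * M * (S⁻¹ * S) * C * r * W * Cᵀ * S := by simp only [Matrix.mul_assoc]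
        _ = _ := by rw [hSi, Matrix.mul_one]; simp only [Matrix.mul_assoc]
    have e' : (S⁻¹ * (M * (C * r * W * Cᵀ) * S)).trace = (M * (C * r * W * Cᵀ)).trace := by
      rw [trace_mul_comm, Matrix.mul_assoc, hSi2, Matrix.mul_one]
    rw [e, e', hA]
    calc (W * r * (Cᵀ * M * C)).trace = ((W * r * Cᵀ) * (M * C)).trace := by
          simp only [Matrix.mul_assoc]
      _ = ((M * C) * (W * r * Cᵀ)).trace := trace_mul_comm _ _
      _ = (M * (C * (W * r) * Cᵀ)).trace := by simp only [Matrix.mul_assoc]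
      _ = _ := by rw [hrW2]; simp only [Matrix.mul_assoc]
  have sE : ((1 / 2 : ℝ) • (S⁻¹ * M * S⁻¹))ᵀ = (1 / 2 : ℝ) • (S⁻¹ * M * S⁻¹) := by
    rw [transpose_smul, transpose_mul, transpose_mul, sSi, hM, Matrix.mul_assoc]
  rw [sE, ← hf, Matrix.smul_mul, trace_smul, smul_eq_mul, ← t4]
  rw [t1, t3] at ht
  linarith

include hr hr2 in
/-- **Node inequality with a moving weight, middle step, all levels.** -/
theorem SGw_mid (C : Matrix m n ℝ) {T M E : Matrix m m ℝ} (hT : T.PosDef) (hM : Mᵀ = M)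
    (hE : E.PosSemidef) (p0 : (T - E + M).PosSemidef) (p1 : (T - E - M).PosSemidef)
    {μ : ℝ} (hμ : 0 < μ) (J : ℕ) (hc : 2 * (μ / 4 ^ J) * (Cᵀ * T * C).trace ≤ 1) :
    SG μ J (Cᵀ * T * C) + (1 / 4) * SC μ J r (Cᵀ * T * C)
      ≤ (1 / 2) * SG μ J (pin r (Cᵀ * (T - E + M) * C) (Cᵀ * (T - E - M) * C))
        + 64 * ((J : ℝ) + 1) ^ 3 * (Cᵀ * (M * T⁻¹ * M) * C).trace
        + ((J : ℝ) + 1) * (Cᵀ * E * C).trace := by
  obtain ⟨S, hSp, hSS⟩ := exists_sq hT.posSemidef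
  have hS := psd_isSymm hSp
  have hSu : IsUnit S.det := by
    have h1 : 0 < T.det := hT.det_pos
    rw [← hSS, det_mul] at h1
    exact isUnit_iff_ne_zero.mpr (left_ne_zero_of_mul h1.ne')
  have sSi : (S⁻¹)ᵀ = S⁻¹ := by rw [transpose_nonsing_inv, hS]
  have hSi2 : S * S⁻¹ = 1 := mul_nonsing_inv S hSu
  have hTi : S⁻¹ * S⁻¹ = T⁻¹ := by rw [← hSS, Matrix.mul_inv_rev]
  have h4 : ∀ j : ℕ, 0 < μ / 4 ^ j := fun j => by positivity
  set C1 : Matrix m n ℝ := S * C with hC1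
  have eX : Cᵀ * T * C = C1ᵀ * C1 := by
    rw [hC1, transpose_mul, hS, ← hSS]
    simp only [Matrix.mul_assoc]
  set M5 : Matrix m m ℝ := (1 / 2 : ℝ) • (S⁻¹ * M * S⁻¹) with hM5
  have sM5 : M5ᵀ = M5 := by
    rw [hM5, transpose_smul, transpose_mul, transpose_mul, sSi, hM, Matrix.mul_assoc]
  have h0 := plus_psd hr hr2 C1
  have h1 := minus_psd hr hr2 C1
  have hX : (C1ᵀ * C1).PosSemidef := psd_transpose_mul C1
  set Y0 := C1 * (1 + r) * C1ᵀ with hY0
  set Y1 := C1 * (1 - r) * C1ᵀ with hY1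
  -- caps
  have tY : Y0.trace + Y1.trace = 2 * (C1ᵀ * C1).trace := by
    have : Y0 + Y1 = (2 : ℝ) • (C1 * C1ᵀ) := by
      rw [hY0, hY1]
      simp only [Matrix.mul_add, Matrix.mul_sub, Matrix.add_mul, Matrix.sub_mul, Matrix.mul_one,
        two_smul]
      abel
    rw [← trace_add, this, trace_smul, smul_eq_mul, trace_mul_comm]
  have n0 := h0.trace_nonneg
  have n1 := h1.trace_nonneg
  have c0 : (1 - (μ / 4 ^ J) • Y0).PosSemidef := by
    refine one_sub_psd (smul_psd h0 (h4 J).le) ?_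
    rw [trace_smul, smul_eq_mul]
    have : (μ / 4 ^ J) * Y0.trace ≤ (μ / 4 ^ J) * (2 * (Cᵀ * T * C).trace) := by
      refine mul_le_mul_of_nonneg_left ?_ (h4 J).le
      rw [eX]
      linarith
    linarith
  have c1 : (1 - (μ / 4 ^ J) • Y1).PosSemidef := by
    refine one_sub_psd (smul_psd h1 (h4 J).le) ?_
    rw [trace_smul, smul_eq_mul]
    have : (μ / 4 ^ J) * Y1.trace ≤ (μ / 4 ^ J) * (2 * (Cᵀ * T * C).trace) := by
      refine mul_le_mul_of_nonneg_left ?_ (h4 J).le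
      rw [eX]
      linarith
    linarith
  have sC : ∀ ν : ℝ, 0 < ν → (Real.sqrt ν • C1)ᵀ * (Real.sqrt ν • C1) = ν • (C1ᵀ * C1) := by
    intro ν hν
    rw [transpose_smul, Matrix.smul_mul, Matrix.mul_smul, smul_smul, Real.mul_self_sqrt hν.le]
  have sY0 : ∀ ν : ℝ, 0 < ν → (Real.sqrt ν • C1) * (1 + r) * (Real.sqrt ν • C1)ᵀ = ν • Y0 := by
    intro ν hν
    rw [transpose_smul, Matrix.mul_smul, Matrix.smul_mul, Matrix.smul_mul, smul_smul,
      Real.mul_self_sqrt hν.le]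
  have sY1 : ∀ ν : ℝ, 0 < ν → (Real.sqrt ν • C1) * (1 - r) * (Real.sqrt ν • C1)ᵀ = ν • Y1 := by
    intro ν hν
    rw [transpose_smul, Matrix.mul_smul, Matrix.smul_mul, Matrix.smul_mul, smul_smul,
      Real.mul_self_sqrt hν.le]
  have sG : ∀ (ν : ℝ) (Z : Matrix m m ℝ), 0 < ν →
      (Real.sqrt ν • C)ᵀ * Z * (Real.sqrt ν • C) = ν • (Cᵀ * Z * C) := by
    intro ν Z hν
    rw [transpose_smul, Matrix.mul_smul, Matrix.smul_mul, Matrix.smul_mul, smul_smul,
      Real.mul_self_sqrt hν.le]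
  have hF := first_le h0 h1 hμ J c0 c1 M5
    (fun j => (phi ((μ / 4 ^ j) • (C1ᵀ * C1)) * (r * phi ((μ / 4 ^ j) • (C1ᵀ * C1)) * r)).trace)
    (fun j => by
      have h := delt_le_cd hr hr2 (Real.sqrt (μ / 4 ^ j) • C1)
      rwa [sC _ (h4 j), sY0 _ (h4 j), sY1 _ (h4 j)] at h)
  have hw := wM_sq_le h0 h1 M5
  set PX := pin r (Cᵀ * (T - E + M) * C) (Cᵀ * (T - E - M) * C) with hPX
  -- one level
  have hl : ∀ j ∈ range (J + 1),
      (μ / 4 ^ j)⁻¹ * GX ((μ / 4 ^ j) • (C1ᵀ * C1))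
        + (1 / 2) * ((μ / 4 ^ j)⁻¹
          * (phi ((μ / 4 ^ j) • (C1ᵀ * C1)) * (r * phi ((μ / 4 ^ j) • (C1ᵀ * C1)) * r)).trace)
      ≤ (1 / 2) * ((μ / 4 ^ j)⁻¹ * GX ((μ / 4 ^ j) • PX))
        + |2 * (M5ᵀ * (dY Y0 Y1 - gL (μ / 4 ^ j) Y0 Y1)).trace| + (Cᵀ * E * C).trace := by
    intro j _
    have r1 := GX_pinch hr hr2 (smul_psd hX (h4 j).le)
    have r2 := mid_changeW hr hr2 (Real.sqrt (μ / 4 ^ j) • C) hS hSu hM hE
      (by rw [hSS]; exact p0) (by rw [hSS]; exact p1)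
    have eC : S * (Real.sqrt (μ / 4 ^ j) • C) = Real.sqrt (μ / 4 ^ j) • C1 := by
      rw [Matrix.mul_smul]
    rw [eC, sC _ (h4 j), sY0 _ (h4 j), sY1 _ (h4 j), sG _ _ (h4 j), sG _ _ (h4 j), sG _ _ (h4 j),
      pin_smul, hSS, ← hPX, ← hM5, trace_smul, smul_eq_mul] at r2
    have e3 := first_eq h0 h1 (h4 j) M5
    have hi : 0 ≤ (μ / 4 ^ j)⁻¹ := inv_nonneg.mpr (h4 j).le
    have r3 := mul_le_mul_of_nonneg_left (add_le_add r1 r2) hi
    have e4 := neg_abs_le (2 * (M5ᵀ * (dY Y0 Y1 - gL (μ / 4 ^ j) Y0 Y1)).trace)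
    rw [← e3] at e4 ⊢
    have e5 : (μ / 4 ^ j)⁻¹ * ((μ / 4 ^ j) * (Cᵀ * E * C).trace) = (Cᵀ * E * C).trace := by
      rw [← mul_assoc, inv_mul_cancel₀ (h4 j).ne', one_mul]
    nlinarith [r3, e4, e5]
  have hs := sum_le_sum hl
  simp only [sum_add_distrib, ← mul_sum] at hs
  rw [sum_const, card_range, nsmul_eq_mul] at hs
  push_cast at hs
  have hJ : (0 : ℝ) ≤ 64 * ((J : ℝ) + 1) ^ 3 := by positivity
  -- the weights
  have hb : (M5ᵀ * Y0 * M5).trace + (M5 * Y1 * M5ᵀ).trace = (1 / 2) * (Cᵀ * (M * T⁻¹ * M) * C).trace := by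
    have e1 : M5ᵀ * Y0 * M5 + M5 * Y1 * M5ᵀ = (2 : ℝ) • (M5 * (C1 * C1ᵀ) * M5) := by
      rw [hY0, hY1, sM5]
      simp only [Matrix.mul_add, Matrix.mul_sub, Matrix.add_mul, Matrix.sub_mul, Matrix.mul_one,
        Matrix.mul_assoc, two_smul]
      abel
    have e2 : M5 * (C1 * C1ᵀ) * M5 = (1 / 4 : ℝ) • (S⁻¹ * (M * C * (Cᵀ * M)) * S⁻¹) := by
      have e3 : S⁻¹ * M * S⁻¹ * (C1 * C1ᵀ) * (S⁻¹ * M * S⁻¹) = S⁻¹ * (M * C * (Cᵀ * M)) * S⁻¹ := by
        rw [hC1, transpose_mul, hS]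
        have hSi : S⁻¹ * S = 1 := nonsing_inv_mul S hSu
        calc S⁻¹ * M * S⁻¹ * (S * C * (Cᵀ * S)) * (S⁻¹ * M * S⁻¹)
            = S⁻¹ * M * (S⁻¹ * S) * C * Cᵀ * (S * S⁻¹) * M * S⁻¹ := by
              simp only [Matrix.mul_assoc]
          _ = _ := by rw [hSi, hSi2, Matrix.mul_one, Matrix.mul_one]; simp only [Matrix.mul_assoc]
      rw [hM5]
      simp only [Matrix.smul_mul, Matrix.mul_smul, smul_smul]
      rw [e3]
      norm_num
    rw [← trace_add, e1, e2, smul_smul, trace_smul, smul_eq_mul]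
    have e4 : (S⁻¹ * (M * C * (Cᵀ * M)) * S⁻¹).trace = (Cᵀ * (M * T⁻¹ * M) * C).trace := by
      calc (S⁻¹ * (M * C * (Cᵀ * M)) * S⁻¹).trace
          = ((S⁻¹ * (M * C)) * (Cᵀ * M * S⁻¹)).trace := by simp only [Matrix.mul_assoc]
        _ = ((Cᵀ * M * S⁻¹) * (S⁻¹ * (M * C))).trace := trace_mul_comm _ _
        _ = (Cᵀ * M * (S⁻¹ * S⁻¹) * M * C).trace := by simp only [Matrix.mul_assoc]
        _ = _ := by rw [hTi]; simp only [Matrix.mul_assoc]
    rw [e4]
    norm_num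
  rw [hb] at hw
  have hw2 := mul_le_mul_of_nonneg_left hw hJ
  have f1 : SG μ J (C1ᵀ * C1)
      = ∑ j ∈ range (J + 1), (μ / 4 ^ j)⁻¹ * GX ((μ / 4 ^ j) • (C1ᵀ * C1)) := rfl
  have f2 : SC μ J r (C1ᵀ * C1) = ∑ j ∈ range (J + 1), (μ / 4 ^ j)⁻¹
      * (phi ((μ / 4 ^ j) • (C1ᵀ * C1)) * (r * phi ((μ / 4 ^ j) • (C1ᵀ * C1)) * r)).trace := rfl
  have f3 : SG μ J PX = ∑ j ∈ range (J + 1), (μ / 4 ^ j)⁻¹ * GX ((μ / 4 ^ j) • PX) := rfl
  rw [← f1, ← f2, ← f3] at hs
  rw [← f2] at hF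
  rw [eX]
  linarith

end mid

end

end Vale.Agent.P141.H419.NodeW
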