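import Vale.Agent.P141.H222.NumOf
import Vale.Agent.P141.H581.FixBW
import Vale.Agent.P141.H329.WinS
import Vale.Agent.P141.H652.NumR
import Vale.Agent.P141.H652.NumQ
import Vale.Agent.P141.H74.CutBC
import Vale.Agent.P141.H302.BornU
import Vale.Agent.P141.H548.LagU
import Vale.Agent.P141.H989.CrB3

/-!
# P141, line (A), (TI), leaf `LBCg`: the pair `(Bg, Cg)` at one `x0`, class letters

`fE`, `fB` : the two numbers; `lBCg` : the leaf.
-/

set_option linter.unusedSectionVars false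

namespace Vale.Agent.P141.H419.PtX

open Finset Matrix
open Vale.Agent.P075 (Ix)
open Vale.Agent.P141.PL (Pt iv ix cx mem_iv)
open Vale.Agent.P141.PL.H315 (Tri)
open Vale.Agent.P141.H48 (US ES BSl)
open Vale.Agent.P141.H305 (ClsM kapM)
open Vale.Agent.P141.H401 (StQ FibU FibP cb)
open Vale.Agent.P141.H677 (rt KT cP)
open Vale.Agent.P141.H652 (Th ah eb wt_Th dB payS dB_nonneg payS_nonneg PbS)
open Vale.Agent.P141.H505.Sk1 (Ch eT)
open Vale.Agent.P141.H408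
open Vale.Agent.P141.H808 (thS cS)
open Vale.Agent.P141.H457 (rs SD PG)
open Vale.Agent.P141.H874 (CP sk)
open Vale.Agent.P141.H419.WFamR
open Vale.Agent.P141.H886 (NumF SumU NumBC pBC)
open Vale.Agent.P141.H912 (wS wS_mono wS_nonneg)
open Vale.Agent.P141.H548 (vN oN chg kinds)
open Vale.Agent.P141.H302 (bN Pr pr_not pr_ch tS)
open Vale.Agent.P141.H989.CrB (fCRB mB)

noncomputable section

open scoped Classical

/-- the number of the second slot -/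
def fE : NumF := fun ι _ _ p n ez F1 F2 F3 o K x s r U g u v Q1 Q2 Q3 x0 =>
  (((((∑ l ∈ range (K + 1), (3 / 4 : ℝ) ^ l *
        vN 0 l ι p n ez F1 F2 F3 o K x s r U g u v Q1 Q2 Q3 x0) +
      ∑ l ∈ range (K + 1), (3 / 4 : ℝ) ^ l *
        bN (l + 1) ι p n ez F1 F2 F3 o K x s r U g u v Q1 Q2 Q3 x0) +
    oN 0 ι p n ez F1 F2 F3 o K x s r U g u v Q1 Q2 Q3 x0) +
    vN 1 0 ι p n ez F1 F2 F3 o K x s r U g u v Q1 Q2 Q3 x0) +
    bN 0 ι p n ez F1 F2 F3 o K x s r U g u v Q1 Q2 Q3 x0) +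
    fCRB mB ι p n ez F1 F2 F3 o K x s r U g u v Q1 Q2 Q3 x0

/-- the number of the first slot -/
def fB : NumF := fun ι _ _ p n ez F1 F2 F3 o K x s r U g u v Q1 Q2 Q3 x0 =>
  dB p s r U K x u F3 Q3 x0 +
    payS (beI p r) (p.lam s r) o K (cx K x) u (fun k => H652.bS p s r U K u F3 Q3 x0 k) x0

/-- one lag -/
theorem sumL_one {σ : ℝ} {f : ℕ → NumF} (H : H886.SumL σ f) (l : ℕ) : SumU σ (f l) := by
  refine H886.PairU.map (M := 1) zero_le_one H ?_
  intro ι _ _ p n ez F1 F2 F3 o K x s r U g u v Q1 Q2 Q3 X ht hs hr hez hX h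
  rw [one_mul]
  exact h l

theorem fE_sum : SumU 1 fE :=
  SumU.add (SumU.add (SumU.add (SumU.add (SumU.add (H548.sumU_v (Nat.zero_le 1)) H302.sumU_b1)
    (sumL_one H548.sumL_o 0)) (sumL_one (H548.sumL_v le_rfl) 0)) H302.sumU_b0)
    H989.CrB.sumU_mB

theorem fB_sum : SumU (-1) fB := H652.EBU

section pt

variable {ι : Type} [Fintype ι] [DecidableEq ι] {p : H401.Num} {s r ez : ℝ} {o : ℤ} {K : ℕ}
  {x : Pt} {U : Tri} {u v : ℤ → ℤ → ι → ℝ} {F2 : ℕ → Pt → ℝ} {x0 : ℤ}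

/-- the drift of the weight -/
abbrev eS (p : H401.Num) (s r : ℝ) (o : ℤ) (K : ℕ) (x : Pt) (u : ℤ → ℤ → ι → ℝ) (x0 : ℤ) :
    ℕ → ℤ → ℤ → Matrix ι ι ℝ :=
  fun k x1 m => eb (p.lam s r) K (cx K x).2.1 (KT (p.lam s r) u x1) (o - 2) x0 x1 (k + 1) m

/-- the move of the weight -/
abbrev dS (p : H401.Num) (s r : ℝ) (o : ℤ) (K : ℕ) (x : Pt) (u : ℤ → ℤ → ι → ℝ) (x0 : ℤ) :
    ℕ → ℤ → ℤ → Matrix ι ι ℝ :=
  fun k x1 m => ah (p.lam s r) K (cx K x).2.1 (KT (p.lam s r) u x1) (o - 2) x0 x1 k m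

theorem hTS (ht : 0 < p.t) (hs : 0 < s) (hr : 1 ≤ r) (o : ℤ) (K : ℕ) (x : Pt)
    (u : ℤ → ℤ → ι → ℝ) (x0 : ℤ) :
    H419.Wt (tS p s r o K x u x0) (eS p s r o K x u x0) (dS p s r o K x u x0) :=
  wt_Th (fun x1 => H677.tr_T (H401.Num.lam_pos (p := p) ht hs hr) K u x1) (cx K x).2.1 (o - 2) x0

/-- moves and drifts of the lag `q`, time `k + j` -/
theorem num_v (ht : 0 < p.t) (ht1 : p.t ≤ 1) (he0 : 0 ≤ p.e0) (hs : 0 < s) (hr : 1 ≤ r)
    (j q : ℕ) (n : ℕ) (F1 F3 : ℕ → Pt → ℝ) (g : ℤ → ℤ → ℝ) (Q1 Q2 Q3 : ℕ → Pt → Prop) :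
    (beI p r)⁻¹ * ∑ k ∈ Ico 0 (K - q), Dn K (cx K x).2.2 (cx K x).1 (dS p s r o K x u x0)
        (cS p ez U K v F2 x0 (k + j)) (k + q)
      + (beI p r)⁻¹ * ∑ k ∈ Ico 0 (K - q), En K (cx K x).2.2 (cx K x).1 (eS p s r o K x u x0)
        (cS p ez U K v F2 x0 (k + j)) (k + q)
      ≤ vN j q ι p n ez F1 F2 F3 o K x s r U g u v Q1 Q2 Q3 x0 := by
  unfold vN
  rw [← range_eq_Ico, mul_sum, mul_sum, ← sum_add_distrib]
  refine sum_le_sum fun k _ => ?_
  unfold Dn En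
  rw [mul_sum, mul_sum, ← sum_add_distrib]
  refine sum_le_sum fun x1 _ => ?_
  rw [mul_sum, mul_sum, ← sum_add_distrib]
  refine sum_le_sum fun z _ => ?_
  have h1 := H548.raw_le (p := p) ht hs hr o K x u x0 (k + q) x1 z
    (cS p ez U K v F2 x0 (k + j) x1 z)
  have h2 : 0 ≤ kinds p s r o K x u x0 (k + q) x1 z (cS p ez U K v F2 x0 (k + j) x1 z) := by
    unfold H548.kinds
    exact add_nonneg (add_nonneg (add_nonneg (H548.zm_nonneg ht hs hr o K x u x0 _ x1 z _)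
      (H548.ze_nonneg ht hs hr o K x u x0 _ x1 z _)) (H548.zd_nonneg ht hs hr o K x u x0 _ x1 z _))
      (H548.zq_nonneg ht hs hr o K x u x0 _ x1 z _)
  linarith

theorem vN_nonneg (ht : 0 < p.t) (ht1 : p.t ≤ 1) (he0 : 0 ≤ p.e0) (hs : 0 < s) (hr : 1 ≤ r)
    (j q : ℕ) (n : ℕ) (F1 F3 : ℕ → Pt → ℝ) (g : ℤ → ℤ → ℝ) (Q1 Q2 Q3 : ℕ → Pt → Prop) :
    0 ≤ vN j q ι p n ez F1 F2 F3 o K x s r U g u v Q1 Q2 Q3 x0 := by
  have hbe : 0 < beI p r := Real.rpow_pos_of_pos (div_pos ht (by linarith)) _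
  refine le_trans (add_nonneg (mul_nonneg (inv_pos.2 hbe).le (sum_nonneg fun k _ =>
    Dn_nonneg _ _ _ _ _)) (mul_nonneg (inv_pos.2 hbe).le (sum_nonneg fun k _ =>
    En_nonneg (hTS ht hs hr o K x u x0).pe _ _ _ _ _))) (num_v (ez := ez) (U := U) (v := v)
    (F2 := F2) ht ht1 he0 hs hr j q n F1 F3 g Q1 Q2 Q3)

theorem bN_nonneg (ht : 0 < p.t) (hs : 0 < s) (hr : 1 ≤ r) (q : ℕ) (n : ℕ) (F1 F3 : ℕ → Pt → ℝ)
    (g : ℤ → ℤ → ℝ) (Q1 Q2 Q3 : ℕ → Pt → Prop) :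
    0 ≤ bN q ι p n ez F1 F2 F3 o K x s r U g u v Q1 Q2 Q3 x0 := by
  unfold bN
  refine sum_nonneg fun k _ => sum_nonneg fun x1 _ => sum_nonneg fun z _ => ?_
  split_ifs
  · exact H302.eT_nn ht hs hr _ _ _ _
  · exact le_rfl

theorem oN_nonneg (ht : 0 < p.t) (hs : 0 < s) (hr : 1 ≤ r) (q : ℕ) (n : ℕ) (F1 F3 : ℕ → Pt → ℝ)
    (g : ℤ → ℤ → ℝ) (Q1 Q2 Q3 : ℕ → Pt → Prop) :
    0 ≤ oN q ι p n ez F1 F2 F3 o K x s r U g u v Q1 Q2 Q3 x0 := by
  unfold oN
  exact sum_nonneg fun x1 _ => sum_nonneg fun z _ => H302.eT_nn ht hs hr _ _ _ _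

theorem fCRB_nonneg (ht : 0 < p.t) (hs : 0 < s) (hr : 1 ≤ r) (n : ℕ) (F1 F3 : ℕ → Pt → ℝ)
    (g : ℤ → ℤ → ℝ) (Q1 Q2 Q3 : ℕ → Pt → Prop) :
    0 ≤ fCRB mB ι p n ez F1 F2 F3 o K x s r U g u v Q1 Q2 Q3 x0 := by
  unfold fCRB
  refine sum_nonneg fun k _ => sum_nonneg fun x1 _ => sum_nonneg fun z _ => ?_
  split_ifs
  · exact H302.eT_nn (x := x) (o := o) (K := K) (u := u) (x0 := x0) ht hs hr _ _ _ _
  · exact le_rfl

end pt

set_option maxHeartbeats 1000000 in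
/-- **The numbers of the pair.** -/
theorem numBC : NumBC (18 * 120000) 2 := by
  refine H222.Of.numBC_of fE_sum fB_sum ?_
  intro ι _ _ p n ez F1 F2 F3 o K x s r U g u v Q1 Q2 Q3 ht ht1 he0 _ _ _ _ hd1 _ _ _ _ ho hKn hs
    hr hcls _ q2 q3 hez _ _
  have hr0 : 0 < r := by linarith
  have hbe : 0 < beI p r := Real.rpow_pos_of_pos (div_pos ht hr0) _
  have hbe1 : beI p r ≤ 1 := H548.beI_le_one ht ht1 he0.le hr
  have hl : 0 < p.lam s r := H401.Num.lam_pos (p := p) ht hs hr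
  have hth : 0 < p.th s r := H401.Num.th_pos (p := p) ht hs hr
  have hτ : 0 < tauI p s r := by
    unfold tauI
    linarith
  have nv := fun (x0 : ℤ) (j q : ℕ) => vN_nonneg (ez := ez) (o := o) (K := K) (x := x) (U := U)
    (u := u) (v := v) (F2 := F2) (x0 := x0) ht ht1 he0.le hs hr j q n F1 F3 g Q1 Q2 Q3
  have nb := fun (x0 : ℤ) (q : ℕ) => bN_nonneg (ez := ez) (o := o) (K := K) (x := x) (U := U)
    (u := u) (v := v) (F2 := F2) (x0 := x0) ht hs hr q n F1 F3 g Q1 Q2 Q3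
  have no := fun (x0 : ℤ) (q : ℕ) => oN_nonneg (ez := ez) (o := o) (K := K) (x := x) (U := U)
    (u := u) (v := v) (F2 := F2) (x0 := x0) ht hs hr q n F1 F3 g Q1 Q2 Q3
  have nc := fun (x0 : ℤ) => fCRB_nonneg (ez := ez) (o := o) (K := K) (x := x) (U := U)
    (u := u) (v := v) (F2 := F2) (x0 := x0) ht hs hr n F1 F3 g Q1 Q2 Q3
  have nwv : ∀ x0, 0 ≤ ∑ l ∈ range (K + 1), (3 / 4 : ℝ) ^ l *
        vN 0 l ι p n ez F1 F2 F3 o K x s r U g u v Q1 Q2 Q3 x0 := fun x0 =>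
    sum_nonneg fun l _ => mul_nonneg (by positivity) (nv x0 0 l)
  have nwb : ∀ x0, 0 ≤ ∑ l ∈ range (K + 1), (3 / 4 : ℝ) ^ l *
        bN (l + 1) ι p n ez F1 F2 F3 o K x s r U g u v Q1 Q2 Q3 x0 := fun x0 =>
    sum_nonneg fun l _ => mul_nonneg (by positivity) (nb x0 (l + 1))
  have hE0 : ∀ x0, 0 ≤ fE ι p n ez F1 F2 F3 o K x s r U g u v Q1 Q2 Q3 x0 := by
    intro x0
    have a1 := nwv x0
    have a2 := nwb x0
    have a3 := no x0 0
    have a4 := nv x0 1 0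
    have a5 := nb x0 0
    have a6 := nc x0
    unfold fE
    linarith
  have dB0 : ∀ x0, 0 ≤ dB p s r U K x u F3 Q3 x0 := fun x0 => dB_nonneg x x0
  have pS0 : ∀ x0, 0 ≤ payS (beI p r) (p.lam s r) o K (cx K x) u
      (fun k => H652.bS p s r U K u F3 Q3 x0 k) x0 := fun x0 => payS_nonneg hbe hl _
  have hB0 : ∀ x0, 0 ≤ fB ι p n ez F1 F2 F3 o K x s r U g u v Q1 Q2 Q3 x0 := fun x0 =>
    add_nonneg (dB0 x0) (pS0 x0)
  refine ⟨hE0, hB0, ?_⟩
  intro t _ x0 _ z J hz1 _ hJ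
  have hz : 0 < z := lt_of_lt_of_le (mul_pos (Real.rpow_pos_of_pos (div_pos ht hr0) _) hτ) hz1
  have hz2 : 0 < z ^ 2 := by positivity
  have hT := hTS ht hs hr o K x u x0
  have hT2 : ∀ k x1 m, ((2 : ℝ) • (1 : Matrix ι ι ℝ) - tS p s r o K x u x0 k x1 m).PosSemidef :=
    fun k x1 m => H652.Th_le_two (H677.tr_T hl K u x1) (o - 2) x0 x1 k m
  set E := fE ι p n ez F1 F2 F3 o K x s r U g u v Q1 Q2 Q3 x0 with hE
  set EB := fB ι p n ez F1 F2 F3 o K x s r U g u v Q1 Q2 Q3 x0 with hEB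
  have b1 := nwv x0
  have b2 := nwb x0
  have b3 := no x0 0
  have b4 := nv x0 1 0
  have b5 := nb x0 0
  have b6 := nc x0
  have hC : 2 * cCI p s r ^ 2 ≤ 4 ^ J * z ^ 2 := by
    nlinarith [sq_nonneg (cCI p s r)]
  have lv : ∀ j q, (beI p r)⁻¹ * ∑ k ∈ Ico 0 (K - q), Dn K (cx K x).2.2 (cx K x).1
        (dS p s r o K x u x0) (cS p ez U K v F2 x0 (k + j)) (k + q)
      ≤ vN j q ι p n ez F1 F2 F3 o K x s r U g u v Q1 Q2 Q3 x0 := by
    intro j q
    have h1 := num_v (ez := ez) (o := o) (K := K) (x := x) (U := U) (u := u) (v := v) (F2 := F2)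
      (x0 := x0) ht ht1 he0.le hs hr j q n F1 F3 g Q1 Q2 Q3
    have h2 : 0 ≤ (beI p r)⁻¹ * ∑ k ∈ Ico 0 (K - q), En K (cx K x).2.2 (cx K x).1
        (eS p s r o K x u x0) (cS p ez U K v F2 x0 (k + j)) (k + q) :=
      mul_nonneg (inv_pos.2 hbe).le (sum_nonneg fun k _ => En_nonneg hT.pe _ _ _ _ _)
    linarith
  have le : ∀ j q, (beI p r)⁻¹ * ∑ k ∈ Ico 0 (K - q), En K (cx K x).2.2 (cx K x).1
        (eS p s r o K x u x0) (cS p ez U K v F2 x0 (k + j)) (k + q)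
      ≤ vN j q ι p n ez F1 F2 F3 o K x s r U g u v Q1 Q2 Q3 x0 := by
    intro j q
    have h1 := num_v (ez := ez) (o := o) (K := K) (x := x) (U := U) (u := u) (v := v) (F2 := F2)
      (x0 := x0) ht ht1 he0.le hs hr j q n F1 F3 g Q1 Q2 Q3
    have h2 : 0 ≤ (beI p r)⁻¹ * ∑ k ∈ Ico 0 (K - q), Dn K (cx K x).2.2 (cx K x).1
        (dS p s r o K x u x0) (cS p ez U K v F2 x0 (k + j)) (k + q) :=
      mul_nonneg (inv_pos.2 hbe).le (sum_nonneg fun k _ => Dn_nonneg _ _ _ _ _)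
    linarith
  have hP : ∀ k w m, Pr (cS p ez U K v F2 x0) k w m → Ch (cS p ez U K v F2 x0) k m (ix k w) :=
    fun k w m h => pr_ch k w m h
  have key := H581.FixBC.fixBC_W (κ := ι) (be := beI p r) (T := tS p s r o K x u x0)
    (e := eS p s r o K x u x0) (d := dS p s r o K x u x0) hbe hbe1 hz2 (sq_nonneg (p.th s r)) hT hT2
    (N := K) (b := H652.bS p s r U K u F3 Q3 x0)
    (c := H170.Win.cut K (cx K x).1 (cx K x).2.2 (cS p ez U K v F2 x0))
    (Pb := PbS p s r U K u F3 Q3 x0) (Pc := Pr (cS p ez U K v F2 x0))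
    (H652.PbS_off x0) (H74.CutBC.cut_row pr_not)
    (fun k hk n m => H652.bS_cap hth x0 le_rfl (Nat.le_succ k) n m hk)
    (H652.bS_capk1 hth x0) (R₁ := (cx K x).2.1) (S₁ := (cx K x).1) (T₁ := (cx K x).2.2)
    (cc := cP o x0) (H677.cP_pl ho x0) (C := cCI p s r ^ 2) (J := J) hC
    (fun k a n m h1 h2 => H74.CapBC.cut_capX ht ht1 hd1 he0.le hs hr hez hKn hcls.toCls q2 x0
      (by omega) (by omega) (by omega) n m)
    (fun k a n m h1 h2 => H74.CapBC.cut_capX ht ht1 hd1 he0.le hs hr hez hKn hcls.toCls q2 x0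
      (by omega) (by omega) (by omega) n m)
    (E := E) (EB := EB)
    ((H652.bS_hB1 x x0).trans (by
      rw [hEB]
      exact le_add_of_nonneg_right (pS0 x0)))
    ((H652.bS_hB2 x x0).trans (by
      rw [hEB]
      exact le_add_of_nonneg_right (pS0 x0)))
    ((H652.pay_hB3 (o := o) (x0 := x0) (M := cx K x) hbe hl (H652.bS p s r U K u F3 Q3 x0)).trans (by
      rw [hEB]
      exact le_add_of_nonneg_left (dB0 x0)))
    ((H652.pay_hB4 (o := o) (x0 := x0) (M := cx K x) hbe (H652.bS p s r U K u F3 Q3 x0)).trans (by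
      rw [hEB]
      exact le_add_of_nonneg_left (dB0 x0)))
    (by
      rw [H74.CutBC.nmH_cut]
      have e0 : ∀ q, nmH K (cx K x).2.2 (cx K x).1 (beI p r) (tS p s r o K x u x0)
          (cS p ez U K v F2 x0) q = 0 := by
        intro q
        unfold nmH Wn
        refine sum_eq_zero fun x1 _ => sum_eq_zero fun w _ => ?_
        rw [H548.cS_zero, zero_dotProduct]
      unfold H912.wS
      simp only [e0, mul_zero, sum_const_zero]
      exact hE0 x0)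
    (by
      rw [H74.CutBC.nmD_cut]
      refine (wS_mono fun q => lv 0 q).trans ?_
      unfold H912.wS
      rw [hE]
      unfold fE
      linarith)
    (by
      rw [H74.CutBC.nmE_cut]
      refine (wS_mono fun q => le 0 q).trans ?_
      unfold H912.wS
      rw [hE]
      unfold fE
      linarith)
    (by
      rw [H74.CutBC.nmB_cut]
      refine (wS_mono fun q => H302.nmB_bN (ez := ez) ht hs hr hP q n F1 F3 g Q1 Q2 Q3).trans ?_
      unfold H912.wS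
      rw [hE]
      unfold fE
      linarith)
    (by
      refine le_trans (le_of_eq ?_) (show oN 0 ι p n ez F1 F2 F3 o K x s r U g u v Q1 Q2 Q3 x0 ≤ E by
        rw [hE]
        unfold fE
        linarith)
      unfold Wn oN
      refine sum_congr rfl fun x1 h1 => sum_congr rfl fun w h2 => ?_
      have e1 : H170.Win.cut K (cx K x).1 (cx K x).2.2 (cS p ez U K v F2 x0) 1 x1 w
          = cS p ez U K v F2 x0 1 x1 w := by
        rw [H170.Win.cut_in h1 h2]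
        show C1 p ez U K v F2 x0 (min (min 1 K) K) w x1 = C1 p ez U K v F2 x0 (min 1 K) w x1
        rw [min_assoc, min_self]
      rw [e1, Nat.zero_min]
      rfl)
    (by
      have h := lv 1 0
      rw [Nat.sub_zero] at h
      refine le_trans (le_of_eq ?_) (h.trans (by
        rw [hE]
        unfold fE
        linarith))
      congr 1
      refine sum_congr rfl fun k hk => ?_
      exact H74.CutBC.Dn_cut (mem_Ico.1 hk).2 _)
    (by
      have h := le 1 0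
      rw [Nat.sub_zero] at h
      refine le_trans (le_of_eq ?_) (h.trans (by
        rw [hE]
        unfold fE
        linarith))
      congr 1
      refine sum_congr rfl fun k hk => ?_
      exact H74.CutBC.En_cut (mem_Ico.1 hk).2 _)
    (by
      have h := H302.Wn_bN (ez := ez) (x := x) (o := o) (u := u) ht hs hr hP n F1 F3 g Q1 Q2 Q3
      refine le_trans (le_of_eq ?_) (h.trans (by
        rw [hE]
        unfold fE
        linarith))
      refine sum_congr rfl fun k hk => ?_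
      exact H74.CutBC.Wn_rs_cut (mem_Ico.1 hk).2 _ _ _)
    (by
      refine le_trans (le_of_eq ?_) (show fCRB mB ι p n ez F1 F2 F3 o K x s r U g u v Q1 Q2 Q3 x0
          ≤ E by
        rw [hE]
        unfold fE
        linarith)
      unfold fCRB
      refine sum_congr rfl fun k hk => sum_congr rfl fun x1 h1 => sum_congr rfl fun w h2 => ?_
      rw [H74.CutBC.wE_cut (mem_Ico.1 hk).2 h1 h2]
      rfl)
  have win := H329.WinBC.pBC_cls ht hs hr ez U o K x u v F2 F3 Q3 hτ hz x0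
  rw [← H74.CutBC.GW_win_cut] at win
  refine win.trans (key.trans ?_)
  have hJ0 : (0 : ℝ) ≤ ((J : ℝ) + 1) ^ 3 := by positivity
  have hth4 : p.th s r ^ 2 ≤ tauI p s r ^ 2 := by
    unfold tauI
    nlinarith
  have g1 : p.th s r ^ 2 * E ≤ tauI p s r ^ 2 * E := mul_le_mul_of_nonneg_right hth4 (hE0 x0)
  have g2 : √(z ^ 2 * E * (p.th s r ^ 2 * EB)) ≤ √(z ^ 2 * E * (tauI p s r ^ 2 * EB)) :=
    Real.sqrt_le_sqrt (mul_le_mul_of_nonneg_left (mul_le_mul_of_nonneg_right hth4 (hB0 x0))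
      (mul_nonneg hz2.le (hE0 x0)))
  calc 18 * (120000 * ((J : ℝ) + 1) ^ 3) * (√(z ^ 2 * E * (p.th s r ^ 2 * EB)) + p.th s r ^ 2 * E)
      ≤ 18 * (120000 * ((J : ℝ) + 1) ^ 3) *
        (√(z ^ 2 * E * (tauI p s r ^ 2 * EB)) + tauI p s r ^ 2 * E) :=
        mul_le_mul_of_nonneg_left (add_le_add g2 g1) (by positivity)
    _ = 18 * 120000 * ((J : ℝ) + 1) ^ 3 *
        (√(z ^ 2 * E * (tauI p s r ^ 2 * EB)) + tauI p s r ^ 2 * E) := by ring

/-- **The leaf.** -/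
theorem lBCg : H408.LBCg := H886.lbc_end (by norm_num) (by norm_num) numBC

end

end Vale.Agent.P141.H419.PtX
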