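import Vale.Agent.P141.H419.PairB
import Vale.Agent.P141.H784.PwG
import Vale.Agent.P141.H125.NodeW
import Vale.Agent.P141.H336.TVst

/-!
# P141, line (A), (TI): hub `x1`, moving weight: own energies and plane energy of the second slot

`WFam` : families over hub scale `k`, outer scale `a`: roots `S` of the weight, slot `Θ`, Gram
matrices `G` (exact outer averages), moves `E`, `M` of the outer step.

* `TV_step` : the energy `TV` from one step distances;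
* `WFam.own_diag` : own defects on every diagonal;
* `WFam.TV_pg` : the energy `TV` of the family `pg s Θ (S S) G`;
* `WFam.OM`, `WFam.OO` : the two own numbers of `WPair.total`.
-/

set_option linter.unusedSectionVars false

namespace Vale.Agent.P141.H419.TVpg

open Finset Matrix Vale.Agent.P075 Vale.Agent.P141.PL Vale.Agent.P141.PL.H103 Vale.Agent.P141.H103
open Vale.Agent.P141.H389 Vale.Agent.P141.H505 Vale.Agent.P141.H336
open Vale.Agent.P141.H585.PairCh Vale.Agent.P141.H585.PairO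
open Vale.Agent.P141.H419.PairW Vale.Agent.P141.H419.PairB

noncomputable section

/-! ### The energy `TV` from one step distances -/

section step

variable {ι : ℕ → Type*} [∀ k, Fintype (ι k)] [∀ k, DecidableEq (ι k)]

theorem TV_step {k₀ N : ℕ} (hkN : k₀ ≤ N) {R S : ℤ}
    {V : ∀ k, ℕ → ℤ → ℤ → Matrix (ι k) (ι k) ℝ} (sV : ∀ k a n m, (V k a n m)ᵀ = V k a n m)
    {q : ℕ → ℕ → ℤ → ℤ → ℝ} {H Q : ℝ}
    (st : ∀ k a n m, k₀ ≤ k → k ≤ a → a < N →
      H389.sq (V k a (2 * n) m - V k (a + 1) n m) + H389.sq (V k a (2 * n + 1) m - V k (a + 1) n m)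
        ≤ q k a n m)
    (hH : ∀ k a, k₀ ≤ k → k ≤ a → a ≤ N → EW N R S k (V k) a ≤ H)
    (hQ : ∀ r, ∑ k ∈ Ico k₀ (N - r), bsum N R S k (k + r + 1) (fun n m => q k (k + r) n m) ≤ Q) :
    TV k₀ N R S V ≤ 74 * H + 36 * Q := by
  have hH0 : 0 ≤ H := (EW_nonneg (sV k₀) k₀).trans (hH k₀ k₀ le_rfl le_rfl hkN)
  have hQ0 : 0 ≤ Q := by
    have := hQ N
    rwa [Nat.sub_self, Ico_eq_empty (by omega), sum_empty] at this
  have hlev : ∀ k r, k₀ ≤ k → k + r < N →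
      (2 : ℝ) ^ k * ∑ m ∈ iv (N - k) S, lvV N R (fun a n => V k a n m) (k + r)
      ≤ (1 / 2) * bsum N R S k (k + r + 1) (fun n m => q k (k + r) n m) := by
    intro k r h1 h2
    have e1 : (2 : ℝ) ^ k * ∑ m ∈ iv (N - k) S, lvV N R (fun a n => V k a n m) (k + r)
        = (1 / 2) * bsum N R S k (k + r + 1) fun n m =>
          (H389.sq (V k (k + r) (2 * n) m - V k (k + r + 1) n m)
            + H389.sq (V k (k + r) (2 * n + 1) m - V k (k + r + 1) n m)) := by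
      unfold lvV bsum
      rw [← mul_sum, pow_succ]
      ring
    rw [e1]
    refine mul_le_mul_of_nonneg_left (bsum_mono fun n m => ?_) (by norm_num)
    exact st k (k + r) n m h1 (by omega) h2
  have hdiag : ∀ r, ∑ k ∈ Ico k₀ (N - r),
      ((2 : ℝ) ^ k * ∑ m ∈ iv (N - k) S, lvV N R (fun a n => V k a n m) (k + r))
      ≤ (1 / 2) * Q := by
    intro r
    calc ∑ k ∈ Ico k₀ (N - r), ((2 : ℝ) ^ k * ∑ m ∈ iv (N - k) S,
          lvV N R (fun a n => V k a n m) (k + r))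
        ≤ ∑ k ∈ Ico k₀ (N - r), (1 / 2) * bsum N R S k (k + r + 1) (fun n m => q k (k + r) n m) :=
          sum_le_sum fun k hk => by
            have := mem_Ico.1 hk
            exact hlev k r this.1 (by omega)
      _ ≤ (1 / 2) * Q := by
          rw [← mul_sum]
          exact mul_le_mul_of_nonneg_left (hQ r) (by norm_num)
  have hall := diag_sum (k₀ := k₀) (N := N)
    (f := fun k r => (2 : ℝ) ^ k * ∑ m ∈ iv (N - k) S,
      lvV N R (fun a n => V k a n m) (k + r)) hdiag (by positivity)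
  have htop : ∑ k ∈ Ico k₀ N, (3 / 4 : ℝ) ^ (N - k) * EW N R S k (V k) N ≤ 4 * H := by
    calc _ ≤ ∑ k ∈ Ico k₀ N, (3 / 4 : ℝ) ^ (N - k) * H :=
          sum_le_sum fun k hk => by
            have := mem_Ico.1 hk
            exact mul_le_mul_of_nonneg_left (hH k N this.1 (by omega) le_rfl) (by positivity)
      _ = (∑ k ∈ Ico k₀ N, (3 / 4 : ℝ) ^ (N - k)) * H := (sum_mul ..).symm
      _ ≤ 4 * H := mul_le_mul_of_nonneg_right (geo' hkN) hH0
  have hSVM : ∀ k, SVM N k R S (V k)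
      = ∑ r ∈ range (N - k), (3 / 4 : ℝ) ^ r * ((2 : ℝ) ^ k * ∑ m ∈ iv (N - k) S,
          lvV N R (fun a n => V k a n m) (k + r))
        + (3 / 4 : ℝ) ^ (N - k) * EW N R S k (V k) N := by
    intro k
    unfold SVM SV
    rw [EW_eq, sum_add_distrib, mul_add, sum_comm]
    congr 1
    · rw [mul_sum]
      refine sum_congr rfl fun r _ => ?_
      rw [← mul_sum]
      ring
    · rw [← mul_sum]
      ring
  have hsum : ∑ k ∈ Ico k₀ N, SVM N k R S (V k) ≤ 2 * Q + 4 * H := by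
    simp only [hSVM, sum_add_distrib]
    linarith
  unfold TV
  have h1 := hH k₀ k₀ le_rfl le_rfl hkN
  have h2 := hH N N hkN le_rfl le_rfl
  linarith

end step

/-! ### One node -/

section node

variable {κ : Type*} [Fintype κ] [DecidableEq κ]

theorem rt_of {S : Matrix κ κ ℝ} (hS : Sᵀ = S) (hSu : IsUnit S.det) :
    H125.NW.Rt (S * S) S S⁻¹ :=
  ⟨hS, by rw [transpose_nonsing_inv, hS], nonsing_inv_mul _ hSu, mul_nonsing_inv _ hSu, rfl⟩

/-- the energy does not see on which side the root stands -/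
theorem SG_root {μ : ℝ} (hμ : 0 < μ) (J : ℕ) {S c : Matrix κ κ ℝ} (hS : Sᵀ = S) (hc : cᵀ = c) :
    SG μ J (cᵀ * (S * S) * c) = SG μ J (S * (c * c) * S) := by
  have h := H125.NW.SG_swap μ hμ J (S * c)
  have e1 : (S * c)ᵀ * (S * c) = cᵀ * (S * S) * c := by
    rw [transpose_mul, hS]
    simp only [Matrix.mul_assoc]
  have e2 : (S * c) * (S * c)ᵀ = S * (c * c) * S := by
    rw [transpose_mul, hS, hc]
    simp only [Matrix.mul_assoc]
  rwa [e1, e2] at h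

/-- **own energy, outer step, the weight moves** -/
theorem own_outer {S S₀ S₁ E M G₀ G₁ : Matrix κ κ ℝ} (hS : S.PosSemidef) (hSu : IsUnit S.det)
    (s0 : S₀.PosSemidef) (s1 : S₁.PosSemidef) (hM : Mᵀ = M) (hE : E.PosSemidef)
    (e0 : S₀ * S₀ = S * S - E + M) (e1 : S₁ * S₁ = S * S - E - M)
    (g0 : G₀.PosSemidef) (g1 : G₁.PosSemidef) {μ : ℝ} (hμ : 0 < μ) (J : ℕ)
    (c0 : (1 - (μ / 4 ^ J) • (S * G₀ * S)).PosSemidef)
    (c1 : (1 - (μ / 4 ^ J) • (S * G₁ * S)).PosSemidef) :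
    SG μ J (S * ((1 / 2 : ℝ) • (G₀ + G₁)) * S) + (1 / 4) * SD μ J (S * G₀ * S) (S * G₁ * S)
      ≤ (1 / 2) * (SG μ J (S₀ * G₀ * S₀) + SG μ J (S₁ * G₁ * S₁))
        + 32 * ((J : ℝ) + 1) ^ 3 * ((M * (S⁻¹ * S⁻¹) * M * G₀).trace
          + (M * (S⁻¹ * S⁻¹) * M * G₁).trace)
        + (1 / 2) * ((J : ℝ) + 1) * ((E * G₀).trace + (E * G₁).trace) := by
  have hSt := psd_isSymm hS
  have hSi : (S⁻¹)ᵀ = S⁻¹ := by rw [transpose_nonsing_inv, hSt]
  obtain ⟨C₀, hc0, rfl⟩ := exists_sq g0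
  obtain ⟨C₁, hc1, rfl⟩ := exists_sq g1
  have t0 := psd_isSymm hc0
  have t1 := psd_isSymm hc1
  have p0 : (S * S - E + M).PosSemidef := by rw [← e0]; exact psd_sq (psd_isSymm s0)
  have p1 : (S * S - E - M).PosSemidef := by rw [← e1]; exact psd_sq (psd_isSymm s1)
  have h := H125.NW.SG_outer_w (rt_of hSt hSu) C₀ C₁ hM hE p0 p1 hμ J (by rwa [t0]) (by rwa [t1])
  rw [← e0, ← e1, SG_root hμ J (psd_isSymm s0) t0, SG_root hμ J (psd_isSymm s1) t1, t0, t1] at h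
  have a : S * ((1 / 2 : ℝ) • (C₀ * C₀ + C₁ * C₁)) * S
      = (1 / 2 : ℝ) • (S * (C₀ * C₀) * S + S * (C₁ * C₁) * S) := by
    rw [Matrix.mul_smul, Matrix.smul_mul, Matrix.mul_add, Matrix.add_mul]
  have b : ∀ {C : Matrix κ κ ℝ}, Cᵀ = C → ((S⁻¹ * M * C)ᵀ * (S⁻¹ * M * C)).trace
      = (M * (S⁻¹ * S⁻¹) * M * (C * C)).trace := by
    intro C hC
    rw [transpose_mul, transpose_mul, hSi, hM, hC]
    have : C * (M * S⁻¹) * (S⁻¹ * M * C) = C * (M * (S⁻¹ * S⁻¹) * M * C) := by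
      simp only [Matrix.mul_assoc]
    rw [this, trace_mul_comm]
    simp only [Matrix.mul_assoc]
  have d : ∀ {C : Matrix κ κ ℝ}, (C * E * C).trace = (E * (C * C)).trace := by
    intro C
    rw [Matrix.mul_assoc, trace_mul_comm, Matrix.mul_assoc]
  rw [b t0, b t1, d, d] at h
  rw [a]
  exact h

/-- **own energy, middle step, static** -/
theorem own_mid {X r : Matrix κ κ ℝ} (hX : X.PosSemidef) (hr : rᵀ = r) (hr2 : r * r = 1) {μ : ℝ}
    (hμ : 0 < μ) (J : ℕ) :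
    SG μ J X + (1 / 2) * SC μ J r X ≤ (1 / 2) * SG μ J (X + r * X * r) := by
  unfold SG SC
  rw [mul_sum, mul_sum, ← sum_add_distrib]
  refine sum_le_sum fun j _ => ?_
  have h4 : 0 < μ / 4 ^ j := by positivity
  have h := GX_pinch hr hr2 (hX.smul (α := ℝ) h4.le)
  have e : (μ / 4 ^ j) • X + r * ((μ / 4 ^ j) • X) * r = (μ / 4 ^ j) • (X + r * X * r) := by
    rw [Matrix.mul_smul, Matrix.smul_mul, smul_add]
  rw [e] at h
  have h2 := mul_le_mul_of_nonneg_left h (inv_pos.2 h4).le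
  linarith

/-- one level of the column gains -/
theorem gp_le {s : ℝ} {r X : Matrix κ κ ℝ} (hX : X.PosSemidef) (hr : rᵀ = r) {μ : ℝ} (hμ : 0 < μ)
    {J j : ℕ} (hj : j ≤ J) (hs : s = (μ / 4 ^ j)⁻¹) : gp s r X ≤ s * SC μ J r X := by
  have h4 : ∀ i : ℕ, 0 < μ / 4 ^ i := fun i => by positivity
  have h : (μ / 4 ^ j)⁻¹ * (phi ((μ / 4 ^ j) • X) * (r * phi ((μ / 4 ^ j) • X) * r)).trace
      ≤ SC μ J r X := by
    unfold SC
    refine single_le_sum (s := range (J + 1)) (f := fun j => (μ / 4 ^ j)⁻¹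
      * (phi ((μ / 4 ^ j) • X) * (r * phi ((μ / 4 ^ j) • X) * r)).trace) (fun i _ => ?_)
      (mem_range.2 (by omega))
    have p := phi_psd (hX.smul (α := ℝ) (h4 i).le)
    exact mul_nonneg (inv_nonneg.2 (h4 i).le) (trace_mul_nonneg p (psd_conj_symm p hr))
  have hs0 : 0 ≤ s := by rw [hs]; exact (inv_pos.2 (h4 j)).le
  have h2 := mul_le_mul_of_nonneg_left h hs0
  refine le_trans (le_of_eq ?_) h2
  unfold gp
  rw [hs, inv_inv, pow_two]
  ring

theorem SC_nonneg {r X : Matrix κ κ ℝ} (hX : X.PosSemidef) (hr : rᵀ = r) {μ : ℝ} (hμ : 0 < μ)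
    (J : ℕ) : 0 ≤ SC μ J r X := by
  unfold SC
  refine sum_nonneg fun j _ => ?_
  have h4 : 0 < μ / 4 ^ j := by positivity
  have p := phi_psd (hX.smul (α := ℝ) h4.le)
  exact mul_nonneg (inv_nonneg.2 h4.le) (trace_mul_nonneg p (psd_conj_symm p hr))

/-- one level of the row defects -/
theorem dls_le {s : ℝ} {X₀ X₁ : Matrix κ κ ℝ} (h0 : X₀.PosSemidef) (h1 : X₁.PosSemidef) {μ : ℝ}
    (hμ : 0 < μ) {J j : ℕ} (hj : j ≤ J) (hs : s = (μ / 4 ^ j)⁻¹) :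
    dls s X₀ X₁ ≤ s * SD μ J X₀ X₁ := by
  have h4 : 0 < μ / 4 ^ j := by positivity
  have h := le_SD h0 h1 hμ hj
  have hs0 : 0 ≤ s := by rw [hs]; exact (inv_pos.2 h4).le
  have h2 := mul_le_mul_of_nonneg_left h hs0
  refine le_trans (le_of_eq ?_) h2
  unfold dls
  rw [hs, inv_inv, pow_two]
  ring

/-- a compression by the slot does not enlarge -/
theorem sq_comp {τ : ℝ} (hτ0 : 0 ≤ τ) {Θ S P : Matrix κ κ ℝ} (hΘ : Θᵀ = Θ) (hS : Sᵀ = S)
    (hSu : IsUnit S.det) (hτ : (τ • (S * S) - Θ * Θ).PosSemidef) (hP : P.PosSemidef) :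
    H389.sq (Θ * (S⁻¹ * P * S⁻¹) * Θ) ≤ τ ^ 2 * H389.sq P := by
  have hSi : (S⁻¹)ᵀ = S⁻¹ := by rw [transpose_nonsing_inv, hS]
  set Y := S⁻¹ * (Θ * Θ) * S⁻¹ with hY
  have hYp : Y.PosSemidef := psd_conj_symm (psd_sq hΘ) hSi
  have hYt : (τ • (1 : Matrix κ κ ℝ) - Y).PosSemidef := by
    have h := psd_conj_symm hτ hSi
    have e : S⁻¹ * (τ • (S * S) - Θ * Θ) * S⁻¹ = τ • (1 : Matrix κ κ ℝ) - Y := by
      rw [Matrix.mul_sub, Matrix.sub_mul, Matrix.mul_smul, Matrix.smul_mul]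
      have : S⁻¹ * (S * S) * S⁻¹ = (S⁻¹ * S) * (S * S⁻¹) := by simp only [Matrix.mul_assoc]
      rw [this, nonsing_inv_mul _ hSu, mul_nonsing_inv _ hSu, Matrix.one_mul]
    rwa [e] at h
  have hPt := psd_isSymm hP
  have e1 : H389.sq (Θ * (S⁻¹ * P * S⁻¹) * Θ) = (P * Y * P * Y).trace := by
    unfold H389.sq
    have a : Θ * (S⁻¹ * P * S⁻¹) * Θ * (Θ * (S⁻¹ * P * S⁻¹) * Θ)
        = (Θ * S⁻¹) * (P * (S⁻¹ * (Θ * Θ) * S⁻¹) * P * S⁻¹ * Θ) := by
      simp only [Matrix.mul_assoc]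
    rw [a, trace_mul_comm, ← hY]
    congr 1
    have b : P * Y * P * S⁻¹ * Θ * (Θ * S⁻¹) = P * Y * P * (S⁻¹ * (Θ * Θ) * S⁻¹) := by
      simp only [Matrix.mul_assoc]
    rw [b]
  have h1 := trace_mul_nonneg (psd_conj_symm hYp hPt) hYt
  rw [Matrix.mul_sub, trace_sub, Matrix.mul_smul, Matrix.mul_one, trace_smul, smul_eq_mul] at h1
  have h2 := trace_mul_nonneg (psd_sq hPt) hYt
  rw [Matrix.mul_sub, trace_sub, Matrix.mul_smul, Matrix.mul_one, trace_smul, smul_eq_mul] at h2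
  have e2 : (P * Y * P).trace = (P * P * Y).trace := by
    rw [trace_mul_comm, ← Matrix.mul_assoc]
  rw [e1]
  unfold H389.sq
  rw [e2] at h1
  nlinarith

/-- the energy of the second slot -/
theorem sq_pg_le {s τ : ℝ} (hs : 0 < s) (hτ0 : 0 ≤ τ) {Θ S G : Matrix κ κ ℝ} (hΘ : Θᵀ = Θ)
    (hS : Sᵀ = S) (hSu : IsUnit S.det) (hτ : (τ • (S * S) - Θ * Θ).PosSemidef)
    (hG : G.PosSemidef) : H389.sq (pg s Θ (S * S) G) ≤ τ ^ 2 * s * (S * S * G).trace := by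
  have hX : (S * G * S).PosSemidef := psd_conj_symm hG hS
  have hP : (phs s (S * G * S)).PosSemidef :=
    (phi_psd (hX.smul (α := ℝ) (inv_pos.2 hs).le)).smul hs.le
  rw [pg_root hs hS hSu hG]
  refine (sq_comp hτ0 hΘ hS hSu hτ hP).trans ?_
  have h := sq_phs_le hX hs
  have e : (S * G * S).trace = (S * S * G).trace := by
    rw [Matrix.mul_assoc, trace_mul_comm, Matrix.mul_assoc, trace_mul_comm]
  rw [e] at h
  have := mul_le_mul_of_nonneg_left h (sq_nonneg τ)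
  linarith

end node

/-! ### The families -/

/-- price of the moves of the outer step -/
def eM {ι : Type*} [Fintype ι] [DecidableEq ι] (S M G₀ G₁ : Matrix ι ι ℝ) : ℝ :=
  (M * (S⁻¹ * S⁻¹) * M * G₀).trace + (M * (S⁻¹ * S⁻¹) * M * G₁).trace

/-- price of the drift of the outer step -/
def eE {ι : Type*} [Fintype ι] (E G₀ G₁ : Matrix ι ι ℝ) : ℝ := (E * G₀).trace + (E * G₁).trace

/-- squares of the moves -/
def eQ {ι : Type*} [Fintype ι] (E M G₀ G₁ : Matrix ι ι ℝ) : ℝ :=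
  (M * M * (G₀ + G₁)).trace + (E * E * (G₀ + G₁)).trace

/-- the families of the second slot at the hub -/
structure WFam (k₀ N : ℕ) (R S : ℤ) {ι : ℕ → Type*} [∀ k, Fintype (ι k)]
    [∀ k, DecidableEq (ι k)] (μ : ℝ) (J : ℕ) (τ β : ℝ)
    (Sr Θ G E M : ∀ k, ℕ → ℤ → ℤ → Matrix (ι k) (ι k) ℝ)
    (rr : ∀ k, Matrix (ι (k + 1)) (ι (k + 1)) ℝ) (p : ℕ → ℕ → ℤ → ℤ → ℝ)
    (H ZM ZE ZQ Qm : ℝ) : Prop where
  hkN : k₀ ≤ N
  hμ : 0 < μ
  hτ : 0 ≤ τ
  hβ : 0 < β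
  pS : ∀ k a n m, (Sr k a n m).PosSemidef
  uS : ∀ k a n m, IsUnit (Sr k a n m).det
  bS : ∀ k a n m, (Sr k a n m * Sr k a n m - β • 1).PosSemidef
  sΘ : ∀ k a n m, (Θ k a n m)ᵀ = Θ k a n m
  tΘ : ∀ k a n m, (τ • (Sr k a n m * Sr k a n m) - Θ k a n m * Θ k a n m).PosSemidef
  pG : ∀ k a n m, (G k a n m).PosSemidef
  sM : ∀ k a n m, (M k a n m)ᵀ = M k a n m
  pE : ∀ k a n m, (E k a n m).PosSemidef
  par : ∀ k a n m, k₀ ≤ k → k ≤ a → a < N →
    G k (a + 1) n m = (1 / 2 : ℝ) • (G k a (2 * n) m + G k a (2 * n + 1) m)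
  S0 : ∀ k a n m, k₀ ≤ k → k ≤ a → a < N → Sr k a (2 * n) m * Sr k a (2 * n) m
    = Sr k (a + 1) n m * Sr k (a + 1) n m - E k a n m + M k a n m
  S1 : ∀ k a n m, k₀ ≤ k → k ≤ a → a < N → Sr k a (2 * n + 1) m * Sr k a (2 * n + 1) m
    = Sr k (a + 1) n m * Sr k (a + 1) n m - E k a n m - M k a n m
  Θ0 : ∀ k a n m, k₀ ≤ k → k ≤ a → a < N →
    Θ k a (2 * n) m = Θ k (a + 1) n m - E k a n m + M k a n m
  Θ1 : ∀ k a n m, k₀ ≤ k → k ≤ a → a < N →
    Θ k a (2 * n + 1) m = Θ k (a + 1) n m - E k a n m - M k a n m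
  hr : ∀ k, (rr k)ᵀ = rr k
  hr2 : ∀ k, rr k * rr k = 1
  rS : ∀ k a n m, rr k * Sr (k + 1) a n m = Sr (k + 1) a n m * rr k
  rΘ : ∀ k a n m, rr k * Θ (k + 1) a n m = Θ (k + 1) a n m * rr k
  cap0 : ∀ k a n m, k₀ ≤ k → k ≤ a → a < N →
    (1 - (μ / 4 ^ J) • (Sr k (a + 1) n m * G k a (2 * n) m * Sr k (a + 1) n m)).PosSemidef
  cap1 : ∀ k a n m, k₀ ≤ k → k ≤ a → a < N →
    (1 - (μ / 4 ^ J) • (Sr k (a + 1) n m * G k a (2 * n + 1) m * Sr k (a + 1) n m)).PosSemidef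
  mid : ∀ k a n m, k₀ ≤ k → k + 1 ≤ a → a ≤ N →
    (1 / 2) * SG μ J (Sr (k + 1) a n m * G (k + 1) a n m * Sr (k + 1) a n m
        + rr k * (Sr (k + 1) a n m * G (k + 1) a n m * Sr (k + 1) a n m) * rr k)
      ≤ (1 / 2) * (SG μ J (Sr k a n (2 * m) * G k a n (2 * m) * Sr k a n (2 * m))
        + SG μ J (Sr k a n (2 * m + 1) * G k a n (2 * m + 1) * Sr k a n (2 * m + 1))) + p k a n m
  hH : ∀ k a, k₀ ≤ k → k ≤ a → a ≤ N →
    bsum N R S k a (fun n m => (Sr k a n m * Sr k a n m * G k a n m).trace) ≤ H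
  hZM : ∀ r, ∑ k ∈ Ico k₀ (N - r), bsum N R S k (k + r + 1) (fun n m =>
    eM (Sr k (k + r + 1) n m) (M k (k + r) n m) (G k (k + r) (2 * n) m)
      (G k (k + r) (2 * n + 1) m)) ≤ ZM
  hZE : ∀ r, ∑ k ∈ Ico k₀ (N - r), bsum N R S k (k + r + 1) (fun n m =>
    eE (E k (k + r) n m) (G k (k + r) (2 * n) m) (G k (k + r) (2 * n + 1) m)) ≤ ZE
  hZQ : ∀ r, ∑ k ∈ Ico k₀ (N - r), bsum N R S k (k + r + 1) (fun n m =>
    eQ (E k (k + r) n m) (M k (k + r) n m) (G k (k + r) (2 * n) m)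
      (G k (k + r) (2 * n + 1) m)) ≤ ZQ
  hQm : ∀ r, ∑ k ∈ Ico k₀ (N - r), bsum N R S (k + 1) (k + 1 + r)
    (fun n m => p k (k + 1 + r) n m) ≤ Qm

section fam

variable {k₀ N : ℕ} {R S : ℤ} {ι : ℕ → Type*} [∀ k, Fintype (ι k)] [∀ k, DecidableEq (ι k)]
  {μ : ℝ} {J : ℕ} {τ β : ℝ} {Sr Θ G E M : ∀ k, ℕ → ℤ → ℤ → Matrix (ι k) (ι k) ℝ}
  {rr : ∀ k, Matrix (ι (k + 1)) (ι (k + 1)) ℝ} {p : ℕ → ℕ → ℤ → ℤ → ℝ} {H ZM ZE ZQ Qm : ℝ}

/-- the own number -/
def Ow (J : ℕ) (H ZM ZE Qm : ℝ) : ℝ :=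
  ((J : ℝ) + 1) * H + 32 * ((J : ℝ) + 1) ^ 3 * ZM + (1 / 2) * ((J : ℝ) + 1) * ZE + Qm

theorem bsum_sum0 {N : ℕ} {R S : ℤ} {k₀ : ℕ} {f : ℕ → ℤ → ℤ → ℝ} {Q : ℝ}
    (h : ∀ r, ∑ k ∈ Ico k₀ (N - r), bsum N R S k (k + r + 1) (fun n m => f (k + r) n m) ≤ Q) :
    0 ≤ Q := by
  have := h N
  rwa [Nat.sub_self, Ico_eq_empty (by omega), sum_empty] at this

theorem WFam.ZM0 (h : WFam k₀ N R S μ J τ β Sr Θ G E M rr p H ZM ZE ZQ Qm) : 0 ≤ ZM := by
  have := h.hZM N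
  rwa [Nat.sub_self, Ico_eq_empty (by omega), sum_empty] at this

theorem WFam.ZE0 (h : WFam k₀ N R S μ J τ β Sr Θ G E M rr p H ZM ZE ZQ Qm) : 0 ≤ ZE := by
  have := h.hZE N
  rwa [Nat.sub_self, Ico_eq_empty (by omega), sum_empty] at this

theorem WFam.ZQ0 (h : WFam k₀ N R S μ J τ β Sr Θ G E M rr p H ZM ZE ZQ Qm) : 0 ≤ ZQ := by
  have := h.hZQ N
  rwa [Nat.sub_self, Ico_eq_empty (by omega), sum_empty] at this

theorem WFam.Qm0 (h : WFam k₀ N R S μ J τ β Sr Θ G E M rr p H ZM ZE ZQ Qm) : 0 ≤ Qm := by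
  have := h.hQm N
  rwa [Nat.sub_self, Ico_eq_empty (by omega), sum_empty] at this

theorem WFam.pX (h : WFam k₀ N R S μ J τ β Sr Θ G E M rr p H ZM ZE ZQ Qm) (k a : ℕ) (n m : ℤ) :
    (Sr k a n m * G k a n m * Sr k a n m).PosSemidef :=
  psd_conj_symm (h.pG k a n m) (psd_isSymm (h.pS k a n m))

theorem WFam.H0 (h : WFam k₀ N R S μ J τ β Sr Θ G E M rr p H ZM ZE ZQ Qm) : 0 ≤ H := by
  refine le_trans (bsum_nonneg fun n m => ?_) (h.hH k₀ k₀ le_rfl le_rfl h.hkN)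
  exact trace_mul_nonneg (psd_sq (psd_isSymm (h.pS _ _ _ _))) (h.pG _ _ _ _)

theorem WFam.Ow_ge (h : WFam k₀ N R S μ J τ β Sr Θ G E M rr p H ZM ZE ZQ Qm) :
    H ≤ Ow J H ZM ZE Qm := by
  have h1 := h.H0
  have h2 := h.ZM0
  have h3 := h.ZE0
  have h4 := h.Qm0
  have hJ : (0 : ℝ) ≤ J := Nat.cast_nonneg J
  unfold Ow
  have a1 : 0 ≤ (J : ℝ) * H := by positivity
  have a2 : 0 ≤ 32 * ((J : ℝ) + 1) ^ 3 * ZM := by positivity
  have a3 : 0 ≤ (1 / 2) * ((J : ℝ) + 1) * ZE := by positivity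
  linarith

/-- **Own defects of the outer and of the middle steps, every diagonal.** -/
theorem WFam.own_diag (h : WFam k₀ N R S μ J τ β Sr Θ G E M rr p H ZM ZE ZQ Qm) (r : ℕ) :
    ∑ k ∈ Ico k₀ (N - r), (1 / 4) * bsum N R S k (k + r + 1) (fun n m =>
        SD μ J (Sr k (k + r + 1) n m * G k (k + r) (2 * n) m * Sr k (k + r + 1) n m)
          (Sr k (k + r + 1) n m * G k (k + r) (2 * n + 1) m * Sr k (k + r + 1) n m))
      + ∑ k ∈ Ico k₀ (N - r), bsum N R S (k + 1) (k + 1 + r) (fun n m => (1 / 2) * SC μ J (rr k)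
        (Sr (k + 1) (k + 1 + r) n m * G (k + 1) (k + 1 + r) n m * Sr (k + 1) (k + 1 + r) n m))
      ≤ Ow J H ZM ZE Qm := by
  have hH0 := h.H0
  have hM0 := h.ZM0
  have hE0 := h.ZE0
  have hQ0 := h.Qm0
  have hμ := h.hμ
  have hJ : (0 : ℝ) ≤ J := Nat.cast_nonneg J
  by_cases hr : k₀ + r ≤ N
  · have key := diag (k₀ := k₀) (N := N)
      (E := fun k a => bsum N R S k a fun n m => SG μ J (Sr k a n m * G k a n m * Sr k a n m))
      (G := fun k a => (1 / 4) * bsum N R S k (a + 1) fun n m =>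
        SD μ J (Sr k (a + 1) n m * G k a (2 * n) m * Sr k (a + 1) n m)
          (Sr k (a + 1) n m * G k a (2 * n + 1) m * Sr k (a + 1) n m))
      (G' := fun k a => bsum N R S (k + 1) a fun n m => (1 / 2) * SC μ J (rr k)
        (Sr (k + 1) a n m * G (k + 1) a n m * Sr (k + 1) a n m))
      (q := fun k a => bsum N R S k (a + 1) fun n m =>
        32 * ((J : ℝ) + 1) ^ 3 * eM (Sr k (a + 1) n m) (M k a n m) (G k a (2 * n) m)
          (G k a (2 * n + 1) m)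
        + (1 / 2) * ((J : ℝ) + 1) * eE (E k a n m) (G k a (2 * n) m) (G k a (2 * n + 1) m))
      (p := fun k a => bsum N R S (k + 1) a fun n m => p k a n m)
      (fun k a h1 h2 h3 => by
        rw [← bsum_outer h3 R S (fun n m => SG μ J (Sr k a n m * G k a n m * Sr k a n m)),
          ← bsum_smul, ← bsum_add, ← bsum_add]
        refine bsum_mono fun n m => ?_
        have e := own_outer (h.pS k (a + 1) n m) (h.uS k (a + 1) n m) (h.pS k a (2 * n) m)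
          (h.pS k a (2 * n + 1) m) (h.sM k a n m) (h.pE k a n m) (h.S0 k a n m h1 h2 h3)
          (h.S1 k a n m h1 h2 h3) (h.pG k a (2 * n) m) (h.pG k a (2 * n + 1) m) hμ J
          (h.cap0 k a n m h1 h2 h3) (h.cap1 k a n m h1 h2 h3)
        rw [← h.par k a n m h1 h2 h3] at e
        unfold eM eE
        linarith)
      (fun k a h1 h2 h3 => by
        rw [← bsum_mid (by omega : k < N) R S
          (fun n m => SG μ J (Sr k a n m * G k a n m * Sr k a n m)), ← bsum_add, ← bsum_add]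
        refine bsum_mono fun n m => ?_
        have e1 := own_mid (h.pX (k + 1) a n m) (h.hr k) (h.hr2 k) hμ J
        have e2 := h.mid k a n m h1 h2 h3
        linarith)
      r (N - r) (by omega) (by omega)
    have e1 : 0 ≤ bsum N R S (N - r) (N - r + r) fun n m =>
        SG μ J (Sr (N - r) (N - r + r) n m * G (N - r) (N - r + r) n m
          * Sr (N - r) (N - r + r) n m) :=
      bsum_nonneg fun n m => SG_nonneg (h.pX _ _ _ _) hμ J
    have e2 : (bsum N R S k₀ (k₀ + r) fun n m =>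
        SG μ J (Sr k₀ (k₀ + r) n m * G k₀ (k₀ + r) n m * Sr k₀ (k₀ + r) n m))
        ≤ ((J : ℝ) + 1) * H := by
      have h1 := h.hH k₀ (k₀ + r) le_rfl (by omega) hr
      have h2 : (bsum N R S k₀ (k₀ + r) fun n m =>
          SG μ J (Sr k₀ (k₀ + r) n m * G k₀ (k₀ + r) n m * Sr k₀ (k₀ + r) n m))
          ≤ bsum N R S k₀ (k₀ + r) fun n m => ((J : ℝ) + 1)
            * (Sr k₀ (k₀ + r) n m * Sr k₀ (k₀ + r) n m * G k₀ (k₀ + r) n m).trace := by
        refine bsum_mono fun n m => ?_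
        have e := SG_le (h.pX k₀ (k₀ + r) n m) hμ J
        have e' : (Sr k₀ (k₀ + r) n m * G k₀ (k₀ + r) n m * Sr k₀ (k₀ + r) n m).trace
            = (Sr k₀ (k₀ + r) n m * Sr k₀ (k₀ + r) n m * G k₀ (k₀ + r) n m).trace := by
          rw [Matrix.mul_assoc, trace_mul_comm, Matrix.mul_assoc, trace_mul_comm]
        rwa [e'] at e
      rw [bsum_smul] at h2
      exact h2.trans (mul_le_mul_of_nonneg_left h1 (by positivity))
    have e3 := h.hQm r
    have e4 : ∑ k ∈ Ico k₀ (N - r), bsum N R S k (k + r + 1) (fun n m =>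
        32 * ((J : ℝ) + 1) ^ 3 * eM (Sr k (k + r + 1) n m) (M k (k + r) n m)
          (G k (k + r) (2 * n) m) (G k (k + r) (2 * n + 1) m)
        + (1 / 2) * ((J : ℝ) + 1) * eE (E k (k + r) n m) (G k (k + r) (2 * n) m)
          (G k (k + r) (2 * n + 1) m))
        ≤ 32 * ((J : ℝ) + 1) ^ 3 * ZM + (1 / 2) * ((J : ℝ) + 1) * ZE := by
      simp only [bsum_add, bsum_smul, sum_add_distrib, ← mul_sum]
      exact add_le_add (mul_le_mul_of_nonneg_left (h.hZM r) (by positivity))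
        (mul_le_mul_of_nonneg_left (h.hZE r) (by positivity))
    unfold Ow
    linarith
  · rw [Ico_eq_empty (by omega), sum_empty, sum_empty, add_zero]
    exact hH0.trans h.Ow_ge

theorem WFam.SD_diag (h : WFam k₀ N R S μ J τ β Sr Θ G E M rr p H ZM ZE ZQ Qm) (r : ℕ) :
    ∑ k ∈ Ico k₀ (N - r), bsum N R S k (k + r + 1) (fun n m =>
        SD μ J (Sr k (k + r + 1) n m * G k (k + r) (2 * n) m * Sr k (k + r + 1) n m)
          (Sr k (k + r + 1) n m * G k (k + r) (2 * n + 1) m * Sr k (k + r + 1) n m))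
      ≤ 4 * Ow J H ZM ZE Qm := by
  have h1 := h.own_diag r
  have h2 : 0 ≤ ∑ k ∈ Ico k₀ (N - r), bsum N R S (k + 1) (k + 1 + r) (fun n m =>
      (1 / 2) * SC μ J (rr k)
        (Sr (k + 1) (k + 1 + r) n m * G (k + 1) (k + 1 + r) n m * Sr (k + 1) (k + 1 + r) n m)) :=
    sum_nonneg fun k _ => bsum_nonneg fun n m => mul_nonneg (by norm_num)
      (SC_nonneg (h.pX _ _ _ _) (h.hr k) h.hμ J)
  rw [← mul_sum] at h1
  linarith

theorem WFam.SC_diag (h : WFam k₀ N R S μ J τ β Sr Θ G E M rr p H ZM ZE ZQ Qm) (r : ℕ) :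
    ∑ k ∈ Ico k₀ (N - r), bsum N R S (k + 1) (k + 1 + r) (fun n m => SC μ J (rr k)
        (Sr (k + 1) (k + 1 + r) n m * G (k + 1) (k + 1 + r) n m * Sr (k + 1) (k + 1 + r) n m))
      ≤ 2 * Ow J H ZM ZE Qm := by
  have h1 := h.own_diag r
  have pc : ∀ k a n m, ((Sr k (a + 1) n m * G k a n m * Sr k (a + 1) n m)).PosSemidef :=
    fun k a n m => psd_conj_symm (h.pG k a n m) (psd_isSymm (h.pS k (a + 1) n m))
  have h2 : 0 ≤ ∑ k ∈ Ico k₀ (N - r), (1 / 4) * bsum N R S k (k + r + 1) (fun n m =>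
        SD μ J (Sr k (k + r + 1) n m * G k (k + r) (2 * n) m * Sr k (k + r + 1) n m)
          (Sr k (k + r + 1) n m * G k (k + r) (2 * n + 1) m * Sr k (k + r + 1) n m)) :=
    sum_nonneg fun k _ => mul_nonneg (by norm_num) (bsum_nonneg fun n m =>
      SD_nonneg (psd_conj_symm (h.pG _ _ _ _) (psd_isSymm (h.pS _ _ _ _)))
        (psd_conj_symm (h.pG _ _ _ _) (psd_isSymm (h.pS _ _ _ _))) h.hμ J)
  simp only [bsum_smul, ← mul_sum] at h1 h2
  linarith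

/-- the own number of the middle steps -/
theorem WFam.OM (h : WFam k₀ N R S μ J τ β Sr Θ G E M rr p H ZM ZE ZQ Qm) {j : ℕ} (hj : j ≤ J)
    {s : ℝ} (hs : s = (μ / 4 ^ j)⁻¹) :
    ∑ k ∈ Ico k₀ N, (4 : ℝ) ^ (k + 1) * ∑ m ∈ iv (N - (k + 1)) S, ∑ n ∈ iv (N - (k + 1)) R,
      gp s (rr k) (Sr (k + 1) (k + 1) n m * G (k + 1) (k + 1) n m * Sr (k + 1) (k + 1) n m)
      ≤ 2 * s * Ow J H ZM ZE Qm := by
  have h4 : 0 < μ / 4 ^ j := div_pos h.hμ (by positivity)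
  have hs0 : 0 < s := by rw [hs]; exact inv_pos.2 h4
  have h1 := h.SC_diag 0
  rw [Nat.sub_zero] at h1
  have e : ∀ k, (4 : ℝ) ^ (k + 1) * ∑ m ∈ iv (N - (k + 1)) S, ∑ n ∈ iv (N - (k + 1)) R,
      gp s (rr k) (Sr (k + 1) (k + 1) n m * G (k + 1) (k + 1) n m * Sr (k + 1) (k + 1) n m)
      = bsum N R S (k + 1) (k + 1) fun n m =>
        gp s (rr k) (Sr (k + 1) (k + 1) n m * G (k + 1) (k + 1) n m * Sr (k + 1) (k + 1) n m) := by
    intro k
    unfold bsum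
    rw [← mul_pow]
    norm_num
  simp only [e]
  have h2 : ∑ k ∈ Ico k₀ N, (bsum N R S (k + 1) (k + 1) fun n m =>
        gp s (rr k) (Sr (k + 1) (k + 1) n m * G (k + 1) (k + 1) n m * Sr (k + 1) (k + 1) n m))
      ≤ ∑ k ∈ Ico k₀ N, bsum N R S (k + 1) (k + 1 + 0) fun n m => s * SC μ J (rr k)
        (Sr (k + 1) (k + 1 + 0) n m * G (k + 1) (k + 1 + 0) n m * Sr (k + 1) (k + 1 + 0) n m) :=
    sum_le_sum fun k _ => bsum_mono fun n m => gp_le (h.pX _ _ _ _) (h.hr k) h.hμ hj hs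
  simp only [bsum_smul, ← mul_sum] at h2
  have h3 := mul_le_mul_of_nonneg_left h1 hs0.le
  linarith

/-- the own number of the outer steps -/
theorem WFam.OO (h : WFam k₀ N R S μ J τ β Sr Θ G E M rr p H ZM ZE ZQ Qm) {j : ℕ} (hj : j ≤ J)
    {s : ℝ} (hs : s = (μ / 4 ^ j)⁻¹) :
    ∑ k ∈ Ico k₀ N, (4 : ℝ) ^ (k + 1) * ∑ m ∈ iv (N - (k + 1)) S, ∑ n ∈ iv (N - (k + 1)) R,
      mh (fun i => dls s (Sr k (k + 1) n i * G k k (2 * n) i * Sr k (k + 1) n i)
        (Sr k (k + 1) n i * G k k (2 * n + 1) i * Sr k (k + 1) n i)) m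
      ≤ 4 * s * Ow J H ZM ZE Qm := by
  have h4 : 0 < μ / 4 ^ j := div_pos h.hμ (by positivity)
  have hs0 : 0 < s := by rw [hs]; exact inv_pos.2 h4
  have h1 := h.SD_diag 0
  rw [Nat.sub_zero] at h1
  have e : ∀ k ∈ Ico k₀ N, (4 : ℝ) ^ (k + 1) * ∑ m ∈ iv (N - (k + 1)) S,
      ∑ n ∈ iv (N - (k + 1)) R,
      mh (fun i => dls s (Sr k (k + 1) n i * G k k (2 * n) i * Sr k (k + 1) n i)
        (Sr k (k + 1) n i * G k k (2 * n + 1) i * Sr k (k + 1) n i)) m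
      = bsum N R S k (k + 1) fun n m =>
        dls s (Sr k (k + 1) n m * G k k (2 * n) m * Sr k (k + 1) n m)
        (Sr k (k + 1) n m * G k k (2 * n + 1) m * Sr k (k + 1) n m) := by
    intro k hk
    rw [← bsum_mid (mem_Ico.1 hk).2 R S (fun n m =>
        dls s (Sr k (k + 1) n m * G k k (2 * n) m * Sr k (k + 1) n m)
        (Sr k (k + 1) n m * G k k (2 * n + 1) m * Sr k (k + 1) n m))]
    unfold bsum mh
    rw [← mul_pow]
    norm_num
  rw [sum_congr rfl e]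
  have h2 : ∑ k ∈ Ico k₀ N, (bsum N R S k (k + 1) fun n m =>
        dls s (Sr k (k + 1) n m * G k k (2 * n) m * Sr k (k + 1) n m)
        (Sr k (k + 1) n m * G k k (2 * n + 1) m * Sr k (k + 1) n m))
      ≤ ∑ k ∈ Ico k₀ N, bsum N R S k (k + 0 + 1) fun n m => s *
        SD μ J (Sr k (k + 0 + 1) n m * G k (k + 0) (2 * n) m * Sr k (k + 0 + 1) n m)
          (Sr k (k + 0 + 1) n m * G k (k + 0) (2 * n + 1) m * Sr k (k + 0 + 1) n m) :=
    sum_le_sum fun k _ => bsum_mono fun n m => dls_le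
      (psd_conj_symm (h.pG _ _ _ _) (psd_isSymm (h.pS _ _ _ _)))
      (psd_conj_symm (h.pG _ _ _ _) (psd_isSymm (h.pS _ _ _ _))) h.hμ hj hs
  simp only [bsum_smul, ← mul_sum] at h2
  have h3 := mul_le_mul_of_nonneg_left h1 hs0.le
  linarith

/-- the second slot -/
def Vf (s : ℝ) (Sr Θ G : ∀ k, ℕ → ℤ → ℤ → Matrix (ι k) (ι k) ℝ) :
    ∀ k, ℕ → ℤ → ℤ → Matrix (ι k) (ι k) ℝ :=
  fun k a n m => pg s (Θ k a n m) (Sr k a n m * Sr k a n m) (G k a n m)

theorem WFam.sV (h : WFam k₀ N R S μ J τ β Sr Θ G E M rr p H ZM ZE ZQ Qm) {s : ℝ} (hs : 0 < s)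
    (k a : ℕ) (n m : ℤ) : (Vf s Sr Θ G k a n m).PosSemidef :=
  pg_psd hs (h.sΘ k a n m) (psd_sq (psd_isSymm (h.pS k a n m))) (h.pG k a n m)

/-- **The plane energy of the second slot.** -/
theorem WFam.TV_pg (h : WFam k₀ N R S μ J τ β Sr Θ G E M rr p H ZM ZE ZQ Qm) {j : ℕ} (hj : j ≤ J)
    {s : ℝ} (hs : s = (μ / 4 ^ j)⁻¹) :
    TV k₀ N R S (Vf s Sr Θ G) ≤ 1300 * τ ^ 2 * s * Ow J H ZM ZE Qm
      + 432 * (τ * s) * (2 + τ * β⁻¹) * ZQ := by
  have h4 : 0 < μ / 4 ^ j := div_pos h.hμ (by positivity)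
  have hs0 : 0 < s := by rw [hs]; exact inv_pos.2 h4
  have hτ := h.hτ
  have hβ := h.hβ
  have hO := h.Ow_ge
  have hH0 := h.H0
  have hQ0 := h.ZQ0
  have hc : 0 ≤ 12 * (τ * s) * (2 + τ * β⁻¹) := by positivity
  have key := TV_step h.hkN (V := Vf s Sr Θ G) (R := R) (S := S)
    (fun k a n m => psd_isSymm (h.sV hs0 k a n m))
    (q := fun k a n m => 8 * τ ^ 2 * dls s
        (Sr k (a + 1) n m * G k a (2 * n) m * Sr k (a + 1) n m)
        (Sr k (a + 1) n m * G k a (2 * n + 1) m * Sr k (a + 1) n m)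
      + 12 * (τ * s) * (2 + τ * β⁻¹)
        * eQ (E k a n m) (M k a n m) (G k a (2 * n) m) (G k a (2 * n + 1) m))
    (H := τ ^ 2 * s * H)
    (Q := 8 * τ ^ 2 * (s * (4 * Ow J H ZM ZE Qm)) + 12 * (τ * s) * (2 + τ * β⁻¹) * ZQ)
    (fun k a n m h1 h2 h3 => by
      have e := H784.pg_step' hs0 hβ hτ (h.sΘ k (a + 1) n m) (h.pS k (a + 1) n m)
        (h.sM k a n m) (psd_isSymm (h.pE k a n m)) (h.bS k (a + 1) n m) (h.tΘ k (a + 1) n m)
        (h.pG k a (2 * n) m) (h.pG k a (2 * n + 1) m)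
        (by rw [← h.S0 k a n m h1 h2 h3]; exact h.bS k a (2 * n) m)
        (by rw [← h.S1 k a n m h1 h2 h3]; exact h.bS k a (2 * n + 1) m)
        (by rw [← h.S0 k a n m h1 h2 h3, ← h.Θ0 k a n m h1 h2 h3]; exact h.tΘ k a (2 * n) m)
        (by rw [← h.S1 k a n m h1 h2 h3, ← h.Θ1 k a n m h1 h2 h3]; exact h.tΘ k a (2 * n + 1) m)
      rw [← h.par k a n m h1 h2 h3, ← h.S0 k a n m h1 h2 h3, ← h.Θ0 k a n m h1 h2 h3,
        ← h.S1 k a n m h1 h2 h3, ← h.Θ1 k a n m h1 h2 h3] at e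
      exact e)
    (fun k a h1 h2 h3 => by
      have e1 : EW N R S k (Vf s Sr Θ G k) a
          = bsum N R S k a fun n m => H389.sq (Vf s Sr Θ G k a n m) := rfl
      rw [e1]
      have e2 : (bsum N R S k a fun n m => H389.sq (Vf s Sr Θ G k a n m))
          ≤ bsum N R S k a fun n m => τ ^ 2 * s * (Sr k a n m * Sr k a n m * G k a n m).trace :=
        bsum_mono fun n m => sq_pg_le hs0 hτ (h.sΘ k a n m) (psd_isSymm (h.pS k a n m))
          (h.uS k a n m) (h.tΘ k a n m) (h.pG k a n m)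
      rw [bsum_smul] at e2
      exact e2.trans (mul_le_mul_of_nonneg_left (h.hH k a h1 h2 h3) (by positivity)))
    (fun r => by
      have e1 := h.SD_diag r
      have e2 := h.hZQ r
      calc ∑ k ∈ Ico k₀ (N - r), bsum N R S k (k + r + 1) (fun n m => 8 * τ ^ 2 * dls s
              (Sr k (k + r + 1) n m * G k (k + r) (2 * n) m * Sr k (k + r + 1) n m)
              (Sr k (k + r + 1) n m * G k (k + r) (2 * n + 1) m * Sr k (k + r + 1) n m)
            + 12 * (τ * s) * (2 + τ * β⁻¹) * eQ (E k (k + r) n m) (M k (k + r) n m)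
              (G k (k + r) (2 * n) m) (G k (k + r) (2 * n + 1) m))
          ≤ ∑ k ∈ Ico k₀ (N - r), bsum N R S k (k + r + 1) (fun n m => 8 * τ ^ 2 * (s * SD μ J
              (Sr k (k + r + 1) n m * G k (k + r) (2 * n) m * Sr k (k + r + 1) n m)
              (Sr k (k + r + 1) n m * G k (k + r) (2 * n + 1) m * Sr k (k + r + 1) n m))
            + 12 * (τ * s) * (2 + τ * β⁻¹) * eQ (E k (k + r) n m) (M k (k + r) n m)
              (G k (k + r) (2 * n) m) (G k (k + r) (2 * n + 1) m)) :=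
            sum_le_sum fun k _ => bsum_mono fun n m => add_le_add (mul_le_mul_of_nonneg_left
              (dls_le (psd_conj_symm (h.pG _ _ _ _) (psd_isSymm (h.pS _ _ _ _)))
                (psd_conj_symm (h.pG _ _ _ _) (psd_isSymm (h.pS _ _ _ _))) h.hμ hj hs)
              (by positivity)) le_rfl
        _ = 8 * τ ^ 2 * (s * ∑ k ∈ Ico k₀ (N - r), bsum N R S k (k + r + 1) (fun n m => SD μ J
              (Sr k (k + r + 1) n m * G k (k + r) (2 * n) m * Sr k (k + r + 1) n m)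
              (Sr k (k + r + 1) n m * G k (k + r) (2 * n + 1) m * Sr k (k + r + 1) n m)))
            + 12 * (τ * s) * (2 + τ * β⁻¹) * ∑ k ∈ Ico k₀ (N - r), bsum N R S k (k + r + 1)
              (fun n m => eQ (E k (k + r) n m) (M k (k + r) n m)
                (G k (k + r) (2 * n) m) (G k (k + r) (2 * n + 1) m)) := by
            simp only [bsum_add, bsum_smul, sum_add_distrib, ← mul_sum]
        _ ≤ _ := add_le_add (mul_le_mul_of_nonneg_left (mul_le_mul_of_nonneg_left e1 hs0.le)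
              (by positivity)) (mul_le_mul_of_nonneg_left e2 hc))
  have hO0 : 0 ≤ Ow J H ZM ZE Qm := hH0.trans hO
  have f1 : τ ^ 2 * s * H ≤ τ ^ 2 * s * Ow J H ZM ZE Qm :=
    mul_le_mul_of_nonneg_left hO (by positivity)
  have f2 : 0 ≤ τ ^ 2 * s * Ow J H ZM ZE Qm := by positivity
  refine key.trans ?_
  linarith

end fam

end

end Vale.Agent.P141.H419.TVpg
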