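import Vale.Agent.P141.H457.RealBC
import Vale.Agent.P141.H419.TVpg

/-!
# P141, line (A), (TI): hub `x1`, moving weight: the families of the real letters

The fields of `H419.TVpg.WFam` (and of its form with numbers per lag) for the families
`SD be T k a`, `TD T k a`, `CP (c k) k a`, `TD e k a`, `TD d k a` of `H457`, and all numbers as plain
sums over points.
-/

set_option linter.unusedSectionVars false

namespace Vale.Agent.P141.H419.WFamR

open Finset Matrix Vale.Agent.P075 Vale.Agent.P141.PL Vale.Agent.P141.PL.H103 Vale.Agent.P141.H103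
open Vale.Agent.P141.H389 Vale.Agent.P141.H505 Vale.Agent.P141.H336
open Vale.Agent.P141.H457 Vale.Agent.P141.H874
open Vale.Agent.P141.H419.PairW Vale.Agent.P141.H419.TVpg

noncomputable section

/-! ### The own energy of block diagonal matrices -/

section sg

variable {n m : Type*} [Fintype n] [DecidableEq n] [Fintype m] [DecidableEq m]

theorem SG_sub (μ : ℝ) (J : ℕ) (e : m ≃ n) (X : Matrix n n ℝ) :
    SG μ J (X.submatrix e e) = SG μ J X := by
  unfold SG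
  refine sum_congr rfl fun j _ => ?_
  have h : (μ / 4 ^ j) • X.submatrix e e = ((μ / 4 ^ j) • X).submatrix e e := rfl
  rw [h, GX_sub]

theorem SG_bd {μ : ℝ} (hμ : 0 < μ) (J : ℕ) {A D : Matrix n n ℝ} (hA : A.PosSemidef)
    (hD : D.PosSemidef) : SG μ J (bd A D) = SG μ J A + SG μ J D := by
  unfold SG
  rw [← sum_add_distrib]
  refine sum_congr rfl fun j _ => ?_
  have h0 : (0 : ℝ) ≤ μ / 4 ^ j := by positivity
  have h : (μ / 4 ^ j) • bd A D = bd ((μ / 4 ^ j) • A) ((μ / 4 ^ j) • D) := by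
    rw [bd, bd, fromBlocks_smul]
    simp
  rw [h, GX, GX, GX, ld_bd (hA.smul h0) (hD.smul h0), trace_bd]
  ring

end sg

variable {κ : Type*} [Fintype κ] [DecidableEq κ]

/-! ### The middle step -/

/-- the price of the changes at a middle step -/
def pc (J : ℕ) (be : ℝ) (T : ℕ → ℤ → ℤ → Matrix κ κ ℝ) (Pc : ℕ → ℤ → ℤ → Prop)
    (c : ℕ → ℤ → ℤ → κ → ℝ) (k a : ℕ) (n m : ℤ) : ℝ :=
  (1 / 2) * (((J : ℝ) + 1)
      * (WD be T k a n (2 * m) * CP (rs (Pc k) k (c (k + 1))) k a n (2 * m)).trace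
    + ((J : ℝ) + 1)
      * (WD be T k a n (2 * m + 1) * CP (rs (Pc k) k (c (k + 1))) k a n (2 * m + 1)).trace)

section mid

variable {be : ℝ} {T : ℕ → ℤ → ℤ → Matrix κ κ ℝ}

theorem hub_split (hb : 0 < be) (hT : ∀ k x m, (T k x m).PosSemidef) (c : ℤ → ℤ → κ → ℝ)
    (k a : ℕ) (n m : ℤ) :
    (SD be T (k + 1) a n m * CP c (k + 1) a n m * SD be T (k + 1) a n m
      + sk (k + 1) κ * (SD be T (k + 1) a n m * CP c (k + 1) a n m * SD be T (k + 1) a n m)
        * sk (k + 1) κ).submatrix (eS k κ) (eS k κ)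
      = bd (SD be T k a n (2 * m) * CP c k a n (2 * m) * SD be T k a n (2 * m))
        (SD be T k a n (2 * m + 1) * CP c k a n (2 * m + 1) * SD be T k a n (2 * m + 1)) := by
  have hsub : (sk (k + 1) κ).submatrix (eS k κ) (eS k κ) = rad (Ix k × κ) := sk_split k
  have eG : (CP c (k + 1) a n m + sk (k + 1) κ *
      CP c (k + 1) a n m * sk (k + 1) κ).submatrix (eS k κ) (eS k κ) =
      bd (CP c k a n (2 * m)) (CP c k a n (2 * m + 1)) := by
    rw [submatrix_add, Pi.add_apply, Pi.add_apply, ← mul_sub', ← mul_sub', hsub]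
    exact BM_split k m _
  have eT : (SD be T (k + 1) a n m).submatrix (eS k κ) (eS k κ) =
      bd (SD be T k a n (2 * m)) (SD be T k a n (2 * m + 1)) := DB_split _ _ _
  have cm : sk (k + 1) κ * SD be T (k + 1) a n m = SD be T (k + 1) a n m * sk (k + 1) κ :=
    sk_DB _ _ _
  have e1 : SD be T (k + 1) a n m * CP c (k + 1) a n m * SD be T (k + 1) a n m
      + sk (k + 1) κ * (SD be T (k + 1) a n m * CP c (k + 1) a n m * SD be T (k + 1) a n m)
        * sk (k + 1) κ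
      = SD be T (k + 1) a n m * (CP c (k + 1) a n m + sk (k + 1) κ *
        CP c (k + 1) a n m * sk (k + 1) κ) * SD be T (k + 1) a n m := by
    rw [Matrix.mul_add, Matrix.add_mul]
    congr 1
    calc sk (k + 1) κ * (SD be T (k + 1) a n m * CP c (k + 1) a n m * SD be T (k + 1) a n m)
          * sk (k + 1) κ
        = (sk (k + 1) κ * SD be T (k + 1) a n m) * CP c (k + 1) a n m
          * (SD be T (k + 1) a n m * sk (k + 1) κ) := by simp only [Matrix.mul_assoc]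
      _ = (SD be T (k + 1) a n m * sk (k + 1) κ) * CP c (k + 1) a n m
          * (sk (k + 1) κ * SD be T (k + 1) a n m) := by rw [cm]
      _ = _ := by simp only [Matrix.mul_assoc]
  rw [e1, ← mul_sub', ← mul_sub', eG, eT, P075.bd_mul, P075.bd_mul]

/-- **own energy, middle step of the hub**, changes on row pieces -/
theorem mid_real (hb : 0 < be) (hT : ∀ k x m, (T k x m).PosSemidef) {μ : ℝ} (hμ : 0 < μ) (J : ℕ)
    {k : ℕ} {Pc : ℕ → ℤ → ℤ → Prop} {c : ℕ → ℤ → ℤ → κ → ℝ}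
    (hPc : ∀ w m, ¬ Pc k w m → ∀ x ∈ iv k m, c (k + 1) x w = c k x w) (a : ℕ) (n m : ℤ) :
    (1 / 2) * SG μ J (SD be T (k + 1) a n m * CP (c (k + 1)) (k + 1) a n m * SD be T (k + 1) a n m
        + sk (k + 1) κ * (SD be T (k + 1) a n m * CP (c (k + 1)) (k + 1) a n m
          * SD be T (k + 1) a n m) * sk (k + 1) κ)
      ≤ (1 / 2) * (SG μ J (SD be T k a n (2 * m) * CP (c k) k a n (2 * m) * SD be T k a n (2 * m))
        + SG μ J (SD be T k a n (2 * m + 1) * CP (c k) k a n (2 * m + 1)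
          * SD be T k a n (2 * m + 1))) + pc J be T Pc c k a n m := by
  have hS : ∀ h, (SD be T k a n h)ᵀ = SD be T k a n h := fun h =>
    psd_isSymm (SD_psd hb hT k a n h)
  have pp : ∀ (f : ℤ → ℤ → κ → ℝ) (h : ℤ),
      (SD be T k a n h * CP f k a n h * SD be T k a n h).PosSemidef := fun f h =>
    psd_conj_symm (CP_psd f k a n h) (hS h)
  rw [← SG_sub μ J (eS k κ), hub_split hb hT, SG_bd hμ J (pp _ _) (pp _ _)]
  have key : ∀ h, SG μ J (SD be T k a n h * CP (c (k + 1)) k a n h * SD be T k a n h)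
      ≤ SG μ J (SD be T k a n h * CP (c k) k a n h * SD be T k a n h)
        + ((J : ℝ) + 1) * (WD be T k a n h * CP (rs (Pc k) k (c (k + 1))) k a n h).trace := by
    intro h
    have g := CP_change hPc a n h
    have e1 : SD be T k a n h * CP (c (k + 1)) k a n h * SD be T k a n h
        + SD be T k a n h * CP (rs (Pc k) k (c k)) k a n h * SD be T k a n h
        = SD be T k a n h * CP (c k) k a n h * SD be T k a n h
        + SD be T k a n h * CP (rs (Pc k) k (c (k + 1))) k a n h * SD be T k a n h := by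
      rw [← Matrix.add_mul, ← Matrix.add_mul, ← Matrix.mul_add, ← Matrix.mul_add, g]
    have h1 := H389.SG_mono hμ J (pp (c (k + 1)) h) (pp (rs (Pc k) k (c k)) h)
    have h2 := H389.SG_add_le hμ J (pp (c k) h) (pp (rs (Pc k) k (c (k + 1))) h)
    rw [e1] at h1
    have e2 : (SD be T k a n h * CP (rs (Pc k) k (c (k + 1))) k a n h * SD be T k a n h).trace
        = (WD be T k a n h * CP (rs (Pc k) k (c (k + 1))) k a n h).trace := by
      rw [trace_mul_comm, ← Matrix.mul_assoc, SD_sq hb hT]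
    rw [e2] at h2
    linarith
  have k0 := key (2 * m)
  have k1 := key (2 * m + 1)
  unfold pc
  linarith

end mid

/-! ### Caps and moves -/

section outer

variable {be : ℝ} {T e d : ℕ → ℤ → ℤ → Matrix κ κ ℝ}

theorem par_real (c : ℤ → ℤ → κ → ℝ) (k a : ℕ) (n m : ℤ) :
    CP c k (a + 1) n m = (1 / 2 : ℝ) • (CP c k a (2 * n) m + CP c k a (2 * n + 1) m) := by
  unfold CP
  rw [BM_add, BM_smul]
  congr 1
  funext x x'
  exact XR_step a c c x x' n

/-- a cap of the parent is a cap of both children, twice -/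
theorem cap_real (hb : 0 < be) (hT : ∀ k x m, (T k x m).PosSemidef) {c : ℤ → ℤ → κ → ℝ}
    {k a : ℕ} {n m : ℤ} {C ν : ℝ} (hν : 0 ≤ ν) (hC : ν * (2 * C) ≤ 1)
    (h : (C • (1 : Matrix (Ix k × κ) (Ix k × κ) ℝ)
      - SD be T k (a + 1) n m * CP c k (a + 1) n m * SD be T k (a + 1) n m).PosSemidef) :
    (1 - ν • (SD be T k (a + 1) n m * CP c k a (2 * n) m * SD be T k (a + 1) n m)).PosSemidef ∧
    (1 - ν • (SD be T k (a + 1) n m * CP c k a (2 * n + 1) m
      * SD be T k (a + 1) n m)).PosSemidef := by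
  have hS := psd_isSymm (SD_psd hb hT k (a + 1) n m)
  have p0 := psd_conj_symm (CP_psd c k a (2 * n) m) hS
  have p1 := psd_conj_symm (CP_psd c k a (2 * n + 1) m) hS
  have e : SD be T k (a + 1) n m * CP c k (a + 1) n m * SD be T k (a + 1) n m
      = (1 / 2 : ℝ) • (SD be T k (a + 1) n m * CP c k a (2 * n) m * SD be T k (a + 1) n m
        + SD be T k (a + 1) n m * CP c k a (2 * n + 1) m * SD be T k (a + 1) n m) := by
    rw [par_real, Matrix.mul_smul, Matrix.smul_mul, Matrix.mul_add, Matrix.add_mul]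
  rw [e] at h
  set X₀ := SD be T k (a + 1) n m * CP c k a (2 * n) m * SD be T k (a + 1) n m with hX0
  set X₁ := SD be T k (a + 1) n m * CP c k a (2 * n + 1) m * SD be T k (a + 1) n m with hX1
  have h2 : ((1 - ν * (2 * C)) • (1 : Matrix (Ix k × κ) (Ix k × κ) ℝ)).PosSemidef :=
    PosSemidef.one.smul (by linarith)
  have h3 := h.smul (show (0 : ℝ) ≤ 2 * ν by positivity)
  constructor
  · have h4 := (h2.add h3).add (p1.smul hν)
    have e4 : (1 - ν * (2 * C)) • (1 : Matrix (Ix k × κ) (Ix k × κ) ℝ)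
        + (2 * ν) • (C • (1 : Matrix (Ix k × κ) (Ix k × κ) ℝ) - (1 / 2 : ℝ) • (X₀ + X₁)) + ν • X₁
        = 1 - ν • X₀ := by module
    rwa [e4] at h4
  · have h4 := (h2.add h3).add (p0.smul hν)
    have e4 : (1 - ν * (2 * C)) • (1 : Matrix (Ix k × κ) (Ix k × κ) ℝ)
        + (2 * ν) • (C • (1 : Matrix (Ix k × κ) (Ix k × κ) ℝ) - (1 / 2 : ℝ) • (X₀ + X₁)) + ν • X₀
        = 1 - ν • X₁ := by module
    rwa [e4] at h4

theorem S0_real (hb : 0 < be) (hT : H419.Wt T e d) (k a : ℕ) (n m : ℤ) :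
    SD be T k a (2 * n) m * SD be T k a (2 * n) m
      = SD be T k (a + 1) n m * SD be T k (a + 1) n m - TD e k a n m + TD d k a n m := by
  rw [SD_sq hb hT.ps, SD_sq hb hT.ps, WD_even hT]

theorem S1_real (hb : 0 < be) (hT : H419.Wt T e d) (k a : ℕ) (n m : ℤ) :
    SD be T k a (2 * n + 1) m * SD be T k a (2 * n + 1) m
      = SD be T k (a + 1) n m * SD be T k (a + 1) n m - TD e k a n m - TD d k a n m := by
  rw [SD_sq hb hT.ps, SD_sq hb hT.ps, WD_odd hT]

/-- `W ≥ be` -/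
theorem bS_real (hb : 0 < be) (hT : ∀ k x m, (T k x m).PosSemidef) (k a : ℕ) (n m : ℤ) :
    (SD be T k a n m * SD be T k a n m - be • 1).PosSemidef := by
  rw [SD_sq hb hT, WD_eq, add_sub_cancel_left]
  exact TD_psd hT _ _ _ _

end outer

/-! ### Numbers as plain sums -/

theorem sum_iv2 {a N : ℕ} (h : a ≤ N) (R : ℤ) (f : ℤ → ℝ) :
    ∑ n ∈ iv (N - a) R, ∑ x ∈ iv a n, f x = ∑ x ∈ iv N R, f x := by
  have hm : ∀ x ∈ iv N R, ix a x ∈ iv (N - a) R := by
    intro x hx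
    rw [mem_iv] at hx ⊢
    rw [ix_ix, Nat.add_sub_cancel' h, hx]
  rw [← sum_fiberwise_of_maps_to hm]
  refine sum_congr rfl fun n hn => sum_congr ?_ fun _ _ => rfl
  ext x
  rw [mem_filter, mem_iv, mem_iv]
  constructor
  · intro hx
    refine ⟨?_, hx⟩
    rw [mem_iv] at hn
    rw [← hn, ← hx, ix_ix, Nat.add_sub_cancel' h]
  · exact fun hx => hx.2

/-- box sums of traces against block diagonal matrices -/
theorem bsum_DB {N : ℕ} (R S : ℤ) {k a : ℕ} (hk : k ≤ N) (ha : a ≤ N) (c : ℤ → ℤ → κ → ℝ)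
    (F : ℤ → ℤ → Matrix κ κ ℝ) :
    H336.bsum N R S k a (fun n m => (DB k m (fun x => F x n) * CP c k a n m).trace)
      = ∑ x ∈ iv N S, ∑ w ∈ iv N R, c x w ⬝ᵥ F x (ix a w) *ᵥ c x w := by
  have e1 : ∀ n m, (DB k m (fun x => F x n) * CP c k a n m).trace
      = ((2 : ℝ) ^ k * 2 ^ a)⁻¹ * ∑ x ∈ iv k m, ∑ y ∈ iv a n, c x y ⬝ᵥ F x (ix a y) *ᵥ c x y := by
    intro n m
    rw [trace_mul_comm, trace_CP_DB]
    congr 1
    refine sum_congr rfl fun x _ => sum_congr rfl fun y hy => ?_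
    rw [mem_iv.1 hy]
  unfold H336.bsum
  simp only [e1, ← mul_sum]
  rw [← mul_assoc, show (2 : ℝ) ^ a * 2 ^ k * (2 ^ k * 2 ^ a)⁻¹ = 1 by
    rw [mul_comm ((2 : ℝ) ^ a)]; exact mul_inv_cancel₀ (by positivity), one_mul]
  have e2 : ∀ m, ∑ n ∈ iv (N - a) R, ∑ x ∈ iv k m, ∑ y ∈ iv a n,
      c x y ⬝ᵥ F x (ix a y) *ᵥ c x y
      = ∑ x ∈ iv k m, ∑ y ∈ iv N R, c x y ⬝ᵥ F x (ix a y) *ᵥ c x y := by
    intro m
    rw [sum_comm]
    exact sum_congr rfl fun x _ => sum_iv2 ha R _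
  simp only [e2]
  exact sum_iv2 hk S _

/-- mass of `W c` at outer scale `a` -/
def Wn (N : ℕ) (R S : ℤ) (be : ℝ) (T : ℕ → ℤ → ℤ → Matrix κ κ ℝ) (c : ℤ → ℤ → κ → ℝ) (a : ℕ) : ℝ :=
  ∑ x ∈ iv N S, ∑ w ∈ iv N R, c x w ⬝ᵥ (be • (1 : Matrix κ κ ℝ) + T a x (ix a w)) *ᵥ c x w

/-- variation of the weight against `c` at the outer step `a` -/
def Dn (N : ℕ) (R S : ℤ) (d : ℕ → ℤ → ℤ → Matrix κ κ ℝ) (c : ℤ → ℤ → κ → ℝ) (a : ℕ) : ℝ :=
  ∑ x ∈ iv N S, ∑ w ∈ iv N R, (d a x (ix (a + 1) w) *ᵥ c x w) ⬝ᵥ (d a x (ix (a + 1) w) *ᵥ c x w)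

/-- drift of the weight against `c` at the outer step `a` -/
def En (N : ℕ) (R S : ℤ) (e : ℕ → ℤ → ℤ → Matrix κ κ ℝ) (c : ℤ → ℤ → κ → ℝ) (a : ℕ) : ℝ :=
  ∑ x ∈ iv N S, ∑ w ∈ iv N R, c x w ⬝ᵥ e a x (ix (a + 1) w) *ᵥ c x w

section num

variable {be : ℝ} {T e d : ℕ → ℤ → ℤ → Matrix κ κ ℝ}

theorem bsum_W {N : ℕ} (R S : ℤ) {k a : ℕ} (hk : k ≤ N) (ha : a ≤ N) (c : ℤ → ℤ → κ → ℝ) :
    H336.bsum N R S k a (fun n m => (WD be T k a n m * CP c k a n m).trace) = Wn N R S be T c a :=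
  bsum_DB R S hk ha c fun x n => be • (1 : Matrix κ κ ℝ) + T a x n

theorem H_real (hb : 0 < be) (hT : ∀ k x m, (T k x m).PosSemidef) {N : ℕ} (R S : ℤ) {k a : ℕ}
    (hk : k ≤ N) (ha : a ≤ N) (c : ℤ → ℤ → κ → ℝ) :
    H336.bsum N R S k a (fun n m => (SD be T k a n m * SD be T k a n m * CP c k a n m).trace)
      = Wn N R S be T c a := by
  rw [← bsum_W R S hk ha c]
  congr 1
  funext n m
  rw [SD_sq hb hT]

theorem eE_real {N : ℕ} (R S : ℤ) {k a : ℕ} (hk : k ≤ N) (ha : a < N) (c : ℤ → ℤ → κ → ℝ) :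
    H336.bsum N R S k (a + 1) (fun n m => eE (TD e k a n m) (CP c k a (2 * n) m)
      (CP c k a (2 * n + 1) m)) = 2 * En N R S e c a := by
  have h := bsum_DB R S hk (show a + 1 ≤ N from ha) c fun x n => e a x n
  unfold En
  rw [← h, ← bsum_smul]
  congr 1
  funext n m
  unfold eE TD
  rw [par_real, Matrix.mul_smul, trace_smul, smul_eq_mul, Matrix.mul_add, trace_add]
  ring

/-- a block diagonal square -/
theorem bsum_sq {N : ℕ} (R S : ℤ) {k a : ℕ} (hk : k ≤ N) (ha : a ≤ N) (c : ℤ → ℤ → κ → ℝ)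
    {F : ℤ → ℤ → Matrix κ κ ℝ} (hF : ∀ x n, (F x n)ᵀ = F x n) :
    H336.bsum N R S k a (fun n m => (DB k m (fun x => F x n) * DB k m (fun x => F x n)
      * CP c k a n m).trace)
      = ∑ x ∈ iv N S, ∑ w ∈ iv N R, (F x (ix a w) *ᵥ c x w) ⬝ᵥ (F x (ix a w) *ᵥ c x w) := by
  have h := bsum_DB R S hk ha c fun x n => F x n * F x n
  simp only [DB_mul]
  rw [h]
  refine sum_congr rfl fun x _ => sum_congr rfl fun w _ => ?_
  rw [← mulVec_mulVec, dotProduct_mulVec, ← mulVec_transpose, hF]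

theorem eM_real (hb : 0 < be) (hT : H419.Wt T e d) {N : ℕ} (R S : ℤ) {k a : ℕ} (hk : k ≤ N)
    (ha : a < N) (c : ℤ → ℤ → κ → ℝ) :
    H336.bsum N R S k (a + 1) (fun n m => eM (SD be T k (a + 1) n m) (TD d k a n m)
      (CP c k a (2 * n) m) (CP c k a (2 * n + 1) m)) ≤ 2 * be⁻¹ * Dn N R S d c a := by
  have hbi := inv_pos.2 hb
  have h := bsum_sq R S hk (show a + 1 ≤ N from ha) c (F := fun x n => d a x n)
    fun x n => hT.d_symm a x n
  unfold Dn
  rw [← h, ← bsum_smul]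
  refine bsum_mono fun n m => ?_
  have e0 : ∀ G : Matrix (Ix k × κ) (Ix k × κ) ℝ, (TD d k a n m * ((SD be T k (a + 1) n m)⁻¹
      * (SD be T k (a + 1) n m)⁻¹) * TD d k a n m * G).trace
      = (TD d k a n m * (WD be T k (a + 1) n m)⁻¹ * TD d k a n m * G).trace := by
    intro G
    rw [← Matrix.mul_inv_rev, SD_sq hb hT.ps]
  have hd : (TD d k a n m)ᵀ = TD d k a n m := TD_tr (fun k x m => hT.d_symm k x m) _ _ _ _
  have hW := WD_posDef hb hT.ps k (a + 1) n m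
  have hinv : (be⁻¹ • (1 : Matrix (Ix k × κ) (Ix k × κ) ℝ)
      - (WD be T k (a + 1) n m)⁻¹).PosSemidef := by
    have i1 : WD be T k (a + 1) n m * (WD be T k (a + 1) n m)⁻¹ = 1 :=
      mul_nonsing_inv _ ((isUnit_iff_isUnit_det _).mp hW.isUnit)
    have i2 : (WD be T k (a + 1) n m)⁻¹ * WD be T k (a + 1) n m = 1 :=
      nonsing_inv_mul _ ((isUnit_iff_isUnit_det _).mp hW.isUnit)
    have eW := WD_eq be T k (a + 1) n m
    have pT := TD_psd hT.ps k (a + 1) n m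
    obtain ⟨S₁, hS₁, eS₁⟩ : ∃ S₁ : Matrix (Ix k × κ) (Ix k × κ) ℝ, S₁ᵀ = S₁ ∧
        S₁ * S₁ = (WD be T k (a + 1) n m)⁻¹ :=
      ⟨(SD be T k (a + 1) n m)⁻¹, by
        rw [transpose_nonsing_inv, psd_isSymm (SD_psd hb hT.ps k (a + 1) n m)], by
        rw [← Matrix.mul_inv_rev, SD_sq hb hT.ps]⟩
    have hSm : S₁ = (SD be T k (a + 1) n m)⁻¹ ∨ True := Or.inr trivial
    have q : ((SD be T k (a + 1) n m)⁻¹ * TD T k (a + 1) n m
        * (SD be T k (a + 1) n m)⁻¹).PosSemidef :=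
      psd_conj_symm pT (by
        rw [transpose_nonsing_inv, psd_isSymm (SD_psd hb hT.ps k (a + 1) n m)])
    have hu := SD_unit hb hT.ps k (a + 1) n m
    have j1 := nonsing_inv_mul _ hu
    have j2 := mul_nonsing_inv _ hu
    have e5 : (SD be T k (a + 1) n m)⁻¹ * TD T k (a + 1) n m * (SD be T k (a + 1) n m)⁻¹
        = 1 - be • (WD be T k (a + 1) n m)⁻¹ := by
      have e6 : TD T k (a + 1) n m = SD be T k (a + 1) n m * SD be T k (a + 1) n m
          - be • (1 : Matrix (Ix k × κ) (Ix k × κ) ℝ) := by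
        rw [SD_sq hb hT.ps, eW, add_sub_cancel_left]
      rw [e6, Matrix.mul_sub, Matrix.sub_mul, ← Matrix.mul_assoc, j1, Matrix.one_mul, j2,
        Matrix.mul_smul, Matrix.smul_mul, Matrix.mul_one, ← Matrix.mul_inv_rev, SD_sq hb hT.ps]
    rw [e5] at q
    have q2 := q.smul hbi.le
    rw [smul_sub, smul_smul, inv_mul_cancel₀ hb.ne', one_smul] at q2
    exact q2
  have q3 := psd_conj_symm hinv hd
  have q4 := trace_mul_nonneg q3 (CP_psd c k (a + 1) n m)
  have e7 : TD d k a n m * (be⁻¹ • (1 : Matrix (Ix k × κ) (Ix k × κ) ℝ)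
      - (WD be T k (a + 1) n m)⁻¹) * TD d k a n m
      = be⁻¹ • (TD d k a n m * TD d k a n m)
        - TD d k a n m * (WD be T k (a + 1) n m)⁻¹ * TD d k a n m := by
    rw [Matrix.mul_sub, Matrix.sub_mul, Matrix.mul_smul, Matrix.smul_mul, Matrix.mul_one]
  rw [e7, Matrix.sub_mul, trace_sub, Matrix.smul_mul, trace_smul, smul_eq_mul] at q4
  unfold eM
  rw [e0, e0]
  have e8 : (TD d k a n m * (WD be T k (a + 1) n m)⁻¹ * TD d k a n m
      * CP c k (a + 1) n m).trace = (1 / 2) * ((TD d k a n m * (WD be T k (a + 1) n m)⁻¹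
        * TD d k a n m * CP c k a (2 * n) m).trace + (TD d k a n m * (WD be T k (a + 1) n m)⁻¹
        * TD d k a n m * CP c k a (2 * n + 1) m).trace) := by
    rw [par_real, Matrix.mul_smul, trace_smul, smul_eq_mul, Matrix.mul_add, trace_add]
  rw [e8] at q4
  have e9 : (TD d k a n m * TD d k a n m * CP c k (a + 1) n m).trace
      = ((DB k m fun x => d a x n) * (DB k m fun x => d a x n) * CP c k (a + 1) n m).trace := rfl
  rw [e9] at q4
  linarith

/-- the drift is below the weight -/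
theorem e_le (hT : H419.Wt T e d) {τ : ℝ} (h2 : ∀ k x m, (τ • (1 : Matrix κ κ ℝ) - T k x m).PosSemidef)
    (k : ℕ) (x m : ℤ) : (τ • (1 : Matrix κ κ ℝ) - e k x m).PosSemidef := by
  have h3 := h2 (k + 1) x m
  have h4 : ((1 / 2 : ℝ) • (T k x (2 * m) + T k x (2 * m + 1))).PosSemidef :=
    ((hT.ps k x (2 * m)).add (hT.ps k x (2 * m + 1))).smul (by norm_num)
  have e1 : (1 / 2 : ℝ) • (T k x (2 * m) + T k x (2 * m + 1)) = T (k + 1) x m - e k x m := by
    rw [hT.even, hT.odd]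
    module
  rw [e1] at h4
  have := h3.add h4
  rwa [sub_add_sub_cancel] at this

theorem eQ_real (hT : H419.Wt T e d) {τ : ℝ}
    (h2 : ∀ k x m, (τ • (1 : Matrix κ κ ℝ) - T k x m).PosSemidef) {N : ℕ} (R S : ℤ) {k a : ℕ}
    (hk : k ≤ N) (ha : a < N) (c : ℤ → ℤ → κ → ℝ) :
    H336.bsum N R S k (a + 1) (fun n m => eQ (TD e k a n m) (TD d k a n m)
      (CP c k a (2 * n) m) (CP c k a (2 * n + 1) m))
      ≤ 2 * Dn N R S d c a + 2 * τ * En N R S e c a := by
  have he : ∀ k x m, (e k x m)ᵀ = e k x m := fun k x m => psd_isSymm (hT.pe k x m)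
  have hd := bsum_sq R S hk (show a + 1 ≤ N from ha) c (F := fun x n => d a x n)
    fun x n => hT.d_symm a x n
  have he' := bsum_sq R S hk (show a + 1 ≤ N from ha) c (F := fun x n => e a x n)
    fun x n => he a x n
  have e1 : H336.bsum N R S k (a + 1) (fun n m => eQ (TD e k a n m) (TD d k a n m)
      (CP c k a (2 * n) m) (CP c k a (2 * n + 1) m))
      = 2 * Dn N R S d c a + 2 * ∑ x ∈ iv N S, ∑ w ∈ iv N R,
        (e a x (ix (a + 1) w) *ᵥ c x w) ⬝ᵥ (e a x (ix (a + 1) w) *ᵥ c x w) := by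
    unfold Dn
    rw [← hd, ← he', ← bsum_smul, ← bsum_smul, ← bsum_add]
    congr 1
    funext n m
    unfold eQ TD
    rw [par_real, Matrix.mul_smul, Matrix.mul_smul, trace_smul, trace_smul, smul_eq_mul,
      smul_eq_mul]
    ring
  rw [e1]
  have h3 : ∑ x ∈ iv N S, ∑ w ∈ iv N R,
        (e a x (ix (a + 1) w) *ᵥ c x w) ⬝ᵥ (e a x (ix (a + 1) w) *ᵥ c x w)
      ≤ τ * En N R S e c a := by
    unfold En
    simp only [mul_sum]
    refine sum_le_sum fun x _ => sum_le_sum fun w _ => ?_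
    set E₁ := e a x (ix (a + 1) w) with hE1
    obtain ⟨B, hB, hBB⟩ := exists_sq (hT.pe a x (ix (a + 1) w))
    rw [← hE1] at hBB
    have sB : Bᵀ = B := psd_isSymm hB
    have hc := psd_conj_symm (e_le hT h2 a x (ix (a + 1) w)) sB
    rw [← hE1] at hc
    have e5 : B * (τ • (1 : Matrix κ κ ℝ) - E₁) * B = τ • E₁ - E₁ * E₁ := by
      rw [← hBB, Matrix.mul_sub, Matrix.sub_mul, Matrix.mul_smul, Matrix.smul_mul, Matrix.mul_one]
      simp only [Matrix.mul_assoc]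
    rw [e5] at hc
    have h6 := hc.dotProduct_mulVec_nonneg (c x w)
    rw [star_trivial, Matrix.sub_mulVec, dotProduct_sub, Matrix.smul_mulVec, dotProduct_smul,
      smul_eq_mul] at h6
    have e7 : c x w ⬝ᵥ (E₁ * E₁) *ᵥ c x w = (E₁ *ᵥ c x w) ⬝ᵥ (E₁ *ᵥ c x w) := by
      rw [← mulVec_mulVec, dotProduct_mulVec, ← mulVec_transpose, hE1, he]
    rw [e7] at h6
    linarith
  linarith

/-- the price of the changes as a plain sum -/
theorem pc_real (J : ℕ) {N : ℕ} (R S : ℤ) {k a : ℕ} (hk : k < N) (ha : a ≤ N)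
    (Pc : ℕ → ℤ → ℤ → Prop) (c : ℕ → ℤ → ℤ → κ → ℝ) :
    H336.bsum N R S (k + 1) a (fun n m => pc J be T Pc c k a n m)
      = ((J : ℝ) + 1) * Wn N R S be T (rs (Pc k) k (c (k + 1))) a := by
  unfold pc
  rw [bsum_mid hk R S (fun n m => ((J : ℝ) + 1)
      * (WD be T k a n m * CP (rs (Pc k) k (c (k + 1))) k a n m).trace), bsum_smul,
    bsum_W R S hk.le ha]

end num

end

end Vale.Agent.P141.H419.WFamR
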