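import Vale.Agent.P141.H419.Max3
import Vale.Agent.P141.H238.SysG
import Vale.Agent.P141.H115g.WGb
import Vale.Agent.P141.H922.PairGl

/-!
# P141, line W: the mixed glue for the natural weight `W_g`

`glueG_dot : GlueG CgG` (letters of `H238/SysG`), absolute constant `CgG`; `two_le_CgG`.
The three edge averages are dominated by the two-dimensional maximal functions, the three averages
of products by the three-dimensional one (`Max3`); the sum is Hölder with the exponents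
`5/2, 5, 5, 5` and the inequality of Loomis and Whitney.
-/

namespace Vale.Agent.P141.H419

open Finset
open Vale.Agent.P141.H315 (Grid dot)
open Vale.Agent.P141.PL (Pt el)
open Vale.Agent.P141.PL.H315 (cube3 mem_cube3 gz card_cube3 avg iv mem_iv
  e12 e13 e23 Tri atm card_iv avg_nonneg A2 A2_nonneg avg_e12 avg_e13 avg_e23 loomis_whitney)
open Vale.Agent.P141.PL.H95 (gr mem_gr card_gr)
open Vale.Agent.P141.PL.H318 (ixs csz mem_gs a1 dot_a1)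
open Vale.Agent.P141.H782 (ic mem_ic bl card_bl bl3 mem_bl3 card_bl3 cube3_sub glue_abs MF MF_nonneg
  cut A2_le_MF div_of_le)
open Vale.Agent.P141.H922 (sum_MF_le rpow_const)
open Vale.Agent.P141.H115g (ga ga_nonneg gp gp_nonneg avg_prod_rpow_le)
open Vale.Agent.P141.H238 (wG wG_nonneg pG GlueG)

noncomputable section

/-! ### The cut functions -/

/-- a function, cut to the cube of scale `l` of `q` -/
def cut3 (g : Pt → ℝ) (l : ℕ) (q : Pt) (x y z : ℤ) : ℝ :=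
  if x / 2 ^ l = q.1 / 2 ^ l ∧ y / 2 ^ l = q.2.1 / 2 ^ l ∧ z / 2 ^ l = q.2.2 / 2 ^ l then
    g (x, y, z) else 0

theorem cut3_nonneg {g : Pt → ℝ} (hg : ∀ y, 0 ≤ g y) (l : ℕ) (q : Pt) (x y z : ℤ) :
    0 ≤ cut3 g l q x y z := by
  unfold cut3; split_ifs
  · exact hg _
  · exact le_rfl

theorem cut3_supp (g : Pt → ℝ) (l : ℕ) (q : Pt) (x y z : ℤ) (h : cut3 g l q x y z ≠ 0) :
    x / 2 ^ l = q.1 / 2 ^ l ∧ y / 2 ^ l = q.2.1 / 2 ^ l ∧ z / 2 ^ l = q.2.2 / 2 ^ l := by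
  unfold cut3 at h
  by_contra h'
  rw [if_neg h'] at h
  exact h rfl

/-- the average over a subcube is a cube sum of the cut function -/
theorem avg_eq_Cb (g : Pt → ℝ) {k l : ℕ} (hkl : k ≤ l) {q z : Pt}
    (h1 : z.1 / 2 ^ l = q.1 / 2 ^ l) (h2 : z.2.1 / 2 ^ l = q.2.1 / 2 ^ l)
    (h3 : z.2.2 / 2 ^ l = q.2.2 / 2 ^ l) :
    avg (cube3 k z) g =
      Cb (cut3 g l q) k (z.1 / 2 ^ k) (z.2.1 / 2 ^ k) (z.2.2 / 2 ^ k) / 8 ^ k := by
  have h4 : Cb (cut3 g l q) k (z.1 / 2 ^ k) (z.2.1 / 2 ^ k) (z.2.2 / 2 ^ k) =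
      ∑ w ∈ cube3 k z, g w := by
    unfold cube3
    rw [sum_product]
    unfold Cb
    have e1 : ∀ x, ic k (x / 2 ^ k) = iv k x := fun x => by
      ext y; rw [mem_ic, mem_iv]
    rw [e1, e1, e1]
    refine sum_congr rfl fun x hx => ?_
    rw [sum_product]
    refine sum_congr rfl fun y hy => sum_congr rfl fun t ht => ?_
    unfold cut3
    rw [if_pos]
    rw [mem_iv] at hx hy ht
    exact ⟨(div_of_le hkl hx).trans h1, (div_of_le hkl hy).trans h2, (div_of_le hkl ht).trans h3⟩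
  unfold avg
  rw [h4, card_cube3]
  push_cast
  rw [inv_mul_eq_div]

theorem avg_le_MF3 {g : Pt → ℝ} (hg : ∀ y, 0 ≤ g y) {k l : ℕ} (hkl : k ≤ l) {q z y : Pt}
    (hz : z ∈ cube3 l q) (hy : y ∈ bl3 k z) :
    avg (cube3 k z) g ≤ MF3 (cut3 g l q) l y := by
  have hz' := mem_cube3.1 hz
  rw [mem_iv, mem_iv, mem_iv] at hz'
  obtain ⟨z1, z2, z3⟩ := hz'
  obtain ⟨y1, y2, y3⟩ := mem_bl3.1 hy
  rw [avg_eq_Cb g hkl z1 z2 z3]
  have h := le_MF3 (fun x y z => cut3_nonneg hg l q x y z) hkl (d1 := z.1 / 2 ^ k - y.1 / 2 ^ k)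
    (d2 := z.2.1 / 2 ^ k - y.2.1 / 2 ^ k) (d3 := z.2.2 / 2 ^ k - y.2.2 / 2 ^ k)
    ⟨by linarith [y1.2], by linarith [y1.1]⟩ ⟨by linarith [y2.2], by linarith [y2.1]⟩
    ⟨by linarith [y3.2], by linarith [y3.1]⟩ y
  rwa [add_sub_cancel, add_sub_cancel, add_sub_cancel] at h

/-- the sum of the powers `5/6` of the three-dimensional maximal function -/
theorem sum_C_le {g : Pt → ℝ} (hg : ∀ y, 0 ≤ g y) (l : ℕ) (q : Pt) :
    avg (bl3 l q) (fun y => MF3 (cut3 g l q) l y ^ (5 / 6 : ℝ)) ≤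
      30 * avg (cube3 l q) g ^ (5 / 6 : ℝ) := by
  have h := sum_MF3_le (e := 1 / 6) (by norm_num) (by norm_num)
    (F := cut3 g l q) (fun x y z => cut3_nonneg hg l q x y z) (l := l)
    (fun x y z h => cut3_supp g l q x y z h)
  rw [← avg_eq_Cb g le_rfl rfl rfl rfl, show (1 - 1 / 6 : ℝ) = 5 / 6 by norm_num] at h
  have hc : ((bl3 l q).card : ℝ) = 27 * 8 ^ l := by rw [card_bl3]; push_cast; ring
  have hp : (0 : ℝ) < 27 * 8 ^ l := by positivity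
  unfold avg at *
  rw [hc, inv_mul_le_iff₀ hp]
  refine h.trans (le_of_eq ?_)
  ring

/-! ### The point function -/

/-- the product of the three edge maximal functions -/
def ME (l : ℕ) (q : Pt) (u : Tri) (y : Pt) : ℝ :=
  MF (cut u.1 l q.1 q.2.1) l (y.1, y.2.1) * MF (cut u.2.1 l q.1 q.2.2) l (y.1, y.2.2) *
    MF (cut u.2.2 l q.2.1 q.2.2) l (y.2.1, y.2.2)

theorem ME_nonneg (l : ℕ) (q : Pt) (u : Tri) (y : Pt) : 0 ≤ ME l q u y :=
  mul_nonneg (mul_nonneg (MF_nonneg _ _ _) (MF_nonneg _ _ _)) (MF_nonneg _ _ _)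

/-- the maximal function of the product number `i` -/
def MC (i : Fin 6) (l : ℕ) (q : Pt) (u : Tri) (y : Pt) : ℝ := MF3 (cut3 (ga u i) l q) l y

theorem MC_nonneg (i : Fin 6) (l : ℕ) (q : Pt) (u : Tri) (y : Pt) : 0 ≤ MC i l q u y :=
  MF3_nonneg _ _ _

/-- the point function which dominates the density of the natural weight -/
def MG (l : ℕ) (q : Pt) (u : Tri) (y : Pt) : ℝ :=
  ME l q u y ^ (1 / 6 : ℝ) * (MC 3 l q u y ^ (1 / 6 : ℝ) * MC 4 l q u y ^ (1 / 6 : ℝ) *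
    MC 5 l q u y ^ (1 / 6 : ℝ))

theorem MG_nonneg (l : ℕ) (q : Pt) (u : Tri) (y : Pt) : 0 ≤ MG l q u y :=
  mul_nonneg (Real.rpow_nonneg (ME_nonneg _ _ _ _) _) (mul_nonneg (mul_nonneg
    (Real.rpow_nonneg (MC_nonneg _ _ _ _ _) _) (Real.rpow_nonneg (MC_nonneg _ _ _ _ _) _))
    (Real.rpow_nonneg (MC_nonneg _ _ _ _ _) _))

/-- the edge part of the density -/
def AE (k : ℕ) (z : Pt) (u : Tri) : ℝ :=
  A2 k u.1 z.1 z.2.1 * A2 k u.2.1 z.1 z.2.2 * A2 k u.2.2 z.2.1 z.2.2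

theorem AE_nonneg (k : ℕ) (z : Pt) (u : Tri) : 0 ≤ AE k z u :=
  mul_nonneg (mul_nonneg (A2_nonneg _ _ _ _) (A2_nonneg _ _ _ _)) (A2_nonneg _ _ _ _)

/-- the six roots -/
theorem gp_cube (k : ℕ) (z : Pt) (u : Tri) :
    gp (cube3 k z) u = AE k z u ^ (1 / 6 : ℝ) * (avg (cube3 k z) (ga u 3) ^ (1 / 6 : ℝ) *
      avg (cube3 k z) (ga u 4) ^ (1 / 6 : ℝ) * avg (cube3 k z) (ga u 5) ^ (1 / 6 : ℝ)) := by
  unfold gp AE
  rw [Fin.prod_univ_six, Real.mul_rpow (mul_nonneg (A2_nonneg _ _ _ _) (A2_nonneg _ _ _ _))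
    (A2_nonneg _ _ _ _), Real.mul_rpow (A2_nonneg _ _ _ _) (A2_nonneg _ _ _ _),
    ← avg_e12, ← avg_e13, ← avg_e23]
  have e0 : ga u 0 = fun y => e12 u.1 y ^ 2 := rfl
  have e1 : ga u 1 = fun y => e13 u.2.1 y ^ 2 := rfl
  have e2 : ga u 2 = fun y => e23 u.2.2 y ^ 2 := rfl
  rw [e0, e1, e2]
  ring

/-- the density of the natural weight on the neighbouring cubes -/
theorem wG_le_MG {δ : ℝ} (hδ : 0 ≤ δ) {k l : ℕ} (hkl : k ≤ l)
    {q z y : Pt} (hz : z ∈ cube3 l q) (hy : y ∈ bl3 k z) (u : Tri) :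
    wG δ (cube3 k z) u ≤ 8 ^ k * (δ * MG l q u y) := by
  have hz' := mem_cube3.1 hz
  rw [mem_iv, mem_iv, mem_iv] at hz'
  obtain ⟨z1, z2, z3⟩ := hz'
  obtain ⟨y1, y2, y3⟩ := mem_bl3.1 hy
  have a12 := A2_le_MF u.1 hkl z1 z2 (w := (y.1, y.2.1)) y1 y2
  have a13 := A2_le_MF u.2.1 hkl z1 z3 (w := (y.1, y.2.2)) y1 y3
  have a23 := A2_le_MF u.2.2 hkl z2 z3 (w := (y.2.1, y.2.2)) y2 y3
  have p12 := A2_nonneg k u.1 z.1 z.2.1
  have p13 := A2_nonneg k u.2.1 z.1 z.2.2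
  have p23 := A2_nonneg k u.2.2 z.2.1 z.2.2
  have hE : AE k z u ≤ ME l q u y :=
    mul_le_mul (mul_le_mul a12 a13 p13 (p12.trans a12)) a23 p23
      (mul_nonneg (p12.trans a12) (p13.trans a13))
  have hC : ∀ i, avg (cube3 k z) (ga u i) ^ (1 / 6 : ℝ) ≤ MC i l q u y ^ (1 / 6 : ℝ) := fun i =>
    Real.rpow_le_rpow (avg_nonneg fun y _ => ga_nonneg u i y)
      (avg_le_MF3 (fun y => ga_nonneg u i y) hkl hz hy) (by norm_num)
  have hn : ∀ i, 0 ≤ avg (cube3 k z) (ga u i) ^ (1 / 6 : ℝ) := fun i =>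
    Real.rpow_nonneg (avg_nonneg fun y _ => ga_nonneg u i y) _
  have hm : ∀ i, 0 ≤ MC i l q u y ^ (1 / 6 : ℝ) := fun i => Real.rpow_nonneg (MC_nonneg _ _ _ _ _) _
  have h : gp (cube3 k z) u ≤ MG l q u y := by
    rw [gp_cube]
    unfold MG
    exact mul_le_mul (Real.rpow_le_rpow (AE_nonneg _ _ _) hE (by norm_num))
      (mul_le_mul (mul_le_mul (hC 3) (hC 4) (hn 4) (hm 3)) (hC 5) (hn 5)
        (mul_nonneg (hm 3) (hm 4)))
      (mul_nonneg (mul_nonneg (hn 3) (hn 4)) (hn 5)) (Real.rpow_nonneg (ME_nonneg _ _ _ _) _)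
  rw [Vale.Agent.P141.H115g.wG_eq238, Vale.Agent.P141.H115g.wG_eq, card_cube3]
  push_cast
  calc δ * 8 ^ k * gp (cube3 k z) u = 8 ^ k * (δ * gp (cube3 k z) u) := by ring
    _ ≤ _ := mul_le_mul_of_nonneg_left (mul_le_mul_of_nonneg_left h hδ) (by positivity)

/-! ### The sum of the point function -/

/-- the edge part: Loomis and Whitney -/
theorem avg_ME_le (l : ℕ) (q : Pt) (u : Tri) :
    avg (bl3 l q) (fun y => ME l q u y ^ (5 / 12 : ℝ)) ^ 2 ≤ 27000 * AE l q u ^ (5 / 6 : ℝ) := by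
  have hsq : ∀ x : ℝ, 0 ≤ x → (x ^ (5 / 12 : ℝ)) ^ 2 = x ^ (5 / 6 : ℝ) := fun x hx => by
    rw [← Real.rpow_natCast, ← Real.rpow_mul hx]; norm_num
  have hedge : ∀ (v : ℤ × ℤ → ℝ) (a b : ℤ), ∑ x ∈ bl l (a / 2 ^ l), ∑ y ∈ bl l (b / 2 ^ l),
      (MF (cut v l a b) l (x, y) ^ (5 / 12 : ℝ)) ^ 2 ≤
        270 * 4 ^ l * A2 l v a b ^ (5 / 6 : ℝ) := by
    intro v a b
    have h := sum_MF_le (e := 1 / 6) (by norm_num) (by norm_num) v l a b
    rw [sum_product, show (1 - 1 / 6 : ℝ) = 5 / 6 by norm_num] at h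
    refine le_trans (le_of_eq ?_) (h.trans (le_of_eq ?_))
    · exact sum_congr rfl fun x _ => sum_congr rfl fun y _ => hsq _ (MF_nonneg _ _ _)
    · ring
  have b12 := hedge u.1 q.1 q.2.1
  have b13 := hedge u.2.1 q.1 q.2.2
  have b23 := hedge u.2.2 q.2.1 q.2.2
  have hlw := loomis_whitney (bl l (q.1 / 2 ^ l)) (bl l (q.2.1 / 2 ^ l)) (bl l (q.2.2 / 2 ^ l))
    (fun x y => MF (cut u.1 l q.1 q.2.1) l (x, y) ^ (5 / 12 : ℝ))
    (fun x z => MF (cut u.2.1 l q.1 q.2.2) l (x, z) ^ (5 / 12 : ℝ))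
    (fun y z => MF (cut u.2.2 l q.2.1 q.2.2) l (y, z) ^ (5 / 12 : ℝ))
  have hS : ∑ y ∈ bl3 l q, ME l q u y ^ (5 / 12 : ℝ) =
      ∑ x ∈ bl l (q.1 / 2 ^ l), ∑ y ∈ bl l (q.2.1 / 2 ^ l), ∑ z ∈ bl l (q.2.2 / 2 ^ l),
        MF (cut u.1 l q.1 q.2.1) l (x, y) ^ (5 / 12 : ℝ) *
          MF (cut u.2.1 l q.1 q.2.2) l (x, z) ^ (5 / 12 : ℝ) *
            MF (cut u.2.2 l q.2.1 q.2.2) l (y, z) ^ (5 / 12 : ℝ) := by
    unfold bl3
    rw [sum_product]
    refine sum_congr rfl fun x _ => ?_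
    rw [sum_product]
    refine sum_congr rfl fun y _ => sum_congr rfl fun z _ => ?_
    unfold ME
    rw [Real.mul_rpow (mul_nonneg (MF_nonneg _ _ _) (MF_nonneg _ _ _)) (MF_nonneg _ _ _),
      Real.mul_rpow (MF_nonneg _ _ _) (MF_nonneg _ _ _)]
  rw [← hS] at hlw
  have n12 := A2_nonneg l u.1 q.1 q.2.1
  have n13 := A2_nonneg l u.2.1 q.1 q.2.2
  have n23 := A2_nonneg l u.2.2 q.2.1 q.2.2
  have r12 := Real.rpow_nonneg n12 (5 / 6)
  have r13 := Real.rpow_nonneg n13 (5 / 6)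
  have r23 := Real.rpow_nonneg n23 (5 / 6)
  have s13 : 0 ≤ ∑ x ∈ bl l (q.1 / 2 ^ l), ∑ z ∈ bl l (q.2.2 / 2 ^ l),
      (MF (cut u.2.1 l q.1 q.2.2) l (x, z) ^ (5 / 12 : ℝ)) ^ 2 :=
    sum_nonneg fun _ _ => sum_nonneg fun _ _ => sq_nonneg _
  have s23 : 0 ≤ ∑ y ∈ bl l (q.2.1 / 2 ^ l), ∑ z ∈ bl l (q.2.2 / 2 ^ l),
      (MF (cut u.2.2 l q.2.1 q.2.2) l (y, z) ^ (5 / 12 : ℝ)) ^ 2 :=
    sum_nonneg fun _ _ => sum_nonneg fun _ _ => sq_nonneg _
  have hb := mul_le_mul (mul_le_mul b12 b13 s13 (by positivity)) b23 s23 (by positivity)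
  have h2 := hlw.trans hb
  have hc : ((bl3 l q).card : ℝ) = 27 * 8 ^ l := by rw [card_bl3]; push_cast; ring
  have h7 : ((8 : ℝ) ^ l) ^ 2 = 4 ^ l * 4 ^ l * 4 ^ l := by
    rw [← mul_pow, ← mul_pow, ← pow_mul, mul_comm l 2, pow_mul]; norm_num
  unfold avg
  rw [hc, mul_pow, inv_pow, inv_mul_le_iff₀ (by positivity), mul_pow, h7]
  refine h2.trans (le_of_eq ?_)
  unfold AE
  rw [Real.mul_rpow (mul_nonneg n12 n13) n23, Real.mul_rpow n12 n13]
  ring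

theorem rp (a b c : ℝ) (h : a * b = c) {x : ℝ} (hx : 0 ≤ x) : (x ^ a) ^ b = x ^ c := by
  rw [← Real.rpow_mul hx, h]

theorem sum_MG_le (l : ℕ) (q : Pt) (u : Tri) :
    ∑ y ∈ bl3 l q, MG l q u y ≤ 1728 * 8 ^ l * gp (cube3 l q) u := by
  have hc : ((bl3 l q).card : ℝ) = 27 * 8 ^ l := by rw [card_bl3]; push_cast; ring
  have hH := avg_prod_rpow_le (bl3 l q) (![2 / 5, 1 / 5, 1 / 5, 1 / 5] : Fin 4 → ℝ)
    (fun i => by fin_cases i <;> norm_num) (by rw [Fin.sum_univ_four]; simp; norm_num)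
    (![fun y => ME l q u y ^ (5 / 12 : ℝ), fun y => MC 3 l q u y ^ (5 / 6 : ℝ),
      fun y => MC 4 l q u y ^ (5 / 6 : ℝ), fun y => MC 5 l q u y ^ (5 / 6 : ℝ)] :
        Fin 4 → Pt → ℝ)
    (fun i y _ => by
      fin_cases i
      · exact Real.rpow_nonneg (ME_nonneg _ _ _ _) _
      · exact Real.rpow_nonneg (MC_nonneg _ _ _ _ _) _
      · exact Real.rpow_nonneg (MC_nonneg _ _ _ _ _) _
      · exact Real.rpow_nonneg (MC_nonneg _ _ _ _ _) _)
  simp only [Fin.prod_univ_four, Matrix.cons_val_zero, Matrix.cons_val_one, Matrix.cons_val] at hH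
  have e1 : avg (bl3 l q) (fun y => (ME l q u y ^ (5 / 12 : ℝ)) ^ (2 / 5 : ℝ) *
      (MC 3 l q u y ^ (5 / 6 : ℝ)) ^ (1 / 5 : ℝ) * (MC 4 l q u y ^ (5 / 6 : ℝ)) ^ (1 / 5 : ℝ) *
        (MC 5 l q u y ^ (5 / 6 : ℝ)) ^ (1 / 5 : ℝ)) = avg (bl3 l q) (MG l q u) := by
    congr 1
    funext y
    unfold MG
    rw [rp (5 / 12) (2 / 5) (1 / 6) (by norm_num) (ME_nonneg _ _ _ _),
      rp (5 / 6) (1 / 5) (1 / 6) (by norm_num) (MC_nonneg _ _ _ _ _),
      rp (5 / 6) (1 / 5) (1 / 6) (by norm_num) (MC_nonneg _ _ _ _ _),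
      rp (5 / 6) (1 / 5) (1 / 6) (by norm_num) (MC_nonneg _ _ _ _ _)]
    ring
  rw [e1] at hH
  have hE0 : 0 ≤ avg (bl3 l q) (fun y => ME l q u y ^ (5 / 12 : ℝ)) :=
    avg_nonneg fun y _ => Real.rpow_nonneg (ME_nonneg _ _ _ _) _
  have hC0 : ∀ i, 0 ≤ avg (bl3 l q) (fun y => MC i l q u y ^ (5 / 6 : ℝ)) := fun i =>
    avg_nonneg fun y _ => Real.rpow_nonneg (MC_nonneg _ _ _ _ _) _
  have c27 : (27000 : ℝ) ^ (1 / 5 : ℝ) ≤ 8 := by
    have := rpow_const (c := 27000) (r := 8) (m := 5) (j := 1) (by norm_num)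
      (by norm_num) (by norm_num) (by norm_num)
    norm_num at this ⊢
    exact this
  have c30 : (30 : ℝ) ^ (1 / 5 : ℝ) ≤ 2 := by
    have := rpow_const (c := 30) (r := 2) (m := 5) (j := 1) (by norm_num)
      (by norm_num) (by norm_num) (by norm_num)
    norm_num at this ⊢
    exact this
  have hE : avg (bl3 l q) (fun y => ME l q u y ^ (5 / 12 : ℝ)) ^ (2 / 5 : ℝ) ≤
      8 * AE l q u ^ (1 / 6 : ℝ) := by
    have h1 := avg_ME_le l q u
    have h2 := Real.rpow_le_rpow (sq_nonneg _) h1 (z := 1 / 5) (by norm_num)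
    rw [← Real.rpow_natCast, ← Real.rpow_mul hE0,
      Real.mul_rpow (by norm_num) (Real.rpow_nonneg (AE_nonneg _ _ _) _),
      rp (5 / 6) (1 / 5) (1 / 6) (by norm_num) (AE_nonneg _ _ _)] at h2
    rw [show (((2 : ℕ) : ℝ) * (1 / 5)) = 2 / 5 by norm_num] at h2
    exact h2.trans (mul_le_mul_of_nonneg_right c27 (Real.rpow_nonneg (AE_nonneg _ _ _) _))
  have hC : ∀ i, avg (bl3 l q) (fun y => MC i l q u y ^ (5 / 6 : ℝ)) ^ (1 / 5 : ℝ) ≤
      2 * avg (cube3 l q) (ga u i) ^ (1 / 6 : ℝ) := by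
    intro i
    have hn : 0 ≤ avg (cube3 l q) (ga u i) := avg_nonneg fun y _ => ga_nonneg u i y
    have h2 := Real.rpow_le_rpow (hC0 i) (sum_C_le (fun y => ga_nonneg u i y) l q)
      (z := 1 / 5) (by norm_num)
    rw [Real.mul_rpow (by norm_num) (Real.rpow_nonneg hn _),
      rp (5 / 6) (1 / 5) (1 / 6) (by norm_num) hn] at h2
    exact h2.trans (mul_le_mul_of_nonneg_right c30 (Real.rpow_nonneg hn _))
  have hCn : ∀ i, 0 ≤ avg (bl3 l q) (fun y => MC i l q u y ^ (5 / 6 : ℝ)) ^ (1 / 5 : ℝ) := fun i =>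
    Real.rpow_nonneg (hC0 i) _
  have hgn : ∀ i, 0 ≤ avg (cube3 l q) (ga u i) ^ (1 / 6 : ℝ) := fun i =>
    Real.rpow_nonneg (avg_nonneg fun y _ => ga_nonneg u i y) _
  have hAn := Real.rpow_nonneg (AE_nonneg l q u) (1 / 6)
  have h3 : avg (bl3 l q) (MG l q u) ≤ 64 * gp (cube3 l q) u := by
    refine hH.trans ?_
    have m1 := mul_le_mul hE (hC 3) (hCn 3) (mul_nonneg (by norm_num) hAn)
    have m2 := mul_le_mul m1 (hC 4) (hCn 4)
      (mul_nonneg (mul_nonneg (by norm_num) hAn) (mul_nonneg (by norm_num) (hgn 3)))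
    have m3 := mul_le_mul m2 (hC 5) (hCn 5)
      (mul_nonneg (mul_nonneg (mul_nonneg (by norm_num) hAn) (mul_nonneg (by norm_num) (hgn 3)))
        (mul_nonneg (by norm_num) (hgn 4)))
    refine m3.trans (le_of_eq ?_)
    rw [gp_cube]
    ring
  unfold avg at h3
  rw [hc, inv_mul_le_iff₀ (by positivity)] at h3
  refine h3.trans (le_of_eq ?_)
  ring

/-- the constant of the gluing -/
def CgG : ℝ := 746496

theorem two_le_CgG : 2 ≤ CgG := by unfold CgG; norm_num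

open Classical in
/-- **MIXED GLUE for the natural weight**, absolute constant. -/
theorem glueG {c0 : ℕ} {σ : ℤ} {c : Pt} (hc : csz c ≤ 2 ^ c0) {δ : ℝ} (hδ : 0 ≤ δ)
    {l : ℕ} {m : ℤ → ℕ} {A : ℤ → Prop}
    (hm : ∀ x y, A x → ixs c0 σ (m x) y = ixs c0 σ (m x) x → A y ∧ m y = m x)
    (hml : ∀ x, A x → m x ≤ l) {G : ℤ → ℝ} (q : Pt) (u : Tri)
    (h : ∀ x, A x → ∀ z ∈ cube3 l q,
      |dot ((gr c0 σ).cube (m x) x) G (a1 c (m x) (z, u))| ≤ wG δ (cube3 (m x) z) u) :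
    |∑ y ∈ cube3 l q, (if A (el c y) then G (el c y) else 0) * atm u y| ≤
      CgG * wG δ (cube3 l q) u := by
  have key := glue_abs hc (l := l) (q := q) hm hml (φ := fun y => G (el c y) * atm u y)
    (w := fun k z => wG δ (cube3 k z) u) (fun k z => wG_nonneg hδ _ _)
    (fun x hx z hz => by
      have h2 := h x hx z hz
      rw [dot_a1] at h2
      refine le_trans (le_of_eq ?_) h2
      congr 1
      refine sum_congr rfl fun y _ => ?_
      by_cases hy : ixs c0 σ (m x) (el c y) = ixs c0 σ (m x) x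
      · rw [if_pos hy, if_pos (mem_gs.2 hy)]
      · rw [if_neg hy, if_neg (fun h' => hy (mem_gs.1 h'))])
    (M := fun y => δ * MG l q u y)
    (fun y => mul_nonneg hδ (MG_nonneg l q u y))
    (fun k hk z hz y hy => wG_le_MG hδ hk hz hy u)
  have hsum : 432 * ∑ y ∈ bl3 l q, δ * MG l q u y ≤ CgG * wG δ (cube3 l q) u := by
    rw [← mul_sum, Vale.Agent.P141.H115g.wG_eq238, Vale.Agent.P141.H115g.wG_eq]
    have h2 := sum_MG_le l q u
    unfold CgG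
    rw [card_cube3]
    push_cast
    calc 432 * (δ * ∑ y ∈ bl3 l q, MG l q u y) ≤
          432 * (δ * (1728 * 8 ^ l * gp (cube3 l q) u)) := by gcongr
      _ = _ := by ring
  refine le_trans (le_of_eq ?_) (key.trans hsum)
  congr 1
  refine sum_congr rfl fun y _ => ?_
  by_cases hy : A (el c y)
  · rw [if_pos hy, if_pos hy]
  · rw [if_neg hy, if_neg hy, zero_mul]

/-- **MIXED GLUE on a cell**, natural weight: the tests of `sysG`. -/
theorem glueG_dot : GlueG CgG := by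
  classical
  intro c0 σ c hc δ hδ l x0 m A hm hml G q u h
  have key := glueG hc hδ (l := l) (m := m)
    (A := fun x => x ∈ (gr c0 σ).cube l x0 ∧ A x)
    (fun x y hx hy => by
      obtain ⟨h2, h3⟩ := hm x hx.1 y hx.2 hy
      have hl := hml x hx.1 hx.2
      have h4 : y ∈ (gr c0 σ).cube l x := (gr c0 σ).sub_le hl x (mem_gs.2 hy)
      have h5 : (gr c0 σ).cube l x = (gr c0 σ).cube l x0 := (gr c0 σ).eq_of_mem l x0 x hx.1
      exact ⟨⟨h5 ▸ h4, h2⟩, h3⟩)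
    (fun x hx => hml x hx.1 hx.2) (G := G) q u (fun x hx => h x hx.1 hx.2)
  rw [dot_a1]
  refine le_trans (le_of_eq ?_) key
  congr 1
  refine sum_congr rfl fun y _ => ?_
  by_cases hy : el c y ∈ (gr c0 σ).cube l x0
  · by_cases hA : A (el c y)
    · rw [if_pos hy, if_pos hA, if_pos ⟨hy, hA⟩]
    · rw [if_pos hy, if_neg hA, if_neg (fun h' => hA h'.2)]
  · rw [if_neg hy, if_neg (fun h' => hy h'.1), zero_mul]

end

end Vale.Agent.P141.H419
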